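import Vale.Agent.P028.Tail

namespace Vale.Agent.P028

open Finset
open scoped Classical

/-- The basic scale. -/
noncomputable def W0 : ℕ := ⌈(6 * c23) ^ 4⌉₊ + 3

lemma W0_ge : 3 ≤ W0 := Nat.le_add_left _ _

lemma Ab_exists (x : ℕ) : ∃ W, W0 ≤ W ∧ S x W ≤ 1 :=
  ⟨max x W0, le_max_right _ _, by rw [S_eq_zero x _ (le_max_left _ _)]; norm_num⟩

/-- The abnormality scale of `x`. -/
noncomputable def Ab (x : ℕ) : ℕ := Nat.find (Ab_exists x)

lemma Ab_ge (x : ℕ) : W0 ≤ Ab x := (Nat.find_spec (Ab_exists x)).1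

lemma S_Ab (x : ℕ) : S x (Ab x) ≤ 1 := (Nat.find_spec (Ab_exists x)).2

lemma S_pred_Ab {x : ℕ} (h : W0 < Ab x) : 1 < S x (Ab x - 1) := by
  by_contra hle
  exact Nat.find_min (Ab_exists x) (show Ab x - 1 < Ab x by omega) ⟨by omega, not_lt.1 hle⟩

lemma large_inv_sum_le {x W : ℕ} (hW : Ab x ≤ W) :
    ∑ p ∈ x.primeFactors.filter (fun p => W < p), 1 / (p:ℝ) ≤ 1 := by
  refine le_trans ?_ ((S_anti x hW).trans (S_Ab x))
  apply Finset.sum_le_sum
  intro p hp
  simp only [Finset.mem_filter] at hp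
  have h3 : 3 ≤ p := by have := Ab_ge x; have := W0_ge; omega
  have hlog : 1 ≤ Real.log p := by
    rw [Real.le_log_iff_exp_le (by positivity)]
    have := Real.exp_one_lt_d9
    have : (3:ℝ) ≤ p := by exact_mod_cast h3
    linarith
  exact div_le_div_of_nonneg_right (one_le_pow₀ hlog) (Nat.cast_nonneg _)

lemma small_prod_le {x W : ℕ} (hx : 0 < x) (hW : Ab x ≤ W) :
    ∏ p ∈ x.primeFactors.filter (fun p => p ≤ W), (1 - 1 / (p:ℝ)) ≤ Real.exp 2 * lam x := by
  have hpr : ∀ p ∈ x.primeFactors.filter (fun p => W < p), 2 ≤ p := fun p hp =>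
    (Nat.prime_of_mem_primeFactors (Finset.mem_filter.1 hp).1).two_le
  have h := prod_one_sub_ge _ hpr
  have h2 := large_inv_sum_le hW
  have h3 : Real.exp (-2) ≤ ∏ p ∈ x.primeFactors.filter (fun p => W < p), (1 - 1 / (p:ℝ)) :=
    le_trans (Real.exp_le_exp.2 (by linarith)) h
  have e : lam x = (∏ p ∈ x.primeFactors.filter (fun p => p ≤ W), (1 - 1 / (p:ℝ))) *
      ∏ p ∈ x.primeFactors.filter (fun p => W < p), (1 - 1 / (p:ℝ)) := by
    rw [lam_eq_prod hx, ← Finset.prod_filter_mul_prod_filter_not x.primeFactors (fun p => p ≤ W)]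
    congr 1
    exact Finset.prod_congr (Finset.filter_congr fun p _ => not_le) fun _ _ => rfl
  have h0 : 0 ≤ ∏ p ∈ x.primeFactors.filter (fun p => p ≤ W), (1 - 1 / (p:ℝ)) := by
    refine Finset.prod_nonneg fun p hp => ?_
    have : (1:ℝ) ≤ p := by
      exact_mod_cast (Nat.prime_of_mem_primeFactors (Finset.mem_filter.1 hp).1).one_le
    have : 1 / (p:ℝ) ≤ 1 := by rw [div_le_one (by linarith)]; exact this
    linarith
  rw [e]
  have he : Real.exp 2 * Real.exp (-2) = 1 := by rw [← Real.exp_add]; norm_num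
  calc _ = (∏ p ∈ x.primeFactors.filter (fun p => p ≤ W), (1 - 1 / (p:ℝ))) *
        (Real.exp 2 * Real.exp (-2)) := by rw [he, mul_one]
    _ ≤ (∏ p ∈ x.primeFactors.filter (fun p => p ≤ W), (1 - 1 / (p:ℝ))) *
        (Real.exp 2 * ∏ p ∈ x.primeFactors.filter (fun p => W < p), (1 - 1 / (p:ℝ))) :=
      mul_le_mul_of_nonneg_left (mul_le_mul_of_nonneg_left h3 (Real.exp_pos _).le) h0
    _ = _ := by ring

lemma one_div_le_small_prod (x W : ℕ) (hW : 1 ≤ W) :
    1 / (W:ℝ) ≤ ∏ p ∈ x.primeFactors.filter (fun p => p ≤ W), (1 - 1 / (p:ℝ)) := by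
  have h2 : ∀ p ∈ x.primeFactors.filter (fun p => p ≤ W), 2 ≤ p := fun p hp =>
    (Nat.prime_of_mem_primeFactors (Finset.mem_filter.1 hp).1).two_le
  refine le_trans ?_ (one_div_card_succ_le_prod _ h2)
  have hsub : x.primeFactors.filter (fun p => p ≤ W) ⊆ Finset.Icc 2 W := fun p hp =>
    Finset.mem_Icc.2 ⟨h2 p hp, (Finset.mem_filter.1 hp).2⟩
  have hc := Finset.card_le_card hsub
  rw [Nat.card_Icc] at hc
  apply one_div_le_one_div_of_le (by positivity)
  exact_mod_cast (by omega : (x.primeFactors.filter (fun p => p ≤ W)).card + 1 ≤ W)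

lemma small_card_le (x W : ℕ) : (x.primeFactors.filter (fun p => p ≤ W)).card ≤ W := by
  have hsub : x.primeFactors.filter (fun p => p ≤ W) ⊆ Finset.Icc 1 W := fun p hp =>
    Finset.mem_Icc.2 ⟨(Nat.prime_of_mem_primeFactors (Finset.mem_filter.1 hp).1).one_le,
      (Finset.mem_filter.1 hp).2⟩
  exact (Finset.card_le_card hsub).trans (by simp)

lemma lam_lower {x : ℕ} (hx : 0 < x) : 1 / (Real.exp 2 * (Ab x : ℝ)) ≤ lam x := by
  have h1 : 1 ≤ Ab x := by have := Ab_ge x; have := W0_ge; omega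
  have h := (one_div_le_small_prod x (Ab x) h1).trans (small_prod_le hx le_rfl)
  rw [← div_div, div_right_comm, div_le_iff₀ (Real.exp_pos _)]
  linarith

/-- The abnormality event for the cofactor. -/
def Event (z W : ℕ) : Prop := W = W0 ∨ 1/2 < S z (W - 1)

lemma event_of_small {g z : ℕ} (hg : 0 < g) (hz : 0 < z)
    (h : Real.log g < Real.sqrt (Real.sqrt (Ab (g * z)))) : Event z (Ab (g * z)) := by
  set W := Ab (g * z) with hW
  rcases eq_or_ne W W0 with e | e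
  · exact Or.inl e
  right
  have hlt : W0 < W := lt_of_le_of_ne (Ab_ge _) (Ne.symm e)
  have h1 := S_pred_Ab (x := g * z) hlt
  have h2 := S_mul_le g z (W - 1) hg hz
  rw [← hW] at h1
  have hW3 : 3 ≤ W := by have := W0_ge; omega
  set y := Real.sqrt (Real.sqrt (W:ℝ)) with hy
  have hy2 : y ^ 2 = Real.sqrt (W:ℝ) := Real.sq_sqrt (Real.sqrt_nonneg _)
  have hyc : 6 * c23 ≤ y := by
    rw [hy]
    apply Real.le_sqrt_of_sq_le
    apply Real.le_sqrt_of_sq_le
    have h0 : (6 * c23) ^ 4 ≤ (W:ℝ) := by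
      refine (Nat.le_ceil _).trans ?_
      have : ⌈(6 * c23) ^ 4⌉₊ ≤ W := by
        have : W0 = ⌈(6 * c23) ^ 4⌉₊ + 3 := rfl
        omega
      exact_mod_cast this
    calc ((6 * c23) ^ 2) ^ 2 = (6 * c23) ^ 4 := by ring
      _ ≤ _ := h0
  have hc := c23_pos
  have hWp : Real.sqrt (W:ℝ) / 2 ≤ Real.sqrt ((W - 1 : ℕ):ℝ) := by
    rw [Nat.cast_sub (by omega)]
    apply Real.le_sqrt_of_sq_le
    rw [div_pow, Real.sq_sqrt (Nat.cast_nonneg _)]
    have : (3:ℝ) ≤ W := by exact_mod_cast hW3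
    push_cast; linarith
  have hs : 0 < Real.sqrt ((W - 1 : ℕ):ℝ) := Real.sqrt_pos.2 (by exact_mod_cast (by omega : 0 < W - 1))
  have hSg : S g (W - 1) ≤ (c23 / Real.sqrt ((W - 1 : ℕ):ℝ)) * Real.log g := by
    refine le_trans ?_ (mul_le_mul_of_nonneg_left (sum_log_primeFactors_le g) (by positivity))
    rw [Finset.mul_sum]
    refine le_trans ?_ (Finset.sum_le_sum_of_subset_of_nonneg (Finset.filter_subset
      (fun p => W - 1 < p) _) (fun p _ _ => by
        have := Real.log_natCast_nonneg p; positivity))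
    apply Finset.sum_le_sum
    intro p hp
    simp only [Finset.mem_filter] at hp
    have hp1 : (1:ℝ) ≤ p := by exact_mod_cast (by omega : 1 ≤ p)
    have hl := Real.log_nonneg hp1
    have h23 := logpow_le_sqrt 23 hp1
    have hsp : 0 < Real.sqrt (p:ℝ) := Real.sqrt_pos.2 (by linarith)
    have hle : Real.sqrt ((W - 1 : ℕ):ℝ) ≤ Real.sqrt (p:ℝ) :=
      Real.sqrt_le_sqrt (by exact_mod_cast hp.2.le)
    calc (Real.log p) ^ 24 / (p:ℝ) = Real.log p * ((Real.log p) ^ 23 / (p:ℝ)) := by ring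
      _ ≤ Real.log p * (c23 * Real.sqrt p / (p:ℝ)) :=
          mul_le_mul_of_nonneg_left (div_le_div_of_nonneg_right h23 (by linarith)) hl
      _ = Real.log p * (c23 / Real.sqrt p) := by
          congr 1
          rw [div_eq_div_iff (by linarith) hsp.ne', mul_assoc, Real.mul_self_sqrt (by linarith)]
      _ ≤ Real.log p * (c23 / Real.sqrt ((W - 1 : ℕ):ℝ)) :=
          mul_le_mul_of_nonneg_left (div_le_div_of_nonneg_left hc.le hs hle) hl
      _ = _ := by ring
  have h4 : S g (W - 1) ≤ 1/2 := by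
    refine hSg.trans ?_
    have hy0 : 0 < y := lt_of_lt_of_le (by positivity) hyc
    refine (mul_le_mul_of_nonneg_left h.le (by positivity)).trans ?_
    rw [div_mul_eq_mul_div, div_le_iff₀ hs]
    nlinarith
  linarith

/-- The tail weight attached to the scale `W`. -/
noncomputable def eps (W : ℕ) : ℝ :=
  (Real.exp 4 + Real.exp (Real.sqrt W0 / (4 * c24))) * Real.exp (-(Real.sqrt W / (4 * c24)))

lemma eps_nonneg (W : ℕ) : 0 ≤ eps W := by unfold eps; positivity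

lemma card_event_le (N W : ℕ) (hW : W0 ≤ W) :
    (((Finset.Icc 1 N).filter (fun z => Event z W)).card : ℝ) ≤ (N:ℝ) * eps W := by
  have hc := c24_pos
  rcases eq_or_ne W W0 with e | e
  · have h1 : (((Finset.Icc 1 N).filter (fun z => Event z W)).card : ℝ) ≤ (N:ℝ) := by
      exact_mod_cast (Finset.card_filter_le _ _).trans (by simp)
    refine h1.trans ?_
    have h2 : 1 ≤ eps W := by
      unfold eps
      rw [e]
      calc (1:ℝ) = Real.exp (Real.sqrt W0 / (4 * c24)) * Real.exp (-(Real.sqrt W0 / (4 * c24))) := by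
            rw [← Real.exp_add]; simp
        _ ≤ _ := mul_le_mul_of_nonneg_right (by linarith [Real.exp_pos (4:ℝ)]) (Real.exp_pos _).le
    exact le_mul_of_one_le_right (Nat.cast_nonneg _) h2
  · have hW3 : 3 ≤ W := by have := W0_ge; omega
    have hf : (Finset.Icc 1 N).filter (fun z => Event z W)
        = (Finset.Icc 1 N).filter (fun z => 1/2 < S z (W - 1)) :=
      Finset.filter_congr fun z _ => by simp only [Event, e, false_or]
    rw [hf]
    refine (card_S_gt_le N (W - 1) (by omega)).trans ?_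
    refine mul_le_mul_of_nonneg_left ?_ (Nat.cast_nonneg _)
    unfold eps
    apply mul_le_mul (by linarith [Real.exp_pos (Real.sqrt W0 / (4 * c24))]) ?_ (Real.exp_pos _).le
      (by positivity)
    apply Real.exp_le_exp.2
    rw [neg_le_neg_iff, div_le_div_iff₀ (by positivity) (by positivity)]
    have : Real.sqrt (W:ℝ) / 2 ≤ Real.sqrt ((W - 1 : ℕ):ℝ) := by
      rw [Nat.cast_sub (by omega)]
      apply Real.le_sqrt_of_sq_le
      rw [div_pow, Real.sq_sqrt (Nat.cast_nonneg _)]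
      have : (3:ℝ) ≤ W := by exact_mod_cast hW3
      push_cast; linarith
    nlinarith

lemma eps_decay : ∃ C : ℝ, 0 < C ∧ ∀ W : ℕ, W0 ≤ W →
    (W:ℝ) * Real.exp (5 * Real.sqrt (Real.sqrt W)) * eps W ≤ C / (W:ℝ) ^ 2 := by
  have hc := c24_pos
  obtain ⟨C, hC, h⟩ := poly_exp_decay 3 (θ := 1 / (4 * c24)) (by positivity)
  refine ⟨(Real.exp 4 + Real.exp (Real.sqrt W0 / (4 * c24))) * C, by positivity, fun W hW => ?_⟩
  have hWp : (0:ℝ) < W := by exact_mod_cast (by have := W0_ge; omega : 0 < W)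
  rw [le_div_iff₀ (by positivity)]
  unfold eps
  have h' := h (W:ℝ) hWp.le
  rw [sub_eq_add_neg, Real.exp_add, one_div_mul_eq_div] at h'
  have hk : 0 ≤ Real.exp 4 + Real.exp (Real.sqrt W0 / (4 * c24)) := by positivity
  nlinarith [mul_le_mul_of_nonneg_left h' hk]

lemma moment_step (K : ℕ) : ∃ c : ℝ, 1 ≤ c ∧ ∀ p : ℕ, p.Prime → ∀ e : ℕ,
    ∑ i ∈ Finset.range (e + 1), ((1 + (i:ℝ) * Real.log p) ^ K - 1) / (p:ℝ) ^ i
      ≤ c * ((Real.log p) ^ K / p) := by
  have hs : Summable (fun i : ℕ => (i:ℝ) ^ K * (1/2:ℝ) ^ i) :=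
    summable_pow_mul_geometric_of_norm_lt_one K (by norm_num)
  refine ⟨1 + 2 * 4 ^ K * ∑' i : ℕ, (i:ℝ) ^ K * (1/2:ℝ) ^ i, ?_, fun p hp e => ?_⟩
  · have : 0 ≤ ∑' i : ℕ, (i:ℝ) ^ K * (1/2:ℝ) ^ i := tsum_nonneg fun i => by positivity
    have : 0 ≤ 2 * (4:ℝ) ^ K * ∑' i : ℕ, (i:ℝ) ^ K * (1/2:ℝ) ^ i := by positivity
    linarith
  have hp2 : (2:ℝ) ≤ p := by exact_mod_cast hp.two_le
  have hl : (0.5:ℝ) ≤ Real.log p := by
    have := Real.log_two_gt_d9
    have := Real.log_le_log (by norm_num : (0:ℝ) < 2) hp2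
    linarith
  have hterm : ∀ i : ℕ, ((1 + (i:ℝ) * Real.log p) ^ K - 1) / (p:ℝ) ^ i
      ≤ (2 * 4 ^ K * ((Real.log p) ^ K / p)) * ((i:ℝ) ^ K * (1/2:ℝ) ^ i) := by
    intro i
    rcases Nat.eq_zero_or_pos i with h | h
    · subst h; simp; positivity
    have hi : (1:ℝ) ≤ i := by exact_mod_cast h
    have h1 : (1 + (i:ℝ) * Real.log p) ^ K ≤ (4 * ((i:ℝ) * Real.log p)) ^ K := by
      apply pow_le_pow_left₀ (by positivity)
      nlinarith
    obtain ⟨m, rfl⟩ : ∃ m, i = m + 1 := ⟨i - 1, by omega⟩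
    have h2 : (2:ℝ) ^ m ≤ (p:ℝ) ^ m := pow_le_pow_left₀ (by norm_num) hp2 m
    have h3 : 1 / (p:ℝ) ^ (m + 1) ≤ 2 * (1 / (p:ℝ)) * (1/2:ℝ) ^ (m + 1) := by
      rw [pow_succ (p:ℝ), pow_succ (1/2:ℝ), one_div_pow, ← div_div]
      have := one_div_le_one_div_of_le (by positivity) h2
      calc 1 / (p:ℝ) ^ m / (p:ℝ) ≤ (1 / (2:ℝ) ^ m) / (p:ℝ) :=
            div_le_div_of_nonneg_right this (by positivity)
        _ = _ := by ring
    calc ((1 + ((m + 1 : ℕ):ℝ) * Real.log p) ^ K - 1) / (p:ℝ) ^ (m + 1)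
        ≤ (4 * (((m + 1 : ℕ):ℝ) * Real.log p)) ^ K * (1 / (p:ℝ) ^ (m + 1)) := by
          rw [mul_one_div]; exact div_le_div_of_nonneg_right (by linarith) (by positivity)
      _ ≤ (4 * (((m + 1 : ℕ):ℝ) * Real.log p)) ^ K * (2 * (1 / (p:ℝ)) * (1/2:ℝ) ^ (m + 1)) :=
          mul_le_mul_of_nonneg_left h3 (by positivity)
      _ = _ := by rw [mul_pow, mul_pow]; ring
  refine (Finset.sum_le_sum fun i _ => hterm i).trans ?_
  rw [← Finset.mul_sum]
  have hlp : 0 ≤ (Real.log p) ^ K / p := by positivity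
  calc _ ≤ (2 * 4 ^ K * ((Real.log p) ^ K / p)) * ∑' i : ℕ, (i:ℝ) ^ K * (1/2:ℝ) ^ i :=
        mul_le_mul_of_nonneg_left (hs.sum_le_tsum _ (fun i _ => by positivity)) (by positivity)
    _ = (2 * 4 ^ K * ∑' i : ℕ, (i:ℝ) ^ K * (1/2:ℝ) ^ i) * ((Real.log p) ^ K / p) := by ring
    _ ≤ _ := mul_le_mul_of_nonneg_right (by linarith) hlp

lemma geom_le {p : ℕ} (hp : p.Prime) (k : ℕ) :
    ∑ i ∈ Finset.range k, 1 / (p:ℝ) ^ i ≤ 1 / (1 - 1/(p:ℝ)) := by
  have hp2 : (2:ℝ) ≤ p := by exact_mod_cast hp.two_le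
  have h1 : 0 < 1 - 1/(p:ℝ) := by
    have : 1 / (p:ℝ) ≤ 1/2 := one_div_le_one_div_of_le (by norm_num) hp2
    linarith
  induction k with
  | zero => simp only [Finset.range_zero, Finset.sum_empty]; positivity
  | succ k ih =>
    rw [Finset.sum_range_succ']
    have e : ∑ i ∈ Finset.range k, 1 / (p:ℝ) ^ (i + 1)
        = (1/(p:ℝ)) * ∑ i ∈ Finset.range k, 1 / (p:ℝ) ^ i := by
      rw [Finset.mul_sum]; exact Finset.sum_congr rfl fun i _ => by rw [pow_succ]; ring
    rw [e, pow_zero, div_one]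
    have := mul_le_mul_of_nonneg_left ih (by positivity : (0:ℝ) ≤ 1/(p:ℝ))
    have e2 : (1/(p:ℝ)) * (1 / (1 - 1/(p:ℝ))) + 1 = 1 / (1 - 1/(p:ℝ)) := by
      have h0 : (p:ℝ) - 1 ≠ 0 := by linarith
      field_simp
      ring
    linarith

lemma add_pow_le (y z : ℝ) (hy : 1 ≤ y) (hz : 0 ≤ z) : ∀ m : ℕ, 1 ≤ m →
    (y + z) ^ m ≤ y ^ m + y ^ (m - 1) * ((1 + z) ^ m - 1) := by
  intro m hm
  induction m, hm using Nat.le_induction with
  | base => simp
  | succ m hm ih =>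
    obtain ⟨k, rfl⟩ : ∃ k, m = k + 1 := ⟨m - 1, by omega⟩
    simp only [Nat.add_sub_cancel] at ih ⊢
    have h1 := mul_le_mul_of_nonneg_left ih (by linarith : 0 ≤ y + z)
    have hq : 0 ≤ (1 + z) ^ (k + 1) - 1 := by linarith [one_le_pow₀ (by linarith : 1 ≤ 1 + z) (n := k+1)]
    have hyk : 0 ≤ y ^ k := by positivity
    have h2 : z * y ^ k * ((1 + z) ^ (k + 1) - 1) ≤ z * y ^ (k + 1) * ((1 + z) ^ (k + 1) - 1) := by
      apply mul_le_mul_of_nonneg_right ?_ hq
      apply mul_le_mul_of_nonneg_left ?_ hz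
      rw [pow_succ]; exact le_mul_of_one_le_right hyk hy
    calc (y + z) ^ (k + 1 + 1) = (y + z) * (y + z) ^ (k + 1) := by ring
      _ ≤ (y + z) * (y ^ (k + 1) + y ^ k * ((1 + z) ^ (k + 1) - 1)) := h1
      _ = y ^ (k + 1 + 1) + y ^ (k + 1) * ((1 + z) ^ (k + 1) - 1) + z * y ^ (k + 1)
          + z * y ^ k * ((1 + z) ^ (k + 1) - 1) := by ring
      _ ≤ y ^ (k + 1 + 1) + y ^ (k + 1) * ((1 + z) ^ (k + 1) - 1) + z * y ^ (k + 1)
          + z * y ^ (k + 1) * ((1 + z) ^ (k + 1) - 1) := by linarith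
      _ = _ := by ring

lemma divisor_split {p a n : ℕ} (hp : p.Prime) (hpa : ¬ p ∣ a) (f : ℕ → ℝ) (hf : ∀ g, 0 ≤ f g) :
    ∑ g ∈ (p ^ n * a).divisors, f g ≤
      ∑ z ∈ Finset.range (n + 1) ×ˢ a.divisors, f (p ^ z.1 * z.2) := by
  refine le_trans ?_ (Finset.sum_image_le_of_nonneg (g := fun z : ℕ × ℕ => p ^ z.1 * z.2) (fun z _ => hf _))
  apply Finset.sum_le_sum_of_subset_of_nonneg ?_ (fun g _ _ => hf g)
  intro g hg
  rw [Nat.mem_divisors] at hg
  obtain ⟨d, e, hd, he, rfl⟩ := Nat.dvd_mul.1 hg.1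
  obtain ⟨i, hi, rfl⟩ := (Nat.dvd_prime_pow hp).1 hd
  exact Finset.mem_image.2 ⟨(i, e), Finset.mem_product.2
    ⟨Finset.mem_range.2 (by omega), Nat.mem_divisors.2
      ⟨he, fun h => hpa (h ▸ dvd_zero p)⟩⟩, rfl⟩

lemma moment_gen (M : ℕ) : ∃ c : ℝ, 1 ≤ c ∧ ∀ x : ℕ, 0 < x → ∀ m ≤ M,
    ∑ g ∈ x.divisors, (1 + Real.log g) ^ m / (g:ℝ) ≤
      (1 / lam x) * (1 + c * ∑ p ∈ x.primeFactors, (Real.log p) ^ M / (p:ℝ)) ^ m := by
  obtain ⟨c, hc1, hc⟩ := moment_step M
  refine ⟨c, hc1, ?_⟩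
  intro x
  induction x using Nat.recOnPrimePow with
  | zero => intro h; omega
  | one => intro _ m _; simp [lam]
  | prime_pow_mul a p n hp hpa hn iha =>
    intro _ m hm
    have ha0 : 0 < a := Nat.pos_of_ne_zero fun h => hpa (by simp [h])
    have iha := iha ha0
    have hp2 : (2:ℝ) ≤ p := by exact_mod_cast hp.two_le
    have hl : 0 ≤ Real.log p := Real.log_natCast_nonneg p
    have hcop : Nat.Coprime (p ^ n) a := Nat.Coprime.pow_left n (hp.coprime_iff_not_dvd.2 hpa)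
    have hlam : lam (p ^ n * a) = (1 - 1/(p:ℝ)) * lam a := by
      have h1 : lam (p ^ n) = 1 - 1/(p:ℝ) := by
        rw [lam_eq_prod (pow_pos hp.pos n), Nat.primeFactors_prime_pow hn.ne' hp, Finset.prod_singleton]
      rw [← h1]; unfold lam; rw [Nat.totient_mul hcop]; push_cast; ring
    have hpf : (p ^ n * a).primeFactors = insert p a.primeFactors := by
      rw [hcop.primeFactors_mul, Nat.primeFactors_prime_pow hn.ne' hp]; rfl
    have hpnot : p ∉ a.primeFactors := fun h => hpa (Nat.dvd_of_mem_primeFactors h)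
    set H := c * ∑ q ∈ a.primeFactors, (Real.log q) ^ M / (q:ℝ) with hH
    have hH0 : 0 ≤ H := mul_nonneg (by linarith) (Finset.sum_nonneg fun q _ => by
        have := Real.log_natCast_nonneg q; positivity)
    set B := 1 + H with hB
    have hB1 : 1 ≤ B := by linarith
    set h := c * ((Real.log p) ^ M / (p:ℝ)) with hh
    have hh0 : 0 ≤ h := by positivity
    have hla : 0 < lam a := lt_of_lt_of_le (by positivity) (lam_ge_card ha0)
    have hfac0 : 0 < 1 - 1/(p:ℝ) := by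
      have : 1 / (p:ℝ) ≤ 1/2 := one_div_le_one_div_of_le (by norm_num) hp2
      linarith
    have hfac : 1 ≤ 1 / (1 - 1/(p:ℝ)) := le_trans (by simp) (geom_le hp 1)
    rw [hpf, Finset.sum_insert hpnot, mul_add, hlam]
    refine le_trans (divisor_split hp hpa (fun g => (1 + Real.log g) ^ m / (g:ℝ))
      (fun g => by have := Real.log_natCast_nonneg g; positivity)) ?_
    rw [Finset.sum_product]
    rcases Nat.eq_zero_or_pos m with hm0 | hm0
    · subst hm0
      simp only [pow_zero, mul_one]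
      calc ∑ i ∈ Finset.range (n + 1), ∑ g ∈ a.divisors, (1:ℝ) / ((p ^ i * g : ℕ):ℝ)
          = (∑ i ∈ Finset.range (n + 1), 1 / (p:ℝ) ^ i) * ∑ g ∈ a.divisors, 1 / (g:ℝ) := by
            rw [Finset.sum_mul_sum]
            exact Finset.sum_congr rfl fun i _ => Finset.sum_congr rfl fun g _ => by push_cast; ring
        _ ≤ (1 / (1 - 1/(p:ℝ))) * (1 / lam a) := by
            have := iha 0 (by omega)
            simp only [pow_zero, mul_one] at this
            exact mul_le_mul (geom_le hp _) this (Finset.sum_nonneg fun g _ => by positivity) (by linarith)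
        _ = _ := by field_simp
    have e : ∀ i ∈ Finset.range (n + 1), ∑ g ∈ a.divisors,
        (1 + Real.log ((p ^ i * g : ℕ):ℝ)) ^ m / ((p ^ i * g : ℕ):ℝ) ≤
        (1 / (p:ℝ) ^ i) * ((1 / lam a) * B ^ m)
        + (((1 + (i:ℝ) * Real.log p) ^ M - 1) / (p:ℝ) ^ i) * ((1 / lam a) * B ^ (m - 1)) := by
      intro i _
      have hz : 0 ≤ (i:ℝ) * Real.log p := by positivity
      have hq : 0 ≤ ((1 + (i:ℝ) * Real.log p) ^ M - 1) := by
        linarith [one_le_pow₀ (by linarith : 1 ≤ 1 + (i:ℝ) * Real.log p) (n := M)]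
      refine le_trans ?_ (add_le_add (mul_le_mul_of_nonneg_left (iha m hm) (by positivity))
        (mul_le_mul_of_nonneg_left (iha (m - 1) (by omega)) (div_nonneg hq (by positivity))))
      rw [Finset.mul_sum, Finset.mul_sum, ← Finset.sum_add_distrib]
      apply Finset.sum_le_sum
      intro g hg
      have hg0 : (1:ℝ) ≤ g := by exact_mod_cast Nat.pos_of_mem_divisors hg
      have hlg := Real.log_nonneg hg0
      push_cast
      rw [Real.log_mul (by positivity) (by positivity), Real.log_pow]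
      have h1 := add_pow_le (1 + Real.log g) ((i:ℝ) * Real.log p) (by linarith) hz m hm0
      have h2 : (1 + (i:ℝ) * Real.log p) ^ m ≤ (1 + (i:ℝ) * Real.log p) ^ M :=
        pow_le_pow_right₀ (by linarith) hm
      have h3 : (1 + ((i:ℝ) * Real.log p + Real.log g)) ^ m ≤ (1 + Real.log g) ^ m
          + (1 + Real.log g) ^ (m - 1) * ((1 + (i:ℝ) * Real.log p) ^ M - 1) := by
        rw [show 1 + ((i:ℝ) * Real.log p + Real.log g) = (1 + Real.log g) + (i:ℝ) * Real.log p by ring]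
        refine h1.trans ?_
        have := mul_le_mul_of_nonneg_left h2 (by positivity : (0:ℝ) ≤ (1 + Real.log g) ^ (m - 1))
        linarith
      calc _ ≤ ((1 + Real.log g) ^ m + (1 + Real.log g) ^ (m - 1) *
            ((1 + (i:ℝ) * Real.log p) ^ M - 1)) / ((p:ℝ) ^ i * g) :=
            div_le_div_of_nonneg_right h3 (by positivity)
        _ = _ := by field_simp
    refine (Finset.sum_le_sum e).trans ?_
    rw [Finset.sum_add_distrib, ← Finset.sum_mul, ← Finset.sum_mul]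
    have hk : 0 ≤ (1 / lam a) * B ^ m := by positivity
    have hk1 : 0 ≤ (1 / lam a) * B ^ (m - 1) := by positivity
    refine (add_le_add (mul_le_mul_of_nonneg_right (geom_le hp _) hk)
      (mul_le_mul_of_nonneg_right (hc p hp n) hk1)).trans ?_
    have h4 : h * ((1 / lam a) * B ^ (m - 1)) ≤
        (1 / (1 - 1/(p:ℝ))) * (h * ((1 / lam a) * B ^ (m - 1))) :=
      le_mul_of_one_le_left (by positivity) hfac
    have h5 : B ^ m + h * B ^ (m - 1) ≤ (1 + (h + H)) ^ m := by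
      obtain ⟨k, rfl⟩ : ∃ k, m = k + 1 := ⟨m - 1, by omega⟩
      rw [Nat.add_sub_cancel]
      calc B ^ (k + 1) + h * B ^ k = B ^ k * (B + h) := by ring
        _ ≤ (B + h) ^ k * (B + h) :=
            mul_le_mul_of_nonneg_right (pow_le_pow_left₀ (by linarith) (by linarith) k) (by linarith)
        _ = _ := by rw [hB]; ring
    have h6 := mul_le_mul_of_nonneg_left h5 (by positivity : 0 ≤ 1 / ((1 - 1/(p:ℝ)) * lam a))
    calc _ ≤ (1 / (1 - 1/(p:ℝ))) * ((1 / lam a) * B ^ m) +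
          (1 / (1 - 1/(p:ℝ))) * (h * ((1 / lam a) * B ^ (m - 1))) := add_le_add le_rfl h4
      _ = 1 / ((1 - 1/(p:ℝ)) * lam a) * (B ^ m + h * B ^ (m - 1)) := by
          rw [← div_div]; ring
      _ ≤ _ := h6

/-- The divisor moment in terms of the abnormality scale, general exponent. -/
lemma moment_Ab_gen (M : ℕ) (hM : ∀ y : ℕ, S y (Ab y) = ∑ p ∈ y.primeFactors.filter (fun p => Ab y < p), (Real.log p) ^ M / (p:ℝ)) : ∃ C : ℝ, 0 < C ∧ ∀ x : ℕ, 0 < x →
    ∑ g ∈ x.divisors, (1 + Real.log g) ^ M / (g:ℝ) ≤ C * (Ab x : ℝ) ^ 2 := by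
  obtain ⟨c, hc1, hc⟩ := moment_gen M
  refine ⟨Real.exp 2 * (1 + 2 * c) ^ M * (Nat.factorial ((M + 1) * M) * Real.exp 1), by positivity, fun x hx => ?_⟩
  set A := Ab x
  have hA1 : 1 ≤ A := by have := Ab_ge x; have := W0_ge; omega
  have hA1r : (1:ℝ) ≤ A := by exact_mod_cast hA1
  set Lg := 1 + Real.log (A:ℝ)
  have hL : 1 ≤ Lg := by have := Real.log_nonneg hA1r; simp only [Lg]; linarith
  have hH : ∑ p ∈ x.primeFactors, (Real.log p) ^ M / (p:ℝ) ≤ 2 * Lg ^ (M + 1) := by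
    rw [← Finset.sum_filter_add_sum_filter_not x.primeFactors (fun p => A < p)]
    have h1 : ∑ p ∈ x.primeFactors.filter (fun p => A < p), (Real.log p) ^ M / (p:ℝ) ≤ 1 := by rw [← hM x]; exact S_Ab x
    have h2 := sum_log_div_le A hA1 M (x.primeFactors.filter (fun p => ¬ A < p)) (fun p hp => by
      simp only [Finset.mem_filter] at hp
      exact ⟨(Nat.prime_of_mem_primeFactors hp.1).one_le, by omega⟩)
    have : (1:ℝ) ≤ Lg ^ (M + 1) := one_le_pow₀ hL
    have h2' : ∑ p ∈ x.primeFactors.filter (fun p => ¬ A < p), (Real.log p) ^ M / (p:ℝ) ≤ Lg ^ (M + 1) := h2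
    linarith
  have hbase : 1 + c * ∑ p ∈ x.primeFactors, (Real.log p) ^ M / (p:ℝ) ≤ (1 + 2 * c) * Lg ^ (M + 1) := by
    have h1 := mul_le_mul_of_nonneg_left hH (by linarith : 0 ≤ c)
    have : (1:ℝ) ≤ Lg ^ (M + 1) := one_le_pow₀ hL
    nlinarith
  have hnn : 0 ≤ ∑ p ∈ x.primeFactors, (Real.log p) ^ M / (p:ℝ) :=
    Finset.sum_nonneg fun p _ => by have := Real.log_natCast_nonneg p; positivity
  have hl := lam_lower hx
  have hl' : 1 / lam x ≤ Real.exp 2 * A := by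
    refine (one_div_le_one_div_of_le (by positivity) hl).trans (le_of_eq ?_)
    rw [one_div_one_div]
  refine (hc x hx M le_rfl).trans ?_
  have hK := logpow_le_lin ((M + 1) * M) hA1r
  calc (1 / lam x) * (1 + c * ∑ p ∈ x.primeFactors, (Real.log p) ^ M / (p:ℝ)) ^ M
      ≤ (Real.exp 2 * A) * ((1 + 2 * c) * Lg ^ (M + 1)) ^ M :=
        mul_le_mul hl' (pow_le_pow_left₀ (by nlinarith) hbase M) (pow_nonneg (by nlinarith) _)
          (by positivity)
    _ = Real.exp 2 * A * ((1 + 2 * c) ^ M * Lg ^ ((M + 1) * M)) := by rw [mul_pow, ← pow_mul]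
    _ ≤ Real.exp 2 * A * ((1 + 2 * c) ^ M * (Nat.factorial ((M + 1) * M) * Real.exp 1 * A)) :=
        mul_le_mul_of_nonneg_left (mul_le_mul_of_nonneg_left hK (by positivity)) (by positivity)
    _ = _ := by ring

lemma moment_Ab : ∃ C : ℝ, 0 < C ∧ ∀ x : ℕ, 0 < x →
    ∑ g ∈ x.divisors, (1 + Real.log g) ^ 24 / (g:ℝ) ≤ C * (Ab x : ℝ) ^ 2 :=
  moment_Ab_gen 24 (fun _ => rfl)

/-- Large divisors carry little weight. -/
lemma large_div_sum : ∃ C : ℝ, 0 < C ∧ ∀ x : ℕ, 0 < x →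
    ∑ g ∈ x.divisors.filter (fun g : ℕ => Real.sqrt (Real.sqrt (Ab x)) ≤ Real.log g),
      (1 + Real.log g) ^ 4 / (g:ℝ) ≤ C / (Ab x : ℝ) ^ 3 := by
  obtain ⟨C, hC, h⟩ := moment_Ab
  refine ⟨C, hC, fun x hx => ?_⟩
  have hA : (1:ℝ) ≤ Ab x := by exact_mod_cast (by have := Ab_ge x; have := W0_ge; omega : 1 ≤ Ab x)
  calc _ ≤ ∑ g ∈ x.divisors.filter (fun g : ℕ => Real.sqrt (Real.sqrt (Ab x)) ≤ Real.log g),
        ((1 + Real.log g) ^ 24 / (g:ℝ)) / (Ab x : ℝ) ^ 5 := by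
        apply Finset.sum_le_sum
        intro g hg
        simp only [Finset.mem_filter] at hg
        have hl := Real.log_natCast_nonneg g
        rw [div_div, mul_comm, ← div_div]
        apply div_le_div_of_nonneg_right ?_ (Nat.cast_nonneg _)
        rw [le_div_iff₀ (by positivity)]
        have h1 : (Ab x : ℝ) ^ 5 ≤ (1 + Real.log g) ^ 20 := by
          have e : (Ab x : ℝ) = Real.sqrt (Real.sqrt (Ab x)) ^ 4 := by
            rw [show Real.sqrt (Real.sqrt (Ab x)) ^ 4 = (Real.sqrt (Real.sqrt (Ab x)) ^ 2) ^ 2 by ring,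
              Real.sq_sqrt (Real.sqrt_nonneg _), Real.sq_sqrt (Nat.cast_nonneg _)]
          rw [e, ← pow_mul]
          exact pow_le_pow_left₀ (Real.sqrt_nonneg _) (by linarith [hg.2]) _
        have := mul_le_mul_of_nonneg_left h1 (by positivity : (0:ℝ) ≤ (1 + Real.log g) ^ 4)
        linarith [show (1 + Real.log g) ^ 4 * (1 + Real.log g) ^ 20 = (1 + Real.log g) ^ 24 by ring]
    _ ≤ (C * (Ab x : ℝ) ^ 2) / (Ab x : ℝ) ^ 5 := by
        rw [← Finset.sum_div]
        refine div_le_div_of_nonneg_right (le_trans (Finset.sum_le_sum_of_subset_of_nonneg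
          (Finset.filter_subset _ _) (fun g _ _ => ?_)) (h x hx)) (by positivity)
        have := Real.log_natCast_nonneg g
        positivity
    _ = _ := by field_simp

end Vale.Agent.P028
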