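import Mathlib

namespace Vale.Agent.P028

open Finset

lemma logpow_le_sqrt (n : ℕ) {x : ℝ} (hx : 1 ≤ x) :
    (Real.log x) ^ n ≤ (2 ^ n * n.factorial : ℝ) * Real.sqrt x := by
  have h0 : 0 ≤ Real.log x / 2 := by have := Real.log_nonneg hx; linarith
  have h := Real.pow_div_factorial_le_exp (Real.log x / 2) h0 n
  rw [Real.exp_half, Real.exp_log (by linarith), div_le_iff₀ (by positivity), div_pow,
    div_le_iff₀ (by positivity)] at h
  linarith

lemma logpow_le_lin (n : ℕ) {x : ℝ} (hx : 1 ≤ x) :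
    (1 + Real.log x) ^ n ≤ (n.factorial * Real.exp 1 : ℝ) * x := by
  have h0 : 0 ≤ 1 + Real.log x := by have := Real.log_nonneg hx; linarith
  have h := Real.pow_div_factorial_le_exp (1 + Real.log x) h0 n
  rw [Real.exp_add, Real.exp_log (by linarith), div_le_iff₀ (by positivity)] at h
  linarith

lemma poly_exp_decay (n : ℕ) {θ : ℝ} (hθ : 0 < θ) :
    ∃ C : ℝ, 0 < C ∧ ∀ x : ℝ, 0 ≤ x →
      x ^ n * Real.exp (5 * Real.sqrt (Real.sqrt x) - θ * Real.sqrt x) ≤ C := by
  refine ⟨Real.exp (25 / (2 * θ)) * ((2 * n).factorial * (2 / θ) ^ (2 * n)), by positivity,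
    fun x hx => ?_⟩
  set y := Real.sqrt x with hy
  have hy0 : 0 ≤ y := Real.sqrt_nonneg _
  have hxy : x = y ^ 2 := (Real.sq_sqrt hx).symm
  set z := Real.sqrt y with hz
  have hzy : y = z ^ 2 := (Real.sq_sqrt hy0).symm
  have h1 : 5 * z ≤ θ * y / 2 + 25 / (2 * θ) := by
    rw [hzy]
    have : θ * z ^ 2 / 2 + 25 / (2 * θ) - 5 * z = (θ * z - 5) ^ 2 / (2 * θ) := by field_simp; ring
    have h2 : 0 ≤ (θ * z - 5) ^ 2 / (2 * θ) := by positivity
    linarith
  have h2 := Real.pow_div_factorial_le_exp (θ * y / 2) (by positivity) (2 * n)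
  rw [div_le_iff₀ (by positivity)] at h2
  have h4 : Real.exp (5 * z - θ * y) ≤ Real.exp (25 / (2 * θ)) * Real.exp (-(θ * y / 2)) := by
    rw [← Real.exp_add]; exact Real.exp_le_exp.2 (by linarith)
  have h5 : y ^ (2 * n) ≤ ((2 * n).factorial * (2 / θ) ^ (2 * n)) * Real.exp (θ * y / 2) := by
    have : y ^ (2 * n) = (θ * y / 2) ^ (2 * n) * (2 / θ) ^ (2 * n) := by
      rw [← mul_pow]; congr 1; field_simp
    rw [this]
    have hp : (0:ℝ) ≤ (2 / θ) ^ (2 * n) := by positivity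
    nlinarith [mul_le_mul_of_nonneg_right h2 hp]
  calc x ^ n * Real.exp (5 * z - θ * y)
      ≤ y ^ (2 * n) * (Real.exp (25 / (2 * θ)) * Real.exp (-(θ * y / 2))) := by
        rw [hxy, ← pow_mul]; exact mul_le_mul_of_nonneg_left h4 (by positivity)
    _ ≤ (((2 * n).factorial * (2 / θ) ^ (2 * n)) * Real.exp (θ * y / 2)) *
          (Real.exp (25 / (2 * θ)) * Real.exp (-(θ * y / 2))) :=
        mul_le_mul_of_nonneg_right h5 (by positivity)
    _ = _ := by
        rw [Real.exp_neg]; field_simp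

lemma sum_inv_sq_ge {A : ℕ} (hA : 2 ≤ A) (F : Finset ℕ) (hF : ∀ w ∈ F, A ≤ w) :
    ∑ w ∈ F, 1 / (w:ℝ) ^ 2 ≤ 2 / (A:ℝ) := by
  have key : ∀ M, ∑ w ∈ Finset.Ico A (A + M), 1 / (w:ℝ) ^ 2 ≤
      1 / ((A:ℝ) - 1) - 1 / ((A:ℝ) + M - 1) := by
    intro M
    induction M with
    | zero => simp
    | succ M ih =>
      rw [← Nat.add_assoc, Finset.sum_Ico_succ_top (by omega)]
      have hA' : (2:ℝ) ≤ A := by exact_mod_cast hA
      have hM : (0:ℝ) ≤ M := Nat.cast_nonneg _
      push_cast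
      have : 1 / ((A:ℝ) + M) ^ 2 ≤ 1 / ((A:ℝ) + M - 1) - 1 / ((A:ℝ) + (M + 1) - 1) := by
        have e : 1 / ((A:ℝ) + M - 1) - 1 / ((A:ℝ) + (M + 1) - 1)
            = 1 / (((A:ℝ) + M - 1) * ((A:ℝ) + M)) := by
          have h1 : (A:ℝ) + M - 1 ≠ 0 := by linarith
          have h2 : (A:ℝ) + M ≠ 0 := by linarith
          have h3 : (A:ℝ) + (M + 1) - 1 = (A:ℝ) + M := by ring
          rw [h3]; field_simp; ring
        rw [e]
        apply one_div_le_one_div_of_le
        · exact mul_pos (by linarith) (by linarith)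
        · nlinarith
      linarith
  have hsub : F ⊆ Finset.Ico A (A + (F.sup id + 1)) := by
    intro w hw
    have : w ≤ F.sup id := Finset.le_sup (f := id) hw
    simp only [Finset.mem_Ico]; exact ⟨hF w hw, by omega⟩
  refine (Finset.sum_le_sum_of_subset_of_nonneg hsub (fun _ _ _ => by positivity)).trans ?_
  refine (key _).trans ?_
  have hA' : (2:ℝ) ≤ A := by exact_mod_cast hA
  have h0 : 0 ≤ 1 / ((A:ℝ) + ((F.sup id + 1 : ℕ):ℝ) - 1) := by
    push_cast
    have : (0:ℝ) ≤ ((F.sup id : ℕ):ℝ) := Nat.cast_nonneg _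
    apply div_nonneg (by norm_num); linarith
  have h1 : 1 / ((A:ℝ) - 1) ≤ 2 / (A:ℝ) := by
    rw [div_le_div_iff₀ (by linarith) (by linarith)]; linarith
  linarith

lemma one_div_card_succ_le_prod (P : Finset ℕ) (hP : ∀ p ∈ P, 2 ≤ p) :
    1 / ((P.card:ℝ) + 1) ≤ ∏ p ∈ P, (1 - 1 / (p:ℝ)) := by
  induction P using Finset.induction_on_max with
  | empty => simp
  | insert a s ha ih =>
    have hnot : a ∉ s := fun h => lt_irrefl _ (ha a h)
    rw [Finset.prod_insert hnot, Finset.card_insert_of_notMem hnot]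
    have hs := ih (fun p hp => hP p (Finset.mem_insert_of_mem hp))
    have ha2 := hP a (Finset.mem_insert_self _ _)
    have hsub : s ⊆ Finset.Ico 2 a := fun p hp =>
      Finset.mem_Ico.2 ⟨hP p (Finset.mem_insert_of_mem hp), ha p hp⟩
    have hc := Finset.card_le_card hsub
    rw [Nat.card_Ico] at hc
    have hca : (s.card:ℝ) + 2 ≤ a := by
      have : s.card + 2 ≤ a := by omega
      exact_mod_cast this
    have hc0 : (0:ℝ) ≤ s.card := Nat.cast_nonneg _
    have h1 : 1 - 1 / ((s.card:ℝ) + 2) ≤ 1 - 1 / (a:ℝ) := by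
      have := one_div_le_one_div_of_le (by linarith : (0:ℝ) < (s.card:ℝ) + 2) hca
      linarith
    push_cast
    calc 1 / ((s.card:ℝ) + 1 + 1) = (1 - 1 / ((s.card:ℝ) + 2)) * (1 / ((s.card:ℝ) + 1)) := by
          field_simp; ring
      _ ≤ (1 - 1 / (a:ℝ)) * ∏ p ∈ s, (1 - 1 / (p:ℝ)) := by
          apply mul_le_mul h1 hs (by positivity)
          have := one_div_le_one_div_of_le (by norm_num : (0:ℝ) < 2)
            (by exact_mod_cast ha2 : (2:ℝ) ≤ a)
          linarith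

lemma exp_neg_two_mul_le {x : ℝ} (h0 : 0 ≤ x) (h1 : x ≤ 1 / 2) : Real.exp (-(2 * x)) ≤ 1 - x := by
  have h2 : 1 + 2 * x ≤ Real.exp (2 * x) := by have := Real.add_one_le_exp (2 * x); linarith
  rw [Real.exp_neg]
  calc (Real.exp (2 * x))⁻¹ ≤ (1 + 2 * x)⁻¹ := inv_anti₀ (by linarith) h2
    _ ≤ 1 - x := by rw [inv_le_iff_one_le_mul₀ (by linarith)]; nlinarith

lemma prod_one_sub_ge (P : Finset ℕ) (hP : ∀ p ∈ P, 2 ≤ p) :
    Real.exp (-(2 * ∑ p ∈ P, 1 / (p:ℝ))) ≤ ∏ p ∈ P, (1 - 1 / (p:ℝ)) := by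
  rw [Finset.mul_sum, ← Finset.sum_neg_distrib, Real.exp_sum]
  apply Finset.prod_le_prod (fun p _ => (Real.exp_pos _).le)
  intro p hp
  apply exp_neg_two_mul_le (by positivity)
  exact one_div_le_one_div_of_le (by norm_num) (by exact_mod_cast hP p hp)

/-- The density `φ(n)/n`. -/
noncomputable def lam (n : ℕ) : ℝ := (n.totient : ℝ) / n

lemma lam_eq_prod {n : ℕ} (hn : 0 < n) :
    lam n = ∏ p ∈ n.primeFactors, (1 - 1 / (p:ℝ)) := by
  have h := Nat.totient_eq_mul_prod_factors n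
  have h' : ((n.totient : ℚ) : ℝ) = (((n:ℚ) * ∏ p ∈ n.primeFactors, (1 - (p:ℚ)⁻¹) : ℚ) : ℝ) := by
    rw [h]
  push_cast at h'
  unfold lam
  rw [h', mul_div_cancel_left₀ _ (by positivity)]
  simp [one_div]

lemma lam_nonneg (n : ℕ) : 0 ≤ lam n := by unfold lam; positivity

lemma lam_le_one (n : ℕ) : lam n ≤ 1 := by
  unfold lam
  rcases Nat.eq_zero_or_pos n with h | h
  · simp [h]
  · rw [div_le_one (by positivity)]; exact_mod_cast Nat.totient_le n

lemma lam_ge_card {n : ℕ} (hn : 0 < n) : 1 / ((n.primeFactors.card : ℝ) + 1) ≤ lam n := by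
  rw [lam_eq_prod hn]
  exact one_div_card_succ_le_prod _ (fun p hp => (Nat.prime_of_mem_primeFactors hp).two_le)

lemma sum_log_primeFactors_le (n : ℕ) :
    ∑ p ∈ n.primeFactors, Real.log p ≤ Real.log n := by
  rcases Nat.eq_zero_or_pos n with h | h
  · simp [h]
  have hd := Nat.prod_primeFactors_dvd n
  have hle := Nat.le_of_dvd h hd
  rw [← Real.log_prod]
  · apply Real.log_le_log
    · exact Finset.prod_pos fun p hp => by exact_mod_cast (Nat.prime_of_mem_primeFactors hp).pos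
    · rw [← Nat.cast_prod]; exact_mod_cast hle
  · intro p hp; exact_mod_cast (Nat.prime_of_mem_primeFactors hp).ne_zero

lemma card_primeFactors_le_log (n : ℕ) (_hn : 0 < n) :
    (n.primeFactors.card : ℝ) * Real.log 2 ≤ Real.log n := by
  refine le_trans ?_ (sum_log_primeFactors_le n)
  rw [← nsmul_eq_mul, ← Finset.sum_const]
  refine Finset.sum_le_sum fun p hp => Real.log_le_log (by norm_num) ?_
  exact_mod_cast (Nat.prime_of_mem_primeFactors hp).two_le

lemma sum_log_div_le (N : ℕ) (hN : 1 ≤ N) (k : ℕ) (P : Finset ℕ) (hP : ∀ p ∈ P, 1 ≤ p ∧ p ≤ N) :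
    ∑ p ∈ P, (Real.log p) ^ k / (p:ℝ) ≤ (1 + Real.log N) ^ (k + 1) := by
  have hlN : 0 ≤ Real.log N := Real.log_nonneg (by exact_mod_cast hN)
  calc ∑ p ∈ P, (Real.log p) ^ k / (p:ℝ)
      ≤ ∑ p ∈ P, (1 + Real.log N) ^ k * ((p:ℝ))⁻¹ := by
        apply Finset.sum_le_sum; intro p hp
        obtain ⟨h1, h2⟩ := hP p hp
        rw [div_eq_mul_inv]
        have hl0 : 0 ≤ Real.log p := Real.log_nonneg (by exact_mod_cast h1)
        have : Real.log p ≤ Real.log N :=
          Real.log_le_log (by exact_mod_cast h1) (by exact_mod_cast h2)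
        exact mul_le_mul_of_nonneg_right (pow_le_pow_left₀ hl0 (by linarith) k) (by positivity)
    _ ≤ (1 + Real.log N) ^ k * ∑ p ∈ Finset.Icc 1 N, ((p:ℝ))⁻¹ := by
        rw [← Finset.mul_sum]
        refine mul_le_mul_of_nonneg_left ?_ (by positivity)
        exact Finset.sum_le_sum_of_subset_of_nonneg
          (fun p hp => Finset.mem_Icc.2 (hP p hp)) (fun _ _ _ => by positivity)
    _ ≤ (1 + Real.log N) ^ k * (1 + Real.log N) := by
        refine mul_le_mul_of_nonneg_left ?_ (by positivity)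
        have := harmonic_le_one_add_log N
        rw [harmonic_eq_sum_Icc] at this
        push_cast at this
        exact this
    _ = _ := by ring

end Vale.Agent.P028
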