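import Vale.Agent.P028.Overlap

namespace Vale.Agent.P028

open Finset MeasureTheory
open scoped Classical

/-- The standing hypotheses on a denominator. -/
def OK (ψ : ℕ → ℝ) (q : ℕ) : Prop := 16 ≤ q ∧ Adm q ∧ 0 ≤ ψ q ∧ ψ q ≤ 1 / (q:ℝ)

lemma KS_mono (γ : ℝ) {X Y : ℕ} (h : X ≤ Y) : KS γ X ⊆ KS γ Y := by
  intro x hx
  obtain ⟨h1, h2, h3, h4⟩ := (mem_KS (B := x.1) (A := x.2)).1 hx
  exact (mem_KS (B := x.1) (A := x.2)).2 ⟨h1, h2.trans h, h3, h4⟩

lemma WW_pos (q r : ℕ) : 1 ≤ WW q r := by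
  have := Ab_ge q; have := W0_ge
  have : Ab q ≤ WW q r := le_max_left _ _
  omega

/-- The dyadic level of the ratio of the cofactors. -/
def lev (q r : ℕ) : ℕ := Nat.log 2 (cv q r / cu q r)

lemma lev_spec {q r : ℕ} (P : PairFacts q r) :
    2 ^ lev q r * cu q r ≤ cv q r ∧ cv q r < 2 ^ (lev q r + 1) * cu q r := by
  have h1 : 0 < cv q r / cu q r := Nat.div_pos P.huv.le P.hu0
  have h2 := Nat.pow_log_le_self 2 h1.ne'
  have h3 := Nat.lt_pow_succ_log_self (b := 2) (by norm_num) (cv q r / cu q r)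
  exact ⟨(Nat.le_div_iff_mul_le P.hu0).1 h2, (Nat.div_lt_iff_lt_mul P.hu0).1 h3⟩

lemma level_count (s : Finset ℕ) (M : ℝ) (hM : 0 ≤ M)
    (h : ∀ i ∈ s, ∀ j ∈ s, 1 ≤ i → 1 ≤ j → (i:ℝ) ≤ (j:ℝ) + M) : (s.card : ℝ) ≤ M + 2 := by
  set s' := s.filter (fun i => 1 ≤ i)
  have h0 : s ⊆ insert 0 s' := fun i hi => by
    rcases Nat.eq_zero_or_pos i with e | e
    · simp [e]
    · exact Finset.mem_insert_of_mem (Finset.mem_filter.2 ⟨hi, e⟩)
  have h1 : s.card ≤ s'.card + 1 := (Finset.card_le_card h0).trans (Finset.card_insert_le _ _)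
  have h2 : (s'.card : ℝ) ≤ M + 1 := by
    rcases s'.eq_empty_or_nonempty with e | e
    · rw [e, Finset.card_empty, Nat.cast_zero]; linarith
    · obtain ⟨hjs, hj1⟩ := Finset.mem_filter.1 (s'.min'_mem e)
      have hsub : s' ⊆ Finset.Icc (s'.min' e) (s'.min' e + ⌊M⌋₊) := fun i hi => by
        obtain ⟨his, hi1⟩ := Finset.mem_filter.1 hi
        refine Finset.mem_Icc.2 ⟨s'.min'_le i hi, ?_⟩
        have hij := h i his _ hjs hi1 hj1
        rcases Nat.lt_or_ge i (s'.min' e) with hlt | hge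
        · omega
        · have : i - s'.min' e ≤ ⌊M⌋₊ := Nat.le_floor (by rw [Nat.cast_sub hge]; linarith)
          omega
      have hc := Finset.card_le_card hsub
      rw [Nat.card_Icc] at hc
      calc (s'.card : ℝ) ≤ (⌊M⌋₊ : ℝ) + 1 := by exact_mod_cast (by omega : s'.card ≤ ⌊M⌋₊ + 1)
        _ ≤ M + 1 := by have := Nat.floor_le hM; linarith
  have : (s.card : ℝ) ≤ (s'.card : ℝ) + 1 := by exact_mod_cast h1
  linarith

/-- Summing over levels. -/
lemma sum_levels (s : Finset ℕ) (lv : ℕ → ℕ) (f : ℕ → ℝ) (b M : ℝ) (hb : 0 ≤ b) (hM : 0 ≤ M)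
    (h : ∀ x ∈ s, ∀ y ∈ s, 1 ≤ lv x → 1 ≤ lv y → (lv x : ℝ) ≤ (lv y : ℝ) + M)
    (hf : ∀ i ∈ s.image lv, ∑ x ∈ s.filter (fun x => lv x = i), f x ≤ b) :
    ∑ x ∈ s, f x ≤ (M + 2) * b := by
  rw [← Finset.sum_fiberwise_of_maps_to (fun x hx => Finset.mem_image_of_mem lv hx) f]
  refine (Finset.sum_le_card_nsmul _ _ b hf).trans ?_
  rw [nsmul_eq_mul]
  refine mul_le_mul_of_nonneg_right (level_count _ M hM ?_) hb
  intro i hi j hj hi1 hj1
  obtain ⟨x, hx, rfl⟩ := Finset.mem_image.1 hi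
  obtain ⟨y, hy, rfl⟩ := Finset.mem_image.1 hj
  exact h x hx y hy hi1 hj1

lemma sum_const_le (s : Finset ℕ) (f : ℕ → ℝ) (b K : ℝ) (hb : 0 ≤ b) (hf : ∀ x ∈ s, f x ≤ b)
    (hc : (s.card : ℝ) ≤ K) : ∑ x ∈ s, f x ≤ K * b := by
  refine (Finset.sum_le_card_nsmul _ _ b hf).trans ?_
  rw [nsmul_eq_mul]
  exact mul_le_mul_of_nonneg_right hc hb

lemma two_pow_le_exp {i : ℕ} {X : ℝ} (h : (2:ℝ) ^ i ≤ Real.exp X) (hX : 0 ≤ X) :
    (i:ℝ) ≤ 3/2 * X := by
  have h1 := (Real.le_log_iff_exp_le (by positivity : (0:ℝ) < Real.exp X)).2 le_rfl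
  have h2 : Real.log ((2:ℝ) ^ i) ≤ Real.log (Real.exp X) := Real.log_le_log (by positivity) h
  rw [Real.log_pow, Real.log_exp] at h2
  have := Real.log_two_gt_d9
  nlinarith

lemma charge_large : ∃ C : ℝ, 0 < C ∧ ∀ (x : ℕ), 0 < x → ∀ (s : Finset ℕ) (f : ℕ → ℝ) (gf : ℕ → ℕ)
    (c : ℝ), 0 ≤ c →
    (∀ y ∈ s, gf y ∈ x.divisors ∧ Real.sqrt (Real.sqrt (Ab x)) ≤ Real.log (gf y)) →
    (∀ g : ℕ, 0 < g → ∑ y ∈ s.filter (fun y => gf y = g), f y ≤ c * ((1 + Real.log g) ^ 4 / g)) →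
    ∑ y ∈ s, f y ≤ C * c / (Ab x : ℝ) := by
  obtain ⟨C, hC, h⟩ := large_div_sum
  refine ⟨C, hC, fun x hx s f gf c hc hs hb => ?_⟩
  have hA : (1:ℝ) ≤ Ab x := by exact_mod_cast (by have := Ab_ge x; have := W0_ge; omega : 1 ≤ Ab x)
  rw [← Finset.sum_fiberwise_of_maps_to (g := gf)
    (t := x.divisors.filter (fun g : ℕ => Real.sqrt (Real.sqrt (Ab x)) ≤ Real.log g))
    (fun y hy => Finset.mem_filter.2 (hs y hy)) f]
  calc _ ≤ ∑ g ∈ x.divisors.filter (fun g : ℕ => Real.sqrt (Real.sqrt (Ab x)) ≤ Real.log g),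
        c * ((1 + Real.log g) ^ 4 / g) :=
        Finset.sum_le_sum fun g hg => hb g (Nat.pos_of_mem_divisors (Finset.mem_filter.1 hg).1)
    _ ≤ c * (C / (Ab x : ℝ) ^ 3) := by
        rw [← Finset.mul_sum]; exact mul_le_mul_of_nonneg_left (h x hx) hc
    _ ≤ C * c / (Ab x : ℝ) := by
        rw [mul_div_assoc', mul_comm c C]
        exact div_le_div_of_nonneg_left (by positivity) (by linarith)
          (le_self_pow₀ hA (by norm_num))

lemma charge_small : ∃ C : ℝ, 0 < C ∧ ∀ (x : ℕ) (s : Finset ℕ) (f : ℕ → ℝ) (Wf gf : ℕ → ℕ)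
    (c : ℝ), 0 ≤ c →
    (∀ y ∈ s, Ab x ≤ Wf y ∧ 1 ≤ gf y ∧ Real.log (gf y) < Real.sqrt (Real.sqrt (Wf y))) →
    (∀ W g : ℕ, W0 ≤ W → 1 ≤ g → Real.log g < Real.sqrt (Real.sqrt W) →
      ∑ y ∈ s.filter (fun y => Wf y = W ∧ gf y = g), f y
        ≤ c * ((W:ℝ) * Real.exp (4 * Real.sqrt (Real.sqrt W)) * eps W)) →
    ∑ y ∈ s, f y ≤ C * c / (Ab x : ℝ) := by
  obtain ⟨C, hC, hd⟩ := eps_decay
  refine ⟨2 * C, by positivity, fun x s f Wf gf c hc hs hb => ?_⟩
  rw [← Finset.sum_fiberwise_of_maps_to (g := Wf) (fun y hy => Finset.mem_image_of_mem Wf hy) f]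
  have hW : ∀ W ∈ s.image Wf, Ab x ≤ W := fun W hW => by
    obtain ⟨y, hy, rfl⟩ := Finset.mem_image.1 hW
    exact (hs y hy).1
  have hinner : ∀ W ∈ s.image Wf,
      ∑ y ∈ s.filter (fun y => Wf y = W), f y ≤ C * c * (1 / (W:ℝ) ^ 2) := by
    intro W hW'
    have hW0 : W0 ≤ W := (Ab_ge x).trans (hW W hW')
    set G := Real.exp (Real.sqrt (Real.sqrt (W:ℝ))) with hG
    rw [← Finset.sum_fiberwise_of_maps_to (g := gf) (t := Finset.Icc 1 ⌊G⌋₊) (fun y hy => by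
      obtain ⟨h1, h2⟩ := Finset.mem_filter.1 hy
      obtain ⟨-, h3, h4⟩ := hs y h1
      rw [h2] at h4
      refine Finset.mem_Icc.2 ⟨h3, Nat.le_floor ?_⟩
      rw [hG, ← Real.log_le_iff_le_exp (by exact_mod_cast h3)]
      exact h4.le) f]
    have hb' : ∀ g ∈ Finset.Icc 1 ⌊G⌋₊,
        ∑ y ∈ (s.filter (fun y => Wf y = W)).filter (fun y => gf y = g), f y
          ≤ c * ((W:ℝ) * Real.exp (4 * Real.sqrt (Real.sqrt W)) * eps W) := by
      intro g hg
      rw [Finset.filter_filter]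
      rcases (s.filter (fun y => Wf y = W ∧ gf y = g)).eq_empty_or_nonempty with e | ⟨y, hy⟩
      · rw [e, Finset.sum_empty]; have := eps_nonneg W; positivity
      · obtain ⟨h1, h2, h3⟩ := Finset.mem_filter.1 hy
        have := (hs y h1).2.2
        rw [h2, h3] at this
        exact hb W g hW0 (Finset.mem_Icc.1 hg).1 this
    refine (sum_const_le _ _ _ G (by have := eps_nonneg W; positivity) hb' (by
      rw [Nat.card_Icc, Nat.add_sub_cancel]; exact Nat.floor_le (Real.exp_pos _).le)).trans ?_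
    calc G * (c * ((W:ℝ) * Real.exp (4 * Real.sqrt (Real.sqrt W)) * eps W))
        = c * ((W:ℝ) * Real.exp (5 * Real.sqrt (Real.sqrt W)) * eps W) := by
          rw [show 5 * Real.sqrt (Real.sqrt (W:ℝ)) = Real.sqrt (Real.sqrt W)
            + 4 * Real.sqrt (Real.sqrt W) by ring, Real.exp_add, hG]
          ring
      _ ≤ c * (C / (W:ℝ) ^ 2) := mul_le_mul_of_nonneg_left (hd W hW0) hc
      _ = _ := by ring
  refine (Finset.sum_le_sum hinner).trans ?_
  rw [← Finset.mul_sum]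
  refine (mul_le_mul_of_nonneg_left (sum_inv_sq_ge (by have := Ab_ge x; have := W0_ge; omega) _ hW)
    (by positivity)).trans (le_of_eq (by ring))

/-- The threshold for very unbalanced cofactors. -/
noncomputable def RR (q r : ℕ) : ℝ :=
  (Nat.gcd q r : ℝ) ^ 2 * Real.exp (2 * Real.sqrt (Real.sqrt (WW q r)))

/-- A pair outside the quasi-independent range. -/
def Bad (ψ : ℕ → ℝ) (q r : ℕ) : Prop := tt ψ q r < Real.exp (5 * (WW q r : ℝ))

/-- A pair with a large gcd. -/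
def Big (q r : ℕ) : Prop := Real.sqrt (Real.sqrt (WW q r)) ≤ Real.log (Nat.gcd q r)

/-- The partners above `q`. -/
noncomputable def above (ψ : ℕ → ℝ) (F : Finset ℕ) (q : ℕ) (c : ℕ → Prop) : Finset ℕ :=
  F.filter (fun r => q < r ∧ Bad ψ q r ∧ c r)

/-- The partners below `r`. -/
noncomputable def below (ψ : ℕ → ℝ) (F : Finset ℕ) (r : ℕ) (c : ℕ → Prop) : Finset ℕ :=
  F.filter (fun q => q < r ∧ Bad ψ q r ∧ c q)

lemma mem_above {ψ : ℕ → ℝ} {F : Finset ℕ} {q r : ℕ} {c : ℕ → Prop} :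
    r ∈ above ψ F q c ↔ r ∈ F ∧ q < r ∧ Bad ψ q r ∧ c r := Finset.mem_filter

lemma mem_below {ψ : ℕ → ℝ} {F : Finset ℕ} {q r : ℕ} {c : ℕ → Prop} :
    q ∈ below ψ F r c ↔ q ∈ F ∧ q < r ∧ Bad ψ q r ∧ c q := Finset.mem_filter

lemma psi_le_dyadic {q r g i : ℕ} {ψ : ℕ → ℝ} (P : PairFacts q r) (hg : Nat.gcd q r = g)
    (hψ : ψ r ≤ 1 / (r:ℝ)) (hi : lev q r = i) :
    ψ r ≤ 1 / ((g:ℝ) * 2 ^ i * (cu q r : ℝ)) := by
  refine hψ.trans (one_div_le_one_div_of_le ?_ ?_)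
  · have : 0 < g := hg ▸ P.hg
    have := P.hu0
    positivity
  · have h := (lev_spec P).1
    rw [hi] at h
    have h' := Nat.mul_le_mul_left g h
    rw [← hg, ← P.hv, hg, ← mul_assoc] at h'
    exact_mod_cast h'

lemma vpsi_lt {ψ : ℕ → ℝ} {q r : ℕ} (P : PairFacts q r) (hr : 0 ≤ ψ r) (hb : Bad ψ q r) :
    (cv q r : ℝ) * ψ q < Real.exp (5 * (WW q r : ℝ)) := by
  refine lt_of_le_of_lt ?_ hb
  rw [tt_eq P]
  exact le_add_of_nonneg_right (by positivity)

lemma half_le_vpsi {ψ : ℕ → ℝ} {q r : ℕ} (P : PairFacts q r) (hψr : ψ r ≤ 1 / (r:ℝ))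
    (ht : 1 ≤ tt ψ q r) (hi : 1 ≤ lev q r) : (1:ℝ)/2 ≤ (cv q r : ℝ) * ψ q := by
  have h := psi_le_dyadic P rfl hψr rfl
  rw [tt_eq P] at ht
  have hu : (0:ℝ) < (cu q r : ℝ) := by exact_mod_cast P.hu0
  have hg : (1:ℝ) ≤ (Nat.gcd q r : ℝ) := by exact_mod_cast P.hg
  have h2 : (2:ℝ) ≤ 2 ^ lev q r := le_self_pow₀ (by norm_num) (by omega)
  have hle : (cu q r : ℝ) * ψ r ≤ 1/2 := by
    refine (mul_le_mul_of_nonneg_left h hu.le).trans ?_
    rw [mul_one_div, div_le_iff₀ (by positivity)]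
    nlinarith [mul_le_mul hg h2 (by norm_num) (by linarith : (0:ℝ) ≤ (Nat.gcd q r : ℝ))]
  linarith

lemma eq_of_cv_eq {q r r' g : ℕ} (hq : 0 < q) (h : q < r) (h' : q < r') (e : Nat.gcd q r = g)
    (e' : Nat.gcd q r' = g) (hv : cv q r = cv q r') : r = r' := by
  rw [(pairFacts hq h).hv, (pairFacts hq h').hv, e, e', hv]

lemma eq_of_cu_eq {q q' r g : ℕ} (hq : 0 < q) (hq' : 0 < q') (h : q < r) (h' : q' < r)
    (e : Nat.gcd q r = g) (e' : Nat.gcd q' r = g) (hu : cu q r = cu q' r) : q = q' := by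
  rw [(pairFacts hq h).hu, (pairFacts hq' h').hu, e, e', hu]

lemma levels_close {ψ : ℕ → ℝ} {q x y g : ℕ} {M : ℝ} (Px : PairFacts q x) (Py : PairFacts q y)
    (hxg : Nat.gcd q x = g) (hyg : Nat.gcd q y = g) (hψq : 0 ≤ ψ q) (hψx : 0 ≤ ψ x)
    (hψy : ψ y ≤ 1 / (y:ℝ))
    (hb : Bad ψ q x) (hW : (WW q x : ℝ) ≤ M) (ht : 1 ≤ tt ψ q y) (hy : 1 ≤ lev q y) :
    (lev q x : ℝ) ≤ (lev q y : ℝ) + (8 * M + 3) := by
  have h1 := vpsi_lt Px hψx hb
  have h2 := half_le_vpsi Py hψy ht hy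
  have hu : cu q x = cu q y := by unfold cu; rw [hxg, hyg]
  have a1 : (2:ℝ) ^ lev q x * (cu q x : ℝ) ≤ (cv q x : ℝ) := by exact_mod_cast (lev_spec Px).1
  have a2 : (cv q y : ℝ) ≤ (2:ℝ) ^ (lev q y + 1) * (cu q y : ℝ) := by exact_mod_cast (lev_spec Py).2.le
  rw [hu] at a1
  have hE : Real.exp (5 * (WW q x : ℝ)) ≤ Real.exp (5 * M) := Real.exp_le_exp.2 (by linarith)
  set d := (cu q y : ℝ) * ψ q with hd
  have b1 : (2:ℝ) ^ lev q x * d ≤ Real.exp (5 * M) := by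
    have := mul_le_mul_of_nonneg_right a1 hψq
    calc (2:ℝ) ^ lev q x * d = (2:ℝ) ^ lev q x * (cu q y : ℝ) * ψ q := by rw [hd]; ring
      _ ≤ _ := by linarith
  have b2 : (1:ℝ)/4 ≤ (2:ℝ) ^ lev q y * d := by
    have := mul_le_mul_of_nonneg_right a2 hψq
    rw [pow_succ, show (2:ℝ) ^ lev q y * 2 * (cu q y : ℝ) * ψ q = 2 * ((2:ℝ) ^ lev q y * d) by
      rw [hd]; ring] at this
    linarith
  rcases Nat.lt_or_ge (lev q x) (lev q y) with hlt | hge
  · have : (lev q x : ℝ) ≤ (lev q y : ℝ) := by exact_mod_cast hlt.le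
    have : (0:ℝ) ≤ M := le_trans (Nat.cast_nonneg _) hW
    linarith
  · obtain ⟨k, hk⟩ := Nat.exists_eq_add_of_le hge
    have hb3 : (2:ℝ) ^ k ≤ Real.exp (5 * M + 2) := by
      have h4 : (4:ℝ) ≤ Real.exp 2 := by
        have := Real.add_one_le_exp (1:ℝ)
        calc (4:ℝ) ≤ Real.exp 1 * Real.exp 1 := by nlinarith
          _ = _ := by rw [← Real.exp_add]; norm_num
      rw [hk, pow_add] at b1
      rw [Real.exp_add]
      have hp := pow_nonneg (show (0:ℝ) ≤ 2 by norm_num) k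
      calc (2:ℝ) ^ k = 4 * ((2:ℝ) ^ k * (1/4)) := by ring
        _ ≤ 4 * ((2:ℝ) ^ k * ((2:ℝ) ^ lev q y * d)) :=
            mul_le_mul_of_nonneg_left (mul_le_mul_of_nonneg_left b2 hp) (by norm_num)
        _ ≤ Real.exp 2 * Real.exp (5 * M) := by
            refine mul_le_mul h4 (le_of_eq_of_le (by ring) b1) (le_trans ?_ (le_of_eq rfl)) (Real.exp_pos _).le
            exact mul_nonneg hp (le_trans (by norm_num) b2)
        _ = _ := mul_comm _ _
    have hM : (0:ℝ) ≤ M := le_trans (Nat.cast_nonneg _) hW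
    have := two_pow_le_exp hb3 (by linarith)
    rw [hk]; push_cast; linarith

lemma L1 : ∃ C : ℝ, 0 < C ∧ ∀ (γ : ℝ) (ψ : ℕ → ℝ) (F : Finset ℕ), (∀ x ∈ F, OK ψ x) → ∀ q ∈ F,
    ∑ r ∈ above ψ F q (fun r => 1 ≤ tt ψ q r ∧ Big q r), ov γ ψ q r ≤ C * ψ q / (Ab q : ℝ) := by
  obtain ⟨C, hC, hch⟩ := charge_large
  refine ⟨C * 156, by positivity, fun γ ψ F hF q hq => ?_⟩
  obtain ⟨hq16, -, hψq, -⟩ := hF q hq
  set s := above ψ F q (fun r => 1 ≤ tt ψ q r ∧ Big q r)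
  refine le_of_le_of_eq (hch q (by omega) s (fun r => ov γ ψ q r) (fun r => Nat.gcd q r) (156 * ψ q)
    (by positivity) (fun r hr => ?_) (fun g hg => ?_)) (by ring)
  · refine ⟨Nat.mem_divisors.2 ⟨Nat.gcd_dvd_left _ _, by omega⟩, le_trans ?_ (mem_above.1 hr).2.2.2.2⟩
    exact Real.sqrt_le_sqrt (Real.sqrt_le_sqrt (Nat.cast_le.2 (le_max_left _ _)))
  set T := s.filter (fun r => Nat.gcd q r = g)
  have hT : ∀ r ∈ T, OK ψ r ∧ PairFacts q r ∧ q < r ∧ Bad ψ q r ∧ 1 ≤ tt ψ q r ∧ Big q r ∧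
      Nat.gcd q r = g := fun r hr => by
    obtain ⟨h1, h2⟩ := Finset.mem_filter.1 hr
    obtain ⟨h3, h4, h5, h6, h7⟩ := mem_above.1 h1
    exact ⟨hF r h3, pairFacts (by omega) h4, h4, h5, h6, h7, h2⟩
  set M := (Real.log g) ^ 4
  have hlg : 0 ≤ Real.log (g:ℝ) := Real.log_natCast_nonneg g
  have hWM : ∀ r ∈ T, (WW q r : ℝ) ≤ M := fun r hr => by
    obtain ⟨-, -, -, -, -, hbig, hgr⟩ := hT r hr
    unfold Big at hbig
    rw [hgr] at hbig
    calc (WW q r : ℝ) = Real.sqrt (Real.sqrt (WW q r)) ^ 4 := by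
          rw [show Real.sqrt (Real.sqrt (WW q r : ℝ)) ^ 4 = (Real.sqrt (Real.sqrt (WW q r : ℝ)) ^ 2) ^ 2
            by ring, Real.sq_sqrt (Real.sqrt_nonneg _), Real.sq_sqrt (Nat.cast_nonneg _)]
      _ ≤ M := pow_le_pow_left₀ (Real.sqrt_nonneg _) hbig 4
  refine (sum_levels T (lev q) _ (12 * ψ q / g) (8 * M + 3) (by positivity) (by positivity) ?_ ?_).trans ?_
  · intro x hx y hy _ hy1
    obtain ⟨hx1, Px, -, hxb, -, -, hxg⟩ := hT x hx
    obtain ⟨hy1', Py, -, -, hyt, -, hyg⟩ := hT y hy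
    exact levels_close Px Py hxg hyg hψq hx1.2.2.1 hy1'.2.2.2 hxb (hWM x hx) hyt hy1
  · intro i _
    set u := q / g with hu
    have hu0 : 0 < u ∨ T.filter (fun r => lev q r = i) = ∅ := by
      rcases (T.filter (fun r => lev q r = i)).eq_empty_or_nonempty with e | ⟨r, hr⟩
      · exact Or.inr e
      · obtain ⟨-, P, -, -, -, -, hgr⟩ := hT r (Finset.mem_filter.1 hr).1
        have := P.hu0; unfold cu at this; rw [hgr] at this; exact Or.inl this
    rcases hu0 with hu0 | e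
    swap
    · rw [e, Finset.sum_empty]; positivity
    refine (sum_const_le _ _ (12 * (ψ q * (1 / ((g:ℝ) * 2 ^ i * u)))) ((2:ℝ) ^ i * u)
      (by positivity) ?_ ?_).trans (le_of_eq (by field_simp))
    · intro r hr
      obtain ⟨h1, P, -, -, ht, -, hgr⟩ := hT r (Finset.mem_filter.1 hr).1
      refine (ov_le_large P hψq h1.2.2.1 ht).trans ?_
      have hp := psi_le_dyadic P hgr h1.2.2.2 (Finset.mem_filter.1 hr).2
      have e : cu q r = u := by unfold cu; rw [hgr]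
      rw [e] at hp
      exact mul_le_mul_of_nonneg_left (mul_le_mul_of_nonneg_left hp hψq) (by norm_num)
    · have hc : (T.filter (fun r => lev q r = i)).card ≤ (Finset.Ico (2 ^ i * u) (2 ^ (i + 1) * u)).card := by
        refine Finset.card_le_card_of_injOn (cv q) (fun r hr => ?_) (fun x hx y hy e => ?_)
        · obtain ⟨hrT, hri⟩ := Finset.mem_filter.1 hr
          obtain ⟨-, P, -, -, -, -, hgr⟩ := hT r hrT
          have := lev_spec P
          have e : cu q r = u := by unfold cu; rw [hgr]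
          rw [hri, e] at this
          exact Finset.mem_Ico.2 this
        · obtain ⟨-, -, hx', -, -, -, hxg⟩ := hT x (Finset.mem_filter.1 hx).1
          obtain ⟨-, -, hy', -, -, -, hyg⟩ := hT y (Finset.mem_filter.1 hy).1
          exact eq_of_cv_eq (by omega) hx' hy' hxg hyg e
      rw [Nat.card_Ico, show 2 ^ (i + 1) * u - 2 ^ i * u = 2 ^ i * u by
        rw [pow_succ, mul_right_comm]; omega] at hc
      exact_mod_cast hc
  · have h1 : 8 * M + 3 + 2 ≤ 13 * (1 + Real.log g) ^ 4 := by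
      have : M ≤ (1 + Real.log g) ^ 4 := pow_le_pow_left₀ hlg (by linarith) 4
      have : (1:ℝ) ≤ (1 + Real.log g) ^ 4 := one_le_pow₀ (by linarith)
      linarith
    calc (8 * M + 3 + 2) * (12 * ψ q / g) ≤ 13 * (1 + Real.log g) ^ 4 * (12 * ψ q / g) :=
          mul_le_mul_of_nonneg_right h1 (by positivity)
      _ = _ := by ring

lemma S1 : ∃ C : ℝ, 0 < C ∧ ∀ (γ : ℝ) (ψ : ℕ → ℝ) (F : Finset ℕ), (∀ x ∈ F, OK ψ x) → ∀ q ∈ F,
    ∑ r ∈ above ψ F q (fun r => tt ψ q r < 1 ∧ Big q r ∧ (cv q r : ℝ) ≤ (cu q r : ℝ) * RR q r),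
      ov γ ψ q r ≤ C * ψ q / (Ab q : ℝ) := by
  obtain ⟨C, hC, hch⟩ := charge_large
  refine ⟨C * 2304, by positivity, fun γ ψ F hF q hq => ?_⟩
  obtain ⟨hq16, -, hψq, -⟩ := hF q hq
  set s := above ψ F q (fun r => tt ψ q r < 1 ∧ Big q r ∧ (cv q r : ℝ) ≤ (cu q r : ℝ) * RR q r)
  refine le_of_le_of_eq (hch q (by omega) s (fun r => ov γ ψ q r) (fun r => Nat.gcd q r) (2304 * ψ q)
    (by positivity) (fun r hr => ?_) (fun g hg => ?_)) (by ring)
  · refine ⟨Nat.mem_divisors.2 ⟨Nat.gcd_dvd_left _ _, by omega⟩, le_trans ?_ (mem_above.1 hr).2.2.2.2.1⟩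
    exact Real.sqrt_le_sqrt (Real.sqrt_le_sqrt (Nat.cast_le.2 (le_max_left _ _)))
  set T := s.filter (fun r => Nat.gcd q r = g)
  have hT : ∀ r ∈ T, OK ψ r ∧ PairFacts q r ∧ q < r ∧ tt ψ q r < 1 ∧ Big q r ∧
      (cv q r : ℝ) ≤ (cu q r : ℝ) * RR q r ∧ Nat.gcd q r = g := fun r hr => by
    obtain ⟨h1, h2⟩ := Finset.mem_filter.1 hr
    obtain ⟨h3, h4, -, h6, h7, h8⟩ := mem_above.1 h1
    exact ⟨hF r h3, pairFacts (by omega) h4, h4, h6, h7, h8, h2⟩
  have hlg : 0 ≤ Real.log (g:ℝ) := Real.log_natCast_nonneg g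
  have hg1 : (1:ℝ) ≤ g := by exact_mod_cast hg
  refine (sum_levels T (lev q) _ (288 * ψ q / g) (6 * Real.log g) (by positivity) (by positivity) ?_ ?_).trans ?_
  · intro x hx y _ _ _
    obtain ⟨-, P, -, -, hbig, hvR, hxg⟩ := hT x hx
    unfold Big at hbig
    rw [hxg] at hbig
    have a1 : (2:ℝ) ^ lev q x * (cu q x : ℝ) ≤ (cv q x : ℝ) := by exact_mod_cast (lev_spec P).1
    have hu : (0:ℝ) < (cu q x : ℝ) := by exact_mod_cast P.hu0
    have hR : (2:ℝ) ^ lev q x ≤ RR q x := by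
      refine le_of_mul_le_mul_right (a1.trans (hvR.trans (le_of_eq (mul_comm _ _)))) hu
    have hR' : RR q x ≤ Real.exp (4 * Real.log g) := by
      unfold RR
      rw [hxg, show 4 * Real.log (g:ℝ) = 2 * Real.log g + 2 * Real.log g by ring, Real.exp_add]
      refine mul_le_mul (le_of_eq ?_) (Real.exp_le_exp.2 (by linarith)) (Real.exp_pos _).le (Real.exp_pos _).le
      rw [two_mul, Real.exp_add, Real.exp_log (by linarith)]; ring
    have := two_pow_le_exp (hR.trans hR') (by linarith)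
    have : (0:ℝ) ≤ (lev q y : ℝ) := Nat.cast_nonneg _
    linarith
  · intro i _
    set T' := T.filter (fun r => lev q r = i) with hT'
    rcases T'.eq_empty_or_nonempty with e | ⟨r0, hr0⟩
    · rw [e, Finset.sum_empty]; positivity
    set u := q / g with hu
    have hcu : ∀ r ∈ T', cu q r = u := fun r hr => by
      obtain ⟨-, -, -, -, -, -, hgr⟩ := hT r (Finset.mem_filter.1 hr).1
      unfold cu; rw [hgr]
    have hu0 : 0 < u := by
      obtain ⟨-, P, -⟩ := hT r0 (Finset.mem_filter.1 hr0).1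
      rw [← hcu r0 hr0]; exact P.hu0
    have huR : (0:ℝ) < u := by exact_mod_cast hu0
    set N := 2 ^ (i + 1) * u with hN
    have hN1 : 1 ≤ N := Nat.one_le_iff_ne_zero.2 (by positivity)
    set tb := (N:ℝ) * ψ q + 1 / ((g:ℝ) * 2 ^ i) with htb
    have htb0 : 0 < tb := by positivity
    set n := fun r => cv q r - cu q r with hn
    set K := T'.biUnion (fun r => (Hits γ ψ q r).image (fun k => (n r, k))) with hK
    have hinj : ∀ x ∈ T', ∀ y ∈ T', n x = n y → x = y := fun x hx y hy e => by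
      obtain ⟨-, Px, hx', -, -, -, hxg⟩ := hT x (Finset.mem_filter.1 hx).1
      obtain ⟨-, Py, hy', -, -, -, hyg⟩ := hT y (Finset.mem_filter.1 hy).1
      refine eq_of_cv_eq (by omega) hx' hy' hxg hyg ?_
      have := Px.huv; have := Py.huv
      simp only [hn, hcu x hx, hcu y hy] at e
      rw [hcu x hx] at *
      rw [hcu y hy] at *
      omega
    have hKcard : (K.card : ℝ) = ∑ r ∈ T', ((Hits γ ψ q r).card : ℝ) := by
      rw [hK, Finset.card_biUnion ?_]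
      · push_cast
        exact Finset.sum_congr rfl fun r _ => by
          rw [Finset.card_image_of_injective _ (fun a b h => (Prod.mk.injEq _ _ _ _ ▸ h).2)]
      · intro x hx y hy hxy
        refine Finset.disjoint_left.2 fun z hzx hzy => hxy (hinj x hx y hy ?_)
        obtain ⟨k, -, rfl⟩ := Finset.mem_image.1 hzx
        obtain ⟨k', -, hk'⟩ := Finset.mem_image.1 hzy
        exact (congrArg Prod.fst hk').symm
    have hcount : (K.card : ℝ) ≤ 24 * tb * N := by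
      refine hit_count γ N hN1 tb htb0 (8 * N) le_rfl K fun z hz => ?_
      obtain ⟨r, hr, hz⟩ := Finset.mem_biUnion.1 hz
      obtain ⟨k, hk, rfl⟩ := Finset.mem_image.1 hz
      obtain ⟨hrT, hri⟩ := Finset.mem_filter.1 hr
      obtain ⟨hOK, P, -, -, -, -, hgr⟩ := hT r hrT
      have hsp := lev_spec P
      rw [hri, hcu r hr] at hsp
      have hcu' := hcu r hr
      have huv := P.huv
      refine ⟨by simp only [hn]; omega, by simp only [hn, hN]; omega, ?_, ?_⟩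
      · obtain ⟨x, hx, rfl⟩ := Finset.mem_image.1 hk
        refine lt_of_lt_of_le (hit_near P hx) ?_
        rw [tt_eq P, htb]
        refine add_le_add (mul_le_mul_of_nonneg_right (by exact_mod_cast hsp.2.le) hψq) ?_
        have hp := psi_le_dyadic P hgr hOK.2.2.2 hri
        rw [hcu'] at hp ⊢
        refine (mul_le_mul_of_nonneg_left hp huR.le).trans (le_of_eq ?_)
        field_simp
      · refine fun hmem => kill P hOK.2.1 hOK.1 (hF q hq).2.2.2 hOK.2.2.2 hk (KS_mono γ ?_ hmem)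
        have h5 : cv q r ≤ r := Nat.div_le_self r _
        have : N = 2 * (2 ^ i * u) := by rw [hN, pow_succ]; ring
        omega
    set A := ψ q / (u:ℝ) with hA
    set B := 1 / ((g:ℝ) * (2 ^ i * u) ^ 2) with hB
    have hterm : ∀ r ∈ T', ov γ ψ q r ≤ 2 * min A B * ((Hits γ ψ q r).card : ℝ) := by
      intro r hr
      obtain ⟨hrT, hri⟩ := Finset.mem_filter.1 hr
      obtain ⟨hOK, P, -, -, -, -, hgr⟩ := hT r hrT
      refine (ov_le_hits P hψq hOK.2.2.1).trans ?_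
      refine mul_le_mul_of_nonneg_right (mul_le_mul_of_nonneg_left ?_ (by norm_num)) (Nat.cast_nonneg _)
      rw [hcu r hr]
      refine min_le_min le_rfl ?_
      have hp := psi_le_dyadic P hgr hOK.2.2.2 hri
      rw [hcu r hr] at hp
      have hv : (2:ℝ) ^ i * u ≤ (cv q r : ℝ) := by
        have := (lev_spec P).1
        rw [hri, hcu r hr] at this
        exact_mod_cast this
      refine (div_le_div₀ (by positivity) hp (by positivity) hv).trans (le_of_eq ?_)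
      rw [hB]; field_simp
    calc ∑ r ∈ T', ov γ ψ q r ≤ ∑ r ∈ T', 2 * min A B * ((Hits γ ψ q r).card : ℝ) :=
          Finset.sum_le_sum hterm
      _ = 2 * min A B * (K.card : ℝ) := by rw [hKcard, Finset.mul_sum]
      _ ≤ 2 * min A B * (24 * tb * N) := mul_le_mul_of_nonneg_left hcount (by positivity)
      _ = 48 * (min A B * ((N:ℝ) * ψ q * N) + min A B * (1 / ((g:ℝ) * 2 ^ i) * N)) := by
          rw [htb]; ring
      _ ≤ 48 * (B * ((N:ℝ) * ψ q * N) + A * (1 / ((g:ℝ) * 2 ^ i) * N)) :=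
          mul_le_mul_of_nonneg_left (add_le_add
            (mul_le_mul_of_nonneg_right (min_le_right _ _) (by positivity))
            (mul_le_mul_of_nonneg_right (min_le_left _ _) (by positivity))) (by norm_num)
      _ = _ := by
          rw [hA, hB, hN]; push_cast; rw [pow_succ]; field_simp; ring
  · have h1 : 6 * Real.log g + 2 ≤ 8 * (1 + Real.log g) ^ 4 := by
      have : 1 + Real.log (g:ℝ) ≤ (1 + Real.log g) ^ 4 := le_self_pow₀ (by linarith) (by norm_num)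
      linarith
    calc (6 * Real.log g + 2) * (288 * ψ q / g) ≤ 8 * (1 + Real.log g) ^ 4 * (288 * ψ q / g) :=
          mul_le_mul_of_nonneg_right h1 (by positivity)
      _ = _ := by ring

end Vale.Agent.P028
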