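import Vale.Agent.P028.Charge

namespace Vale.Agent.P028

open Finset MeasureTheory
open scoped Classical

lemma log_lt_of_not_big {q r : ℕ} (h : ¬ Big q r) :
    Real.log (Nat.gcd q r) < Real.sqrt (Real.sqrt (WW q r)) := not_le.1 h

lemma event_right {q r : ℕ} (P : PairFacts q r) (hW : Ab q ≤ Ab r) (hb : ¬ Big q r) :
    Event (cv q r) (Ab r) ∧ WW q r = Ab r := by
  have e : WW q r = Ab r := max_eq_right hW
  refine ⟨?_, e⟩
  have h := log_lt_of_not_big hb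
  rw [e] at h
  have h2 := event_of_small (g := Nat.gcd q r) (z := cv q r) P.hg (by have := P.huv; omega)
    (by rw [← P.hv]; exact h)
  rwa [← P.hv] at h2

lemma event_left {q r : ℕ} (P : PairFacts q r) (hW : Ab r ≤ Ab q) (hb : ¬ Big q r) :
    Event (cu q r) (Ab q) ∧ WW q r = Ab q := by
  have e : WW q r = Ab q := max_eq_left hW
  refine ⟨?_, e⟩
  have h := log_lt_of_not_big hb
  rw [e] at h
  have h2 := event_of_small (g := Nat.gcd q r) (z := cu q r) P.hg P.hu0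
    (by rw [← P.hu]; exact h)
  rwa [← P.hu] at h2

lemma card_event_floor (X : ℝ) (hX : 0 ≤ X) (W : ℕ) (hW : W0 ≤ W) :
    (((Finset.Icc 1 ⌊X⌋₊).filter (fun z => Event z W)).card : ℝ) ≤ X * eps W :=
  (card_event_le _ W hW).trans (mul_le_mul_of_nonneg_right (Nat.floor_le hX) (eps_nonneg W))

lemma base_le_weight {W : ℕ} (hW : W0 ≤ W) :
    (W:ℝ) * eps W ≤ (W:ℝ) * Real.exp (4 * Real.sqrt (Real.sqrt W)) * eps W := by
  have := eps_nonneg W
  exact mul_le_mul_of_nonneg_right (le_mul_of_one_le_right (Nat.cast_nonneg _)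
    (Real.one_le_exp (by positivity))) this

lemma L2q : ∃ C : ℝ, 0 < C ∧ ∀ (γ : ℝ) (ψ : ℕ → ℝ) (F : Finset ℕ), (∀ x ∈ F, OK ψ x) → ∀ q ∈ F,
    ∑ r ∈ above ψ F q (fun r => 1 ≤ tt ψ q r ∧ ¬ Big q r ∧ Ab q ≤ Ab r), ov γ ψ q r
      ≤ C * ψ q / (Ab q : ℝ) := by
  obtain ⟨C, hC, hch⟩ := charge_small
  refine ⟨C * 312, by positivity, fun γ ψ F hF q hq => ?_⟩
  obtain ⟨hq16, -, hψq, -⟩ := hF q hq
  set s := above ψ F q (fun r => 1 ≤ tt ψ q r ∧ ¬ Big q r ∧ Ab q ≤ Ab r)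
  refine le_of_le_of_eq (hch q s (fun r => ov γ ψ q r) Ab (fun r => Nat.gcd q r) (312 * ψ q)
    (by positivity) (fun r hr => ?_) (fun W g hW0 hg hlg => ?_)) (by ring)
  · obtain ⟨hrF, hlt, -, -, hnb, hA⟩ := mem_above.1 hr
    have P := pairFacts (show 0 < q by omega) hlt
    refine ⟨hA, P.hg, ?_⟩
    have h := log_lt_of_not_big hnb
    rwa [(event_right P hA hnb).2] at h
  set T := s.filter (fun r => Ab r = W ∧ Nat.gcd q r = g)
  have hT : ∀ r ∈ T, OK ψ r ∧ PairFacts q r ∧ q < r ∧ Bad ψ q r ∧ 1 ≤ tt ψ q r ∧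
      Event (cv q r) W ∧ WW q r = W ∧ Nat.gcd q r = g := fun r hr => by
    obtain ⟨h1, h2, h2'⟩ := Finset.mem_filter.1 hr
    obtain ⟨h3, h4, h5, h6, h7, h8⟩ := mem_above.1 h1
    have P := pairFacts (show 0 < q by omega) h4
    obtain ⟨he, hw⟩ := event_right P h8 h7
    exact ⟨hF r h3, P, h4, h5, h6, h2 ▸ he, hw.trans h2, h2'⟩
  have hW1 : (1:ℝ) ≤ W := by exact_mod_cast (by have := W0_ge; omega : 1 ≤ W)
  have hg1 : (1:ℝ) ≤ g := by exact_mod_cast hg
  have heps := eps_nonneg W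
  refine (sum_levels T (lev q) _ (24 * ψ q * eps W) (8 * (W:ℝ) + 3) (by positivity) (by positivity) ?_ ?_).trans ?_
  · intro x hx y hy _ hy1
    obtain ⟨hx1, Px, -, hxb, -, -, hxW, hxg⟩ := hT x hx
    obtain ⟨hy1', Py, -, -, hyt, -, -, hyg⟩ := hT y hy
    exact levels_close Px Py hxg hyg hψq hx1.2.2.1 hy1'.2.2.2 hxb (le_of_eq (by rw [hxW])) hyt hy1
  · intro i _
    set T' := T.filter (fun r => lev q r = i) with hT'
    rcases T'.eq_empty_or_nonempty with e | ⟨r0, hr0⟩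
    · rw [e, Finset.sum_empty]; positivity
    set u := q / g with hu
    have hcu : ∀ r ∈ T', cu q r = u := fun r hr => by
      obtain ⟨-, -, -, -, -, -, -, hgr⟩ := hT r (Finset.mem_filter.1 hr).1
      unfold cu; rw [hgr]
    have hu0 : 0 < u := by
      obtain ⟨-, P, -⟩ := hT r0 (Finset.mem_filter.1 hr0).1
      rw [← hcu r0 hr0]; exact P.hu0
    refine (sum_const_le _ _ (12 * (ψ q * (1 / ((g:ℝ) * 2 ^ i * u)))) (((2:ℝ) ^ (i + 1) * u) * eps W)
      (by positivity) ?_ ?_).trans ?_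
    · intro r hr
      obtain ⟨h1, P, -, -, ht, -, -, hgr⟩ := hT r (Finset.mem_filter.1 hr).1
      refine (ov_le_large P hψq h1.2.2.1 ht).trans ?_
      have hp := psi_le_dyadic P hgr h1.2.2.2 (Finset.mem_filter.1 hr).2
      rw [hcu r hr] at hp
      exact mul_le_mul_of_nonneg_left (mul_le_mul_of_nonneg_left hp hψq) (by norm_num)
    · refine le_trans (Nat.cast_le.2 (Finset.card_le_card_of_injOn (cv q) (fun r hr => ?_)
        (fun x hx y hy e => ?_))) (card_event_floor ((2:ℝ) ^ (i + 1) * u) (by positivity) W hW0)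
      · obtain ⟨hrT, hri⟩ := Finset.mem_filter.1 hr
        obtain ⟨-, P, -, -, -, hev, -, -⟩ := hT r hrT
        refine Finset.mem_filter.2 ⟨Finset.mem_Icc.2 ⟨by have := P.huv; omega, Nat.le_floor ?_⟩, hev⟩
        have := (lev_spec P).2.le
        rw [hri, hcu r hr] at this
        exact_mod_cast this
      · obtain ⟨-, -, hx', -, -, -, -, hxg⟩ := hT x (Finset.mem_filter.1 hx).1
        obtain ⟨-, -, hy', -, -, -, -, hyg⟩ := hT y (Finset.mem_filter.1 hy).1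
        exact eq_of_cv_eq (by omega) hx' hy' hxg hyg e
    · have hu' : (u:ℝ) ≠ 0 := by exact_mod_cast hu0.ne'
      calc (2:ℝ) ^ (i + 1) * u * eps W * (12 * (ψ q * (1 / ((g:ℝ) * 2 ^ i * u))))
          = 24 * ψ q * eps W / g := by rw [pow_succ]; field_simp; ring
        _ ≤ _ := div_le_self (by positivity) hg1
  · calc (8 * (W:ℝ) + 3 + 2) * (24 * ψ q * eps W) ≤ 13 * (W:ℝ) * (24 * ψ q * eps W) :=
          mul_le_mul_of_nonneg_right (by linarith) (by positivity)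
      _ = 312 * ψ q * ((W:ℝ) * eps W) := by ring
      _ ≤ _ := mul_le_mul_of_nonneg_left (base_le_weight hW0) (by positivity)

lemma L2r : ∃ C : ℝ, 0 < C ∧ ∀ (γ : ℝ) (ψ : ℕ → ℝ) (F : Finset ℕ), (∀ x ∈ F, OK ψ x) → ∀ r ∈ F,
    ∑ q ∈ below ψ F r (fun q => 1 ≤ tt ψ q r ∧ ¬ Big q r ∧ Ab r ≤ Ab q), ov γ ψ q r
      ≤ C * ψ r / (Ab r : ℝ) := by
  obtain ⟨C, hC, hch⟩ := charge_small
  refine ⟨C * 348, by positivity, fun γ ψ F hF r hr => ?_⟩
  obtain ⟨hr16, -, hψr, -⟩ := hF r hr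
  set s := below ψ F r (fun q => 1 ≤ tt ψ q r ∧ ¬ Big q r ∧ Ab r ≤ Ab q)
  refine le_of_le_of_eq (hch r s (fun q => ov γ ψ q r) Ab (fun q => Nat.gcd q r) (348 * ψ r)
    (by positivity) (fun q hq => ?_) (fun W g hW0 hg hlg => ?_)) (by ring)
  · obtain ⟨hqF, hlt, -, -, hnb, hA⟩ := mem_below.1 hq
    have P := pairFacts (show 0 < q by have := (hF q hqF).1; omega) hlt
    refine ⟨hA, P.hg, ?_⟩
    have h := log_lt_of_not_big hnb
    rwa [(event_left P hA hnb).2] at h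
  set T := s.filter (fun q => Ab q = W ∧ Nat.gcd q r = g)
  have hT : ∀ q ∈ T, OK ψ q ∧ PairFacts q r ∧ q < r ∧ Bad ψ q r ∧ 1 ≤ tt ψ q r ∧
      Event (cu q r) W ∧ WW q r = W ∧ Nat.gcd q r = g := fun q hq => by
    obtain ⟨h1, h2, h2'⟩ := Finset.mem_filter.1 hq
    obtain ⟨h3, h4, h5, h6, h7, h8⟩ := mem_below.1 h1
    have P := pairFacts (show 0 < q by have := (hF q h3).1; omega) h4
    obtain ⟨he, hw⟩ := event_left P h8 h7
    exact ⟨hF q h3, P, h4, h5, h6, h2 ▸ he, hw.trans h2, h2'⟩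
  have hW1 : (1:ℝ) ≤ W := by exact_mod_cast (by have := W0_ge; omega : 1 ≤ W)
  have hg1 : (1:ℝ) ≤ g := by exact_mod_cast hg
  have heps := eps_nonneg W
  set v := r / g with hv
  have hcv : ∀ q ∈ T, cv q r = v := fun q hq => by
    obtain ⟨-, -, -, -, -, -, -, hgr⟩ := hT q hq
    unfold cv; rw [hgr]
  have hpsi : ∀ q ∈ T, (v:ℝ) * ψ q ≤ Real.exp (5 * (W:ℝ)) := fun q hq => by
    obtain ⟨-, P, -, hb, -, -, hw, -⟩ := hT q hq
    have := vpsi_lt P hψr hb
    rw [hw, hcv q hq] at this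
    exact this.le
  set E := Real.exp (5 * (W:ℝ)) with hE
  have hEp : 0 < E := Real.exp_pos _
  rw [← Finset.sum_filter_add_sum_filter_not T (fun q => (cu q r : ℝ) * E ≤ (v:ℝ))]
  have hcard : ∀ (T' : Finset ℕ) (X : ℝ), 0 ≤ X → T' ⊆ T → (∀ q ∈ T', (cu q r : ℝ) ≤ X) →
      (T'.card : ℝ) ≤ X * eps W := by
    intro T' X hX hsub hle
    refine le_trans (Nat.cast_le.2 (Finset.card_le_card_of_injOn (fun q => cu q r) (fun q hq => ?_)
      (fun x hx y hy e => ?_))) (card_event_floor X hX W hW0)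
    · obtain ⟨-, P, -, -, -, hev, -, -⟩ := hT q (hsub hq)
      exact Finset.mem_filter.2 ⟨Finset.mem_Icc.2 ⟨P.hu0, Nat.le_floor (hle q hq)⟩, hev⟩
    · obtain ⟨-, Px, hx', -, -, -, -, hxg⟩ := hT x (hsub hx)
      obtain ⟨-, Py, hy', -, -, -, -, hyg⟩ := hT y (hsub hy)
      exact eq_of_cu_eq Px.hq Py.hq hx' hy' hxg hyg e
  have hA : ∑ q ∈ T.filter (fun q => (cu q r : ℝ) * E ≤ (v:ℝ)), ov γ ψ q r ≤ 12 * ψ r * eps W := by
    rcases (T.filter (fun q => (cu q r : ℝ) * E ≤ (v:ℝ))).eq_empty_or_nonempty with e | ⟨q0, hq0⟩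
    · rw [e, Finset.sum_empty]; positivity
    have hv0 : (0:ℝ) < v := by
      obtain ⟨-, P, -⟩ := hT q0 (Finset.mem_filter.1 hq0).1
      rw [← hcv q0 (Finset.mem_filter.1 hq0).1]
      exact_mod_cast (lt_trans P.hu0 P.huv)
    refine (sum_const_le _ _ (12 * (E / v * ψ r)) ((v:ℝ) / E * eps W) (by positivity) ?_ ?_).trans
      (le_of_eq (by field_simp))
    · intro q hq
      obtain ⟨h1, P, -, -, ht, -, -, -⟩ := hT q (Finset.mem_filter.1 hq).1
      refine (ov_le_large P h1.2.2.1 hψr ht).trans ?_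
      refine mul_le_mul_of_nonneg_left (mul_le_mul_of_nonneg_right ?_ hψr) (by norm_num)
      rw [le_div_iff₀ hv0, mul_comm]
      exact hpsi q (Finset.mem_filter.1 hq).1
    · refine hcard _ _ (by positivity) (Finset.filter_subset _ _) fun q hq => ?_
      rw [le_div_iff₀ hEp]
      exact (Finset.mem_filter.1 hq).2
  have hB : ∑ q ∈ T.filter (fun q => ¬ (cu q r : ℝ) * E ≤ (v:ℝ)), ov γ ψ q r
      ≤ (8 * (W:ℝ) + 2) * (24 * ψ r * eps W) := by
    refine sum_levels _ (fun q => lev q r) _ _ _ (by positivity) (by positivity) ?_ ?_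
    · intro x hx y _ _ _
      obtain ⟨hxT, hx2⟩ := Finset.mem_filter.1 hx
      obtain ⟨-, P, -⟩ := hT x hxT
      have a1 : (2:ℝ) ^ lev x r * (cu x r : ℝ) ≤ (cv x r : ℝ) := by exact_mod_cast (lev_spec P).1
      rw [hcv x hxT] at a1
      have hu : (0:ℝ) < (cu x r : ℝ) := by exact_mod_cast P.hu0
      have : (2:ℝ) ^ lev x r ≤ E :=
        le_of_mul_le_mul_right (a1.trans (le_of_lt (lt_of_lt_of_eq (not_le.1 hx2) (mul_comm _ _)))) hu
      have := two_pow_le_exp this (by positivity)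
      have : (0:ℝ) ≤ (lev y r : ℝ) := Nat.cast_nonneg _
      linarith
    · intro i _
      set T' := (T.filter (fun q => ¬ (cu q r : ℝ) * E ≤ (v:ℝ))).filter (fun q => lev q r = i) with hT'
      rcases T'.eq_empty_or_nonempty with e | ⟨q0, hq0⟩
      · rw [e, Finset.sum_empty]; positivity
      have hin : ∀ q ∈ T', q ∈ T := fun q hq => (Finset.mem_filter.1 (Finset.mem_filter.1 hq).1).1
      have hv0 : (0:ℝ) < v := by
        obtain ⟨-, P, -⟩ := hT q0 (hin q0 hq0)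
        rw [← hcv q0 (hin q0 hq0)]
        exact_mod_cast (lt_trans P.hu0 P.huv)
      refine (sum_const_le _ _ (12 * ((2:ℝ) ^ (i + 1) / v * ψ r)) ((v:ℝ) / 2 ^ i * eps W)
        (by positivity) ?_ ?_).trans (le_of_eq (by rw [pow_succ]; field_simp; ring))
      · intro q hq
        obtain ⟨h1, P, -, -, ht, -, -, hgr⟩ := hT q (hin q hq)
        refine (ov_le_large P h1.2.2.1 hψr ht).trans ?_
        refine mul_le_mul_of_nonneg_left (mul_le_mul_of_nonneg_right ?_ hψr) (by norm_num)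
        have hu : (0:ℝ) < (cu q r : ℝ) := by exact_mod_cast P.hu0
        have hqu : (cu q r : ℝ) ≤ q := by exact_mod_cast Nat.div_le_self q _
        refine h1.2.2.2.trans ((one_div_le_one_div_of_le hu hqu).trans ?_)
        rw [div_le_div_iff₀ hu hv0, one_mul]
        have := (lev_spec P).2.le
        rw [(Finset.mem_filter.1 hq).2, hcv q (hin q hq)] at this
        exact_mod_cast this
      · refine hcard _ _ (by positivity) hin fun q hq => ?_
        obtain ⟨-, P, -⟩ := hT q (hin q hq)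
        rw [le_div_iff₀ (by positivity), mul_comm]
        have := (lev_spec P).1
        rw [(Finset.mem_filter.1 hq).2, hcv q (hin q hq)] at this
        exact_mod_cast this
  refine (add_le_add hA hB).trans ?_
  calc 12 * ψ r * eps W + (8 * (W:ℝ) + 2) * (24 * ψ r * eps W)
      ≤ 348 * ψ r * ((W:ℝ) * eps W) := by
        nlinarith [mul_nonneg (mul_nonneg hψr heps) (by linarith : (0:ℝ) ≤ (W:ℝ) - 1)]
    _ ≤ _ := mul_le_mul_of_nonneg_left (base_le_weight hW0) (by positivity)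

lemma S2q : ∃ C : ℝ, 0 < C ∧ ∀ (γ : ℝ) (ψ : ℕ → ℝ) (F : Finset ℕ), (∀ x ∈ F, OK ψ x) → ∀ q ∈ F,
    ∑ r ∈ above ψ F q (fun r => tt ψ q r < 1 ∧ ¬ Big q r ∧ (cv q r : ℝ) ≤ (cu q r : ℝ) * RR q r ∧
        Ab q ≤ Ab r), ov γ ψ q r ≤ C * ψ q / (Ab q : ℝ) := by
  obtain ⟨C, hC, hch⟩ := charge_small
  refine ⟨C * 6, by positivity, fun γ ψ F hF q hq => ?_⟩
  obtain ⟨hq16, -, hψq, -⟩ := hF q hq
  set s := above ψ F q (fun r => tt ψ q r < 1 ∧ ¬ Big q r ∧ (cv q r : ℝ) ≤ (cu q r : ℝ) * RR q r ∧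
        Ab q ≤ Ab r)
  refine le_of_le_of_eq (hch q s (fun r => ov γ ψ q r) Ab (fun r => Nat.gcd q r) (6 * ψ q)
    (by positivity) (fun r hr => ?_) (fun W g hW0 hg hlg => ?_)) (by ring)
  · obtain ⟨hrF, hlt, -, -, hnb, -, hA⟩ := mem_above.1 hr
    have P := pairFacts (show 0 < q by omega) hlt
    refine ⟨hA, P.hg, ?_⟩
    have h := log_lt_of_not_big hnb
    rwa [(event_right P hA hnb).2] at h
  set T := s.filter (fun r => Ab r = W ∧ Nat.gcd q r = g)
  have hT : ∀ r ∈ T, OK ψ r ∧ PairFacts q r ∧ q < r ∧ tt ψ q r < 1 ∧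
      (cv q r : ℝ) ≤ (cu q r : ℝ) * RR q r ∧ Event (cv q r) W ∧ WW q r = W ∧ Nat.gcd q r = g :=
    fun r hr => by
    obtain ⟨h1, h2, h2'⟩ := Finset.mem_filter.1 hr
    obtain ⟨h3, h4, -, h6, h7, h7', h8⟩ := mem_above.1 h1
    have P := pairFacts (show 0 < q by omega) h4
    obtain ⟨he, hw⟩ := event_right P h8 h7
    exact ⟨hF r h3, P, h4, h6, h7', h2 ▸ he, hw.trans h2, h2'⟩
  have hW1 : (1:ℝ) ≤ W := by exact_mod_cast (by have := W0_ge; omega : 1 ≤ W)
  have heps := eps_nonneg W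
  set e4 := Real.exp (4 * Real.sqrt (Real.sqrt (W:ℝ))) with he4
  rcases T.eq_empty_or_nonempty with e | ⟨r0, hr0⟩
  · rw [e, Finset.sum_empty]; positivity
  set u := q / g with hu
  have hcu : ∀ r ∈ T, cu q r = u := fun r hr => by
    obtain ⟨-, -, -, -, -, -, -, hgr⟩ := hT r hr
    unfold cu; rw [hgr]
  have hu0 : (0:ℝ) < u := by
    obtain ⟨-, P, -⟩ := hT r0 hr0
    rw [← hcu r0 hr0]; exact_mod_cast P.hu0
  refine (sum_const_le _ _ (6 * (ψ q / u)) ((u:ℝ) * e4 * eps W) (by positivity) ?_ ?_).trans ?_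
  · intro r hr
    obtain ⟨h1, P, -, ht, -⟩ := hT r hr
    refine (ov_le_small P hψq h1.2.2.1 ht).trans (mul_le_mul_of_nonneg_left ?_ (by norm_num))
    rw [hcu r hr]; exact min_le_left _ _
  · refine le_trans (Nat.cast_le.2 (Finset.card_le_card_of_injOn (cv q) (fun r hr => ?_)
      (fun x hx y hy e => ?_))) (card_event_floor ((u:ℝ) * e4) (by positivity) W hW0)
    · obtain ⟨-, P, -, -, hR, hev, hw, hgr⟩ := hT r hr
      refine Finset.mem_filter.2 ⟨Finset.mem_Icc.2 ⟨by have := P.huv; omega, Nat.le_floor ?_⟩, hev⟩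
      rw [hcu r hr] at hR
      refine hR.trans (mul_le_mul_of_nonneg_left ?_ hu0.le)
      unfold RR
      rw [hw, hgr, he4, show 4 * Real.sqrt (Real.sqrt (W:ℝ)) = 2 * Real.sqrt (Real.sqrt W)
        + 2 * Real.sqrt (Real.sqrt W) by ring, Real.exp_add]
      refine mul_le_mul_of_nonneg_right ?_ (Real.exp_pos _).le
      rw [two_mul, Real.exp_add, ← pow_two]
      refine pow_le_pow_left₀ (Nat.cast_nonneg _) ?_ 2
      exact (Real.log_le_iff_le_exp (by exact_mod_cast hg)).1 hlg.le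
    · obtain ⟨-, -, hx', -, -, -, -, hxg⟩ := hT x hx
      obtain ⟨-, -, hy', -, -, -, -, hyg⟩ := hT y hy
      exact eq_of_cv_eq (by omega) hx' hy' hxg hyg e
  · calc (u:ℝ) * e4 * eps W * (6 * (ψ q / u)) = 6 * ψ q * (1 * e4 * eps W) := by field_simp
      _ ≤ 6 * ψ q * ((W:ℝ) * e4 * eps W) := mul_le_mul_of_nonneg_left
          (mul_le_mul_of_nonneg_right (mul_le_mul_of_nonneg_right hW1 (Real.exp_pos _).le) heps)
          (by positivity)

lemma S2r : ∃ C : ℝ, 0 < C ∧ ∀ (γ : ℝ) (ψ : ℕ → ℝ) (F : Finset ℕ), (∀ x ∈ F, OK ψ x) → ∀ r ∈ F,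
    ∑ q ∈ below ψ F r (fun q => tt ψ q r < 1 ∧ ¬ Big q r ∧ Ab r ≤ Ab q), ov γ ψ q r
      ≤ C * ψ r / (Ab r : ℝ) := by
  obtain ⟨C, hC, hch⟩ := charge_small
  refine ⟨C * 6, by positivity, fun γ ψ F hF r hr => ?_⟩
  obtain ⟨hr16, -, hψr, -⟩ := hF r hr
  set s := below ψ F r (fun q => tt ψ q r < 1 ∧ ¬ Big q r ∧ Ab r ≤ Ab q)
  refine le_of_le_of_eq (hch r s (fun q => ov γ ψ q r) Ab (fun q => Nat.gcd q r) (6 * ψ r)
    (by positivity) (fun q hq => ?_) (fun W g hW0 hg hlg => ?_)) (by ring)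
  · obtain ⟨hqF, hlt, -, -, hnb, hA⟩ := mem_below.1 hq
    have P := pairFacts (show 0 < q by have := (hF q hqF).1; omega) hlt
    refine ⟨hA, P.hg, ?_⟩
    have h := log_lt_of_not_big hnb
    rwa [(event_left P hA hnb).2] at h
  set T := s.filter (fun q => Ab q = W ∧ Nat.gcd q r = g)
  have hT : ∀ q ∈ T, OK ψ q ∧ PairFacts q r ∧ q < r ∧ tt ψ q r < 1 ∧
      Event (cu q r) W ∧ Nat.gcd q r = g := fun q hq => by
    obtain ⟨h1, h2, h2'⟩ := Finset.mem_filter.1 hq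
    obtain ⟨h3, h4, -, h6, h7, h8⟩ := mem_below.1 h1
    have P := pairFacts (show 0 < q by have := (hF q h3).1; omega) h4
    exact ⟨hF q h3, P, h4, h6, h2 ▸ (event_left P h8 h7).1, h2'⟩
  have hW1 : (1:ℝ) ≤ W := by exact_mod_cast (by have := W0_ge; omega : 1 ≤ W)
  have heps := eps_nonneg W
  rcases T.eq_empty_or_nonempty with e | ⟨q0, hq0⟩
  · rw [e, Finset.sum_empty]; positivity
  set v := r / g with hv
  have hcv : ∀ q ∈ T, cv q r = v := fun q hq => by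
    obtain ⟨-, -, -, -, -, hgr⟩ := hT q hq
    unfold cv; rw [hgr]
  have hv0 : (0:ℝ) < v := by
    obtain ⟨-, P, -⟩ := hT q0 hq0
    rw [← hcv q0 hq0]; exact_mod_cast (lt_trans P.hu0 P.huv)
  refine (sum_const_le _ _ (6 * (ψ r / v)) ((v:ℝ) * eps W) (by positivity) ?_ ?_).trans ?_
  · intro q hq
    obtain ⟨h1, P, -, ht, -⟩ := hT q hq
    refine (ov_le_small P h1.2.2.1 hψr ht).trans (mul_le_mul_of_nonneg_left ?_ (by norm_num))
    rw [hcv q hq]; exact min_le_right _ _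
  · refine le_trans (Nat.cast_le.2 (Finset.card_le_card_of_injOn (fun q => cu q r) (fun q hq => ?_)
      (fun x hx y hy e => ?_))) (card_event_floor (v:ℝ) hv0.le W hW0)
    · obtain ⟨-, P, -, -, hev, -⟩ := hT q hq
      refine Finset.mem_filter.2 ⟨Finset.mem_Icc.2 ⟨P.hu0, Nat.le_floor ?_⟩, hev⟩
      rw [← hcv q hq]
      exact_mod_cast P.huv.le
    · obtain ⟨-, Px, hx', -, -, hxg⟩ := hT x hx
      obtain ⟨-, Py, hy', -, -, hyg⟩ := hT y hy
      exact eq_of_cu_eq Px.hq Py.hq hx' hy' hxg hyg e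
  · calc (v:ℝ) * eps W * (6 * (ψ r / v)) = 6 * ψ r * (1 * 1 * eps W) := by field_simp
      _ ≤ _ := mul_le_mul_of_nonneg_left (mul_le_mul_of_nonneg_right (mul_le_mul hW1
          (Real.one_le_exp (by positivity)) zero_le_one (by linarith)) heps) (by positivity)

lemma S3 : ∃ C : ℝ, 0 < C ∧ ∀ (γ : ℝ) (ψ : ℕ → ℝ) (F : Finset ℕ), (∀ x ∈ F, OK ψ x) → ∀ r ∈ F,
    ∑ q ∈ below ψ F r (fun q => tt ψ q r < 1 ∧ (cu q r : ℝ) * RR q r < (cv q r : ℝ)), ov γ ψ q r
      ≤ C * ψ r / (Ab r : ℝ) := by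
  refine ⟨18, by norm_num, fun γ ψ F hF r hr => ?_⟩
  obtain ⟨hr16, -, hψr, -⟩ := hF r hr
  set s := below ψ F r (fun q => tt ψ q r < 1 ∧ (cu q r : ℝ) * RR q r < (cv q r : ℝ))
  set y := Real.sqrt (Real.sqrt (Ab r : ℝ)) with hy
  have hA : (1:ℝ) ≤ Ab r := by exact_mod_cast (by have := Ab_ge r; have := W0_ge; omega : 1 ≤ Ab r)
  have hy4 : y ^ 4 = (Ab r : ℝ) := by
    rw [hy, show Real.sqrt (Real.sqrt (Ab r : ℝ)) ^ 4 = (Real.sqrt (Real.sqrt (Ab r : ℝ)) ^ 2) ^ 2 by ring,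
      Real.sq_sqrt (Real.sqrt_nonneg _), Real.sq_sqrt (Nat.cast_nonneg _)]
  have hkey : Real.exp (-(2 * y)) ≤ 3 / 2 / (Ab r : ℝ) := by
    have h := Real.pow_div_factorial_le_exp (2 * y) (by positivity) 4
    rw [mul_pow, hy4] at h
    norm_num [Nat.factorial] at h
    rw [Real.exp_neg, inv_le_iff_one_le_mul₀ (Real.exp_pos _), div_mul_eq_mul_div,
      le_div_iff₀ (by linarith)]
    linarith
  rw [← Finset.sum_fiberwise_of_maps_to (g := fun q => Nat.gcd q r) (t := r.divisors)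
    (fun q hq => Nat.mem_divisors.2 ⟨Nat.gcd_dvd_right _ _, by omega⟩)]
  have hb : ∀ g ∈ r.divisors, ∑ q ∈ s.filter (fun q => Nat.gcd q r = g), ov γ ψ q r
      ≤ 6 * ψ r * Real.exp (-(2 * y)) * (1 / (g:ℝ) ^ 2) := by
    intro g hg
    set T := s.filter (fun q => Nat.gcd q r = g)
    have hT : ∀ q ∈ T, OK ψ q ∧ PairFacts q r ∧ q < r ∧ tt ψ q r < 1 ∧
        (cu q r : ℝ) * RR q r < (cv q r : ℝ) ∧ Nat.gcd q r = g := fun q hq => by
      obtain ⟨h1, h2⟩ := Finset.mem_filter.1 hq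
      obtain ⟨h3, h4, -, h6, h7⟩ := mem_below.1 h1
      exact ⟨hF q h3, pairFacts (by have := (hF q h3).1; omega) h4, h4, h6, h7, h2⟩
    rcases T.eq_empty_or_nonempty with e | ⟨q0, hq0⟩
    · rw [e, Finset.sum_empty]; positivity
    set v := r / g with hv
    have hcv : ∀ q ∈ T, cv q r = v := fun q hq => by
      obtain ⟨-, -, -, -, -, hgr⟩ := hT q hq
      unfold cv; rw [hgr]
    have hv0 : (0:ℝ) < v := by
      obtain ⟨-, P, -⟩ := hT q0 hq0
      rw [← hcv q0 hq0]; exact_mod_cast (lt_trans P.hu0 P.huv)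
    have hg0 : (0:ℝ) < g := by exact_mod_cast Nat.pos_of_mem_divisors hg
    set R := (g:ℝ) ^ 2 * Real.exp (2 * y) with hR
    have hR0 : 0 < R := by positivity
    refine (sum_const_le _ _ (6 * (ψ r / v)) ((v:ℝ) / R) (by positivity) ?_ ?_).trans ?_
    · intro q hq
      obtain ⟨h1, P, -, ht, -⟩ := hT q hq
      refine (ov_le_small P h1.2.2.1 hψr ht).trans (mul_le_mul_of_nonneg_left ?_ (by norm_num))
      rw [hcv q hq]; exact min_le_right _ _
    · refine le_trans (Nat.cast_le.2 (Finset.card_le_card_of_injOn (fun q => cu q r)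
        (t := Finset.Icc 1 ⌊(v:ℝ) / R⌋₊) (fun q hq => ?_) (fun x hx y hy e => ?_))) ?_
      · obtain ⟨-, P, -, -, hlt, hgr⟩ := hT q hq
        refine Finset.mem_Icc.2 ⟨P.hu0, Nat.le_floor ?_⟩
        rw [le_div_iff₀ hR0]
        rw [hcv q hq] at hlt
        refine le_trans (mul_le_mul_of_nonneg_left ?_ (Nat.cast_nonneg _)) hlt.le
        rw [hR, hy]
        unfold RR
        rw [hgr]
        refine mul_le_mul_of_nonneg_left (Real.exp_le_exp.2 (mul_le_mul_of_nonneg_left ?_ (by norm_num)))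
          (by positivity)
        exact Real.sqrt_le_sqrt (Real.sqrt_le_sqrt (Nat.cast_le.2 (le_max_right _ _)))
      · obtain ⟨-, Px, hx', -, -, hxg⟩ := hT x hx
        obtain ⟨-, Py, hy', -, -, hyg⟩ := hT y hy
        exact eq_of_cu_eq Px.hq Py.hq hx' hy' hxg hyg e
      · rw [Nat.card_Icc, Nat.add_sub_cancel]; exact Nat.floor_le (by positivity)
    · rw [hR, Real.exp_neg]
      exact le_of_eq (by field_simp)
  refine (Finset.sum_le_sum hb).trans ?_
  rw [← Finset.mul_sum]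
  have hsum : ∑ g ∈ r.divisors, 1 / (g:ℝ) ^ 2 ≤ 2 := by
    rw [← Finset.sum_filter_add_sum_filter_not r.divisors (fun g => g = 1)]
    have h1 : ∑ g ∈ r.divisors.filter (fun g => g = 1), 1 / (g:ℝ) ^ 2 ≤ 1 := by
      refine (Finset.sum_le_sum_of_subset_of_nonneg (t := {1}) (fun g hg => by
        simp only [Finset.mem_filter] at hg; simp [hg.2]) (fun g _ _ => by positivity)).trans (by simp)
    have h2 : ∑ g ∈ r.divisors.filter (fun g => ¬ g = 1), 1 / (g:ℝ) ^ 2 ≤ 2 / ((2:ℕ):ℝ) :=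
      sum_inv_sq_ge le_rfl _ fun g hg => by
        obtain ⟨h1, h2⟩ := Finset.mem_filter.1 hg
        have := Nat.pos_of_mem_divisors h1
        omega
    norm_num at h2 ⊢
    norm_num at h1
    linarith
  calc 6 * ψ r * Real.exp (-(2 * y)) * ∑ g ∈ r.divisors, 1 / (g:ℝ) ^ 2
      ≤ 6 * ψ r * (3 / 2 / (Ab r : ℝ)) * 2 := by
        refine mul_le_mul (mul_le_mul_of_nonneg_left hkey (by positivity)) hsum
          (Finset.sum_nonneg fun g _ => by positivity) (by positivity)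
    _ = _ := by ring

end Vale.Agent.P028
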