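import Vale.Agent.P028.Frac

namespace Vale.Agent.P028

open Finset
open scoped Classical

/-- The offset of the linear form attached to a pair of denominators. -/
noncomputable def off (γ : ℝ) (q r : ℕ) : ℝ := γ * ((r:ℝ) - q)

/-- Pairs `(a, b)` whose centres for `q` and `r` are within the two radii. -/
noncomputable def Pairs (γ : ℝ) (q r : ℕ) (Δ : ℝ) : Finset (ℤ × ℤ) :=
  ((Finset.Ico (0:ℤ) q) ×ˢ (Finset.Icc ⌊(off γ q r - Δ) / q⌋ ⌈((q:ℝ) * r + off γ q r + Δ) / q⌉)).filter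
    (fun x => |(x.1:ℝ) * r - (x.2:ℝ) * q + off γ q r| < Δ)

lemma mem_Pairs {γ : ℝ} {q r : ℕ} {Δ : ℝ} (hq : 0 < q) {a b : ℤ} :
    (a, b) ∈ Pairs γ q r Δ ↔ 0 ≤ a ∧ a < q ∧ |(a:ℝ) * r - (b:ℝ) * q + off γ q r| < Δ := by
  simp only [Pairs, Finset.mem_filter, Finset.mem_product, Finset.mem_Ico, Finset.mem_Icc]
  constructor
  · rintro ⟨⟨⟨h1, h2⟩, -⟩, h3⟩; exact ⟨h1, h2, h3⟩
  · rintro ⟨h1, h2, h3⟩
    refine ⟨⟨⟨h1, h2⟩, ?_, ?_⟩, h3⟩
    · have hq' : (0:ℝ) < q := by exact_mod_cast hq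
      have : (⌊(off γ q r - Δ) / q⌋ : ℝ) ≤ b := by
        refine (Int.floor_le _).trans ?_
        rw [div_le_iff₀ hq']
        obtain ⟨u1, u2⟩ := abs_lt.1 h3
        have : (0:ℝ) ≤ (a:ℝ) * r := mul_nonneg (by exact_mod_cast h1) (Nat.cast_nonneg _)
        linarith
      exact_mod_cast this
    · have hq' : (0:ℝ) < q := by exact_mod_cast hq
      have : (b:ℝ) ≤ (⌈((q:ℝ) * r + off γ q r + Δ) / q⌉ : ℝ) := by
        refine le_trans ?_ (Int.le_ceil _)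
        rw [le_div_iff₀ hq']
        obtain ⟨u1, u2⟩ := abs_lt.1 h3
        have : (a:ℝ) * r ≤ (q:ℝ) * r :=
          mul_le_mul_of_nonneg_right (by exact_mod_cast h2.le) (Nat.cast_nonneg _)
        linarith
      exact_mod_cast this

lemma card_class_near (q r : ℕ) (hq : 0 < q) (hr : 0 < r) (γ : ℝ) (Δ : ℝ) (hΔ : 0 < Δ)
    (d e : ℕ) (hd : d ∣ q) (he : e ∣ r) (c1 c2 : ℤ) :
    |((((Pairs γ q r Δ).filter (fun x => (d:ℤ) ∣ x.1 - c1 ∧ (e:ℤ) ∣ x.2 - c2)).card : ℕ) : ℝ)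
      - 2 * Δ / ((d:ℝ) * e)| ≤ (Nat.gcd q r : ℝ) := by
  obtain ⟨Q, rfl⟩ := hd
  obtain ⟨R, rfl⟩ := he
  have hd0 : 0 < d := pos_of_mul_pos_left hq (Nat.zero_le _)
  have he0 : 0 < e := pos_of_mul_pos_left hr (Nat.zero_le _)
  have hQ0 : 0 < Q := pos_of_mul_pos_right hq (Nat.zero_le _)
  have hR0 : 0 < R := pos_of_mul_pos_right hr (Nat.zero_le _)
  obtain ⟨G', U, V, hG'0, hUV, hU, hV⟩ := Nat.exists_coprime' (m := Q) (n := R)
    (Nat.gcd_pos_of_pos_left _ hQ0)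
  have hU0 : 0 < U := pos_of_mul_pos_left (hU ▸ hQ0) (Nat.zero_le _)
  have hV0 : 0 < V := pos_of_mul_pos_left (hV ▸ hR0) (Nat.zero_le _)
  obtain ⟨xV, yU, hxy⟩ := (Nat.isCoprime_iff_coprime.2 hUV.symm : IsCoprime (V:ℤ) (U:ℤ))
  set c1' := c1 % (d:ℤ) with hc1'
  have hc1a : 0 ≤ c1' := Int.emod_nonneg _ (by omega)
  have hc1b : c1' < d := Int.emod_lt_of_pos _ (by omega)
  set C0 := (c1':ℝ) * ((e * R : ℕ):ℝ) - (c2:ℝ) * ((d * Q : ℕ):ℝ) + off γ (d * Q) (e * R) with hC0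
  set M := ((d:ℝ) * e * G') with hM
  have hM0 : 0 < M := by rw [hM]; positivity
  set K := Finset.Icc (⌊(-Δ - C0) / M⌋ + 1) (⌈(Δ - C0) / M⌉ - 1) with hK
  have hmemK : ∀ k : ℤ, k ∈ K ↔ |M * (k:ℝ) + C0| < Δ := by
    intro k
    rw [hK, Finset.mem_Icc, abs_lt, Int.add_one_le_iff, Int.le_sub_one_iff, Int.floor_lt,
      Int.lt_ceil, div_lt_iff₀ hM0, lt_div_iff₀ hM0]
    constructor <;> rintro ⟨u, v⟩ <;> constructor <;> linarith
  have key : ((Pairs γ (d * Q) (e * R) Δ).filter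
      (fun x => (d:ℤ) ∣ x.1 - c1 ∧ (e:ℤ) ∣ x.2 - c2)).card = (K ×ˢ Finset.range G').card := by
    have hd' : (d:ℤ) ≠ 0 := by omega
    have he' : (e:ℤ) ≠ 0 := by omega
    have hU' : (0:ℤ) < U := by exact_mod_cast hU0
    let A : ℤ × ℕ → ℤ := fun z => (z.1 * xV) % (U:ℤ) + (U:ℤ) * z.2
    have hQ : (Q:ℤ) = U * G' := by exact_mod_cast hU
    have hdiv : ∀ z : ℤ × ℕ, ∃ b' : ℤ, (V:ℤ) * A z - (U:ℤ) * b' = z.1 := by
      intro z
      refine ⟨(V:ℤ) * (z.2:ℤ) - (V:ℤ) * ((z.1 * xV) / (U:ℤ)) - z.1 * yU, ?_⟩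
      have h1 := Int.emod_add_mul_ediv (z.1 * xV) (U:ℤ)
      simp only [A]
      linear_combination (V:ℤ) * h1 + z.1 * hxy
    choose B hB using hdiv
    symm
    refine Finset.card_bij (fun z _ => (c1' + (d:ℤ) * A z, c2 + (e:ℤ) * B z)) ?_ ?_ ?_
    · intro z hz
      simp only [Finset.mem_product, Finset.mem_range] at hz
      have hk := (hmemK z.1).1 hz.1
      have hA0 : 0 ≤ A z := add_nonneg (Int.emod_nonneg _ (by omega)) (by positivity)
      have hA1 : A z < Q := by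
        have h1 := Int.emod_lt_of_pos (z.1 * xV) hU'
        have h2 : (U:ℤ) * ((z.2:ℤ) + 1) ≤ U * G' :=
          mul_le_mul_of_nonneg_left (by exact_mod_cast hz.2) hU'.le
        simp only [A]; rw [hQ]; linarith
      simp only [Finset.mem_filter]
      refine ⟨(mem_Pairs hq).2 ⟨?_, ?_, ?_⟩, ?_, ?_⟩
      · positivity
      · have : (d:ℤ) * (A z + 1) ≤ d * Q := mul_le_mul_of_nonneg_left (by omega) (by omega)
        push_cast; linarith
      · convert hk using 2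
        have hBz : (V:ℝ) * (A z : ℝ) - (U:ℝ) * (B z : ℝ) = (z.1:ℝ) := by exact_mod_cast hB z
        have hU'' : (Q:ℝ) = U * G' := by exact_mod_cast hU
        have hV'' : (R:ℝ) = V * G' := by exact_mod_cast hV
        simp only [hC0, hM]
        push_cast
        linear_combination ((d:ℝ) * e * G') * hBz + ((d:ℝ) * e * (A z:ℝ)) * hV''
          - ((d:ℝ) * e * (B z:ℝ)) * hU''
      · rw [hc1']
        have := Int.emod_add_mul_ediv c1 (d:ℤ)
        exact ⟨A z - c1 / (d:ℤ), by linear_combination this⟩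
      · exact ⟨B z, by ring⟩
    · intro z _ z' _ h
      simp only [Prod.mk.injEq] at h
      have hA : A z = A z' := mul_left_cancel₀ hd' (by linarith [h.1])
      have hBe : B z = B z' := mul_left_cancel₀ he' (by linarith [h.2])
      have hz1 : z.1 = z'.1 := by rw [← hB z, ← hB z', hA, hBe]
      refine Prod.ext hz1 ?_
      simp only [A, hz1] at hA
      have : (U:ℤ) * (z.2:ℤ) = U * z'.2 := by linarith
      exact_mod_cast mul_left_cancel₀ (by omega : (U:ℤ) ≠ 0) this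
    · rintro ⟨a, b⟩ hx
      simp only [Finset.mem_filter] at hx
      obtain ⟨hp, ⟨i, hi⟩, ⟨j, hj⟩⟩ := hx
      obtain ⟨ha0, ha1, hab⟩ := (mem_Pairs hq).1 hp
      set a' := i + c1 / (d:ℤ) with ha'
      have hae : a = c1' + (d:ℤ) * a' := by
        have := Int.emod_add_mul_ediv c1 (d:ℤ)
        rw [hc1', ha']
        linear_combination hi - this
      have ha'0 : 0 ≤ a' := by
        by_contra hneg
        have : (d:ℤ) * a' ≤ d * (-1) := mul_le_mul_of_nonneg_left (by omega) (by omega)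
        omega
      have ha'1 : a' < Q := by
        by_contra hge
        have : (d:ℤ) * Q ≤ d * a' := mul_le_mul_of_nonneg_left (by omega) (by omega)
        push_cast at ha1
        omega
      set k := (V:ℤ) * a' - (U:ℤ) * j with hkdef
      set s := a' / (U:ℤ) with hsdef
      have hs0 : 0 ≤ s := Int.ediv_nonneg ha'0 hU'.le
      have hs1 : s < G' := by
        rw [hsdef]
        exact Int.ediv_lt_of_lt_mul hU' (by rw [mul_comm, ← hQ]; exact ha'1)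
      have hmod : (k * xV) % (U:ℤ) = a' % (U:ℤ) := by
        apply Int.emod_eq_emod_iff_emod_sub_eq_zero.2
        apply Int.emod_eq_zero_of_dvd
        exact ⟨-(j * xV + a' * yU), by rw [hkdef]; linear_combination a' * hxy⟩
      refine ⟨(k, s.toNat), ?_, ?_⟩
      · simp only [Finset.mem_product, Finset.mem_range]
        refine ⟨(hmemK k).2 ?_, by omega⟩
        convert hab using 2
        have hbe : (b:ℝ) = (c2:ℝ) + (e:ℝ) * (j:ℝ) := by
          have : b = c2 + (e:ℤ) * j := by linarith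
          exact_mod_cast this
        have hae' : (a:ℝ) = (c1':ℝ) + (d:ℝ) * (a':ℝ) := by exact_mod_cast hae
        have hk' : (k:ℝ) = (V:ℝ) * (a':ℝ) - (U:ℝ) * (j:ℝ) := by exact_mod_cast hkdef
        have hU'' : (Q:ℝ) = U * G' := by exact_mod_cast hU
        have hV'' : (R:ℝ) = V * G' := by exact_mod_cast hV
        rw [hbe, hae', hk', hC0, hM]
        push_cast
        rw [hU'', hV'']
        ring
      · have hA : A (k, s.toNat) = a' := by
          simp only [A, hmod]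
          rw [Int.toNat_of_nonneg hs0, hsdef]
          exact Int.emod_add_mul_ediv a' (U:ℤ)
        have hBj : B (k, s.toNat) = j := by
          have := hB (k, s.toNat)
          rw [hA] at this
          simp only at this
          exact mul_left_cancel₀ (by omega : (U:ℤ) ≠ 0) (by linarith)
        simp only [hA, hBj]
        exact Prod.ext hae.symm (by linarith)
  rw [key, Finset.card_product, Finset.card_range]
  have hKc : |((K.card : ℕ):ℝ) - 2 * Δ / M| ≤ 1 := by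
    rw [hK, Int.card_Icc]
    set x := (-Δ - C0) / M
    set y := (Δ - C0) / M
    have hxy' : y - x = 2 * Δ / M := by simp only [x, y]; ring
    have hlt : x < y := by have : 0 < 2 * Δ / M := by positivity
                           linarith
    have hge : 0 ≤ ⌈y⌉ - 1 + 1 - (⌊x⌋ + 1) := by
      have : ⌊x⌋ < ⌈y⌉ := Int.floor_lt.2 (hlt.trans_le (Int.le_ceil y))
      omega
    have e : (((⌈y⌉ - 1 + 1 - (⌊x⌋ + 1)).toNat : ℕ):ℝ) = (⌈y⌉:ℝ) - (⌊x⌋:ℝ) - 1 := by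
      have h := congrArg (fun z : ℤ => (z:ℝ)) (Int.toNat_of_nonneg hge)
      push_cast at h ⊢
      linarith
    rw [e, ← hxy', abs_le]
    have := Int.le_ceil y; have := Int.ceil_lt_add_one y
    have := Int.floor_le x; have := Int.lt_floor_add_one x
    constructor <;> linarith
  have hG0 : (0:ℝ) ≤ G' := Nat.cast_nonneg _
  have hGle : (G':ℝ) ≤ (Nat.gcd (d * Q) (e * R) : ℝ) := by
    have h1 : G' ∣ Nat.gcd (d * Q) (e * R) :=
      Nat.dvd_gcd (Dvd.dvd.mul_left ⟨U, by rw [hU]; ring⟩ d) (Dvd.dvd.mul_left ⟨V, by rw [hV]; ring⟩ e)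
    exact_mod_cast Nat.le_of_dvd (Nat.gcd_pos_of_pos_left _ hq) h1
  have e : ((K.card * G' : ℕ):ℝ) - 2 * Δ / ((d:ℝ) * e)
      = (G':ℝ) * ((K.card:ℝ) - 2 * Δ / M) := by
    have hG1 : (0:ℝ) < G' := by exact_mod_cast hG'0
    rw [hM]; push_cast; field_simp
  rw [e, abs_mul, abs_of_nonneg hG0]
  calc (G':ℝ) * |(K.card:ℝ) - 2 * Δ / M| ≤ (G':ℝ) * 1 := mul_le_mul_of_nonneg_left hKc hG0
    _ ≤ _ := by rw [mul_one]; exact hGle

lemma exists_crt_class (T : Finset ℕ) (hT : ∀ p ∈ T, p.Prime) (c : ℕ → ℤ) :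
    ∃ z : ℤ, ∀ a : ℤ, ((∏ p ∈ T, p : ℕ) : ℤ) ∣ a - z ↔ ∀ p ∈ T, (p:ℤ) ∣ a - c p := by
  have hp' : ∀ p ∈ T, p ≠ 0 := fun p hp => (hT p hp).ne_zero
  have hpair : Set.Pairwise (↑T : Set ℕ) (Function.onFun Nat.Coprime fun p => p) := by
    intro p hp q hq hne
    exact (Nat.coprime_primes (hT p hp) (hT q hq)).2 hne
  obtain ⟨z, hz⟩ := Nat.chineseRemainderOfFinset (fun p => ((c p) % (p:ℤ)).toNat) (fun p => p) T hp' hpair
  have hzc : ∀ p ∈ T, (p:ℤ) ∣ (z:ℤ) - c p := by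
    intro p hp
    have h1 := Nat.modEq_iff_dvd.1 (hz p hp).symm
    have h2 : 0 ≤ c p % (p:ℤ) := Int.emod_nonneg _ (by exact_mod_cast hp' p hp)
    rw [Int.toNat_of_nonneg h2] at h1
    have h3 := Int.emod_add_mul_ediv (c p) (p:ℤ)
    have h4 : (z:ℤ) - c p = ((z:ℤ) - c p % (p:ℤ)) - (p:ℤ) * (c p / (p:ℤ)) := by linarith
    rw [h4]; exact dvd_sub h1 (dvd_mul_right _ _)
  refine ⟨z, fun a => ?_⟩
  constructor
  · intro h p hp
    have h1 : (p:ℤ) ∣ a - z :=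
      (Int.natCast_dvd_natCast.2 (Finset.dvd_prod_of_mem (fun p => p) hp)).trans h
    have := dvd_add h1 (hzc p hp)
    rwa [sub_add_sub_cancel] at this
  · intro h
    rw [← Int.dvd_natAbs, Int.natCast_dvd_natCast]
    apply Finset.prod_primes_dvd
    · exact fun p hp => (hT p hp).prime
    · intro p hp
      have := dvd_sub (h p hp) (hzc p hp)
      rw [sub_sub_sub_cancel_right] at this
      exact Int.natCast_dvd.1 this

/-- `a` avoids the class `c p` modulo `p` for every `p ∈ P`. -/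
def Avoid (P : Finset ℕ) (c : ℕ → ℤ) (a : ℤ) : Prop := ∀ p ∈ P, ¬ (p:ℤ) ∣ a - c p

lemma indicator_avoid (P : Finset ℕ) (c : ℕ → ℤ) (a : ℤ) :
    (if Avoid P c a then (1:ℝ) else 0) =
      ∑ T ∈ P.powerset, (-1:ℝ) ^ T.card * (if ∀ p ∈ T, (p:ℤ) ∣ a - c p then 1 else 0) := by
  have h := Finset.prod_one_add (f := fun p : ℕ => -(if (p:ℤ) ∣ a - c p then (1:ℝ) else 0)) (s := P)
  have e1 : (∏ p ∈ P, (1 + -(if (p:ℤ) ∣ a - c p then (1:ℝ) else 0))) = if Avoid P c a then 1 else 0 := by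
    by_cases hA : Avoid P c a
    · rw [if_pos hA]
      exact Finset.prod_eq_one fun p hp => by rw [if_neg (hA p hp)]; ring
    · rw [if_neg hA]
      simp only [Avoid, not_forall] at hA
      obtain ⟨p, hp, hpd⟩ := hA
      exact Finset.prod_eq_zero hp (by rw [if_pos (not_not.1 hpd)]; ring)
  rw [← e1, h]
  refine Finset.sum_congr rfl fun T _ => ?_
  rw [Finset.prod_neg, Finset.prod_boole]

lemma prod_one_sub_expand (P : Finset ℕ) :
    ∑ T ∈ P.powerset, (-1:ℝ) ^ T.card * (1 / ((∏ p ∈ T, p : ℕ):ℝ)) = ∏ p ∈ P, (1 - 1 / (p:ℝ)) := by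
  have h := Finset.prod_one_add (f := fun p : ℕ => -(1 / (p:ℝ))) (s := P)
  simp only [← sub_eq_add_neg] at h
  rw [h]
  refine Finset.sum_congr rfl fun T _ => ?_
  rw [Finset.prod_neg]
  push_cast
  rw [Finset.prod_div_distrib, Finset.prod_const_one]

lemma pairs_avoid_le (q r : ℕ) (hq : 0 < q) (hr : 0 < r) (γ Δ : ℝ) (hΔ : 0 < Δ)
    (P1 P2 : Finset ℕ) (h1 : ∀ p ∈ P1, p.Prime ∧ p ∣ q) (h2 : ∀ p ∈ P2, p.Prime ∧ p ∣ r)
    (c1 c2 : ℕ → ℤ) :
    ((((Pairs γ q r Δ).filter (fun x => Avoid P1 c1 x.1 ∧ Avoid P2 c2 x.2)).card : ℕ) : ℝ)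
      ≤ 2 * Δ * (∏ p ∈ P1, (1 - 1/(p:ℝ))) * (∏ p ∈ P2, (1 - 1/(p:ℝ)))
        + 2 ^ P1.card * 2 ^ P2.card * (Nat.gcd q r : ℝ) := by
  have e : ((((Pairs γ q r Δ).filter (fun x => Avoid P1 c1 x.1 ∧ Avoid P2 c2 x.2)).card : ℕ) : ℝ)
      = ∑ T1 ∈ P1.powerset, ∑ T2 ∈ P2.powerset, (-1:ℝ) ^ T1.card * (-1:ℝ) ^ T2.card *
        ((((Pairs γ q r Δ).filter (fun x => (∀ p ∈ T1, (p:ℤ) ∣ x.1 - c1 p) ∧
          (∀ p ∈ T2, (p:ℤ) ∣ x.2 - c2 p))).card : ℕ) : ℝ) := by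
    have e1 : ∀ x : ℤ × ℤ, (if Avoid P1 c1 x.1 ∧ Avoid P2 c2 x.2 then (1:ℝ) else 0)
        = ∑ T1 ∈ P1.powerset, ∑ T2 ∈ P2.powerset, (-1:ℝ) ^ T1.card * (-1:ℝ) ^ T2.card *
          (if (∀ p ∈ T1, (p:ℤ) ∣ x.1 - c1 p) ∧ (∀ p ∈ T2, (p:ℤ) ∣ x.2 - c2 p) then 1 else 0) := by
      intro x
      rw [show (if Avoid P1 c1 x.1 ∧ Avoid P2 c2 x.2 then (1:ℝ) else 0)
        = (if Avoid P1 c1 x.1 then (1:ℝ) else 0) * (if Avoid P2 c2 x.2 then (1:ℝ) else 0) from ?_,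
        indicator_avoid, indicator_avoid, Finset.sum_mul_sum]
      · refine Finset.sum_congr rfl fun T1 _ => Finset.sum_congr rfl fun T2 _ => ?_
        by_cases u : ∀ p ∈ T1, (p:ℤ) ∣ x.1 - c1 p <;> by_cases v : ∀ p ∈ T2, (p:ℤ) ∣ x.2 - c2 p
        · rw [if_pos u, if_pos v, if_pos ⟨u, v⟩]; ring
        · rw [if_pos u, if_neg v, if_neg (fun h => v h.2)]; ring
        · rw [if_neg u, if_pos v, if_neg (fun h => u h.1)]; ring
        · rw [if_neg u, if_neg v, if_neg (fun h => u h.1)]; ring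
      · by_cases u : Avoid P1 c1 x.1 <;> by_cases v : Avoid P2 c2 x.2 <;> simp [u, v]
    rw [← Finset.sum_boole, Finset.sum_congr rfl (fun x _ => e1 x), Finset.sum_comm]
    refine Finset.sum_congr rfl fun T1 _ => ?_
    rw [Finset.sum_comm]
    refine Finset.sum_congr rfl fun T2 _ => ?_
    rw [← Finset.mul_sum, Finset.sum_boole]
    congr!
  rw [e]
  set g := (Nat.gcd q r : ℝ)
  have hb : ∀ T1 ∈ P1.powerset, ∀ T2 ∈ P2.powerset,
      (-1:ℝ) ^ T1.card * (-1:ℝ) ^ T2.card *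
        ((((Pairs γ q r Δ).filter (fun x => (∀ p ∈ T1, (p:ℤ) ∣ x.1 - c1 p) ∧
          (∀ p ∈ T2, (p:ℤ) ∣ x.2 - c2 p))).card : ℕ) : ℝ)
      ≤ 2 * Δ * ((-1:ℝ) ^ T1.card * (1 / ((∏ p ∈ T1, p : ℕ):ℝ))) *
          ((-1:ℝ) ^ T2.card * (1 / ((∏ p ∈ T2, p : ℕ):ℝ))) + g := by
    intro T1 hT1 T2 hT2
    rw [Finset.mem_powerset] at hT1 hT2
    obtain ⟨z1, hz1⟩ := exists_crt_class T1 (fun p hp => (h1 p (hT1 hp)).1) c1
    obtain ⟨z2, hz2⟩ := exists_crt_class T2 (fun p hp => (h2 p (hT2 hp)).1) c2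
    have hd : (∏ p ∈ T1, p) ∣ q :=
      (prod_primes_dvd' T1 q (fun p hp => h1 p (hT1 hp)))
    have he : (∏ p ∈ T2, p) ∣ r :=
      (prod_primes_dvd' T2 r (fun p hp => h2 p (hT2 hp)))
    have h := card_class_near q r hq hr γ Δ hΔ _ _ hd he z1 z2
    simp only [hz1, hz2] at h
    set n := ((((Pairs γ q r Δ).filter (fun x => (∀ p ∈ T1, (p:ℤ) ∣ x.1 - c1 p) ∧
          (∀ p ∈ T2, (p:ℤ) ∣ x.2 - c2 p))).card : ℕ) : ℝ)
    set D := ((∏ p ∈ T1, p : ℕ):ℝ)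
    set E := ((∏ p ∈ T2, p : ℕ):ℝ)
    have h' : |n - 2 * Δ / (D * E)| ≤ g := by convert h
    obtain ⟨u1, u2⟩ := abs_le.1 h'
    have e2 : 2 * Δ * ((-1:ℝ) ^ T1.card * (1 / D)) * ((-1:ℝ) ^ T2.card * (1 / E))
        = (-1:ℝ) ^ T1.card * (-1:ℝ) ^ T2.card * (2 * Δ / (D * E)) := by ring
    rw [e2]
    rcases neg_one_pow_eq_or ℝ T1.card with a | a <;> rcases neg_one_pow_eq_or ℝ T2.card with b | b <;>
      rw [a, b] <;> linarith
  refine (Finset.sum_le_sum fun T1 h => Finset.sum_le_sum (hb T1 h)).trans (le_of_eq ?_)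
  simp only [Finset.sum_add_distrib, Finset.sum_const, Finset.card_powerset, nsmul_eq_mul]
  rw [← prod_one_sub_expand, ← prod_one_sub_expand, mul_assoc (2 * Δ), Finset.sum_mul_sum,
    Finset.mul_sum]
  simp only [Finset.mul_sum]
  push_cast
  congr 1
  · exact Finset.sum_congr rfl fun _ _ => Finset.sum_congr rfl fun _ _ => by ring
  · ring
where
  prod_primes_dvd' (T : Finset ℕ) (n : ℕ) (h : ∀ p ∈ T, p.Prime ∧ p ∣ n) : (∏ p ∈ T, p) ∣ n :=
    Finset.prod_primes_dvd n (fun p hp => (h p hp).1.prime) (fun p hp => (h p hp).2)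

/-- Counting the avoided classes in an interval. -/
lemma interval_avoid (u v : ℤ) (huv : u ≤ v) (P : Finset ℕ) (hP : ∀ p ∈ P, p.Prime) (c : ℕ → ℤ) :
    |((((Finset.Ico u v).filter (Avoid P c)).card : ℕ) : ℝ)
      - ((v:ℝ) - u) * ∏ p ∈ P, (1 - 1/(p:ℝ))| ≤ 2 ^ P.card ∧
    ((∀ T ⊆ P, ((∏ p ∈ T, p : ℕ):ℤ) ∣ v - u) →
      ((((Finset.Ico u v).filter (Avoid P c)).card : ℕ) : ℝ)
        = ((v:ℝ) - u) * ∏ p ∈ P, (1 - 1/(p:ℝ))) := by
  have e : ((((Finset.Ico u v).filter (Avoid P c)).card : ℕ) : ℝ) =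
      ∑ T ∈ P.powerset, (-1:ℝ) ^ T.card *
        ((((Finset.Ico u v).filter (fun a => ∀ p ∈ T, (p:ℤ) ∣ a - c p)).card : ℕ) : ℝ) := by
    rw [← Finset.sum_boole, Finset.sum_congr rfl (fun a _ => indicator_avoid P c a), Finset.sum_comm]
    refine Finset.sum_congr rfl fun T _ => ?_
    rw [← Finset.mul_sum, Finset.sum_boole]
  have hT : ∀ T ∈ P.powerset,
      |((((Finset.Ico u v).filter (fun a => ∀ p ∈ T, (p:ℤ) ∣ a - c p)).card : ℕ) : ℝ)
        - ((v:ℝ) - u) * (1 / ((∏ p ∈ T, p : ℕ):ℝ))| ≤ 1 ∧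
      (((∏ p ∈ T, p : ℕ):ℤ) ∣ v - u →
        ((((Finset.Ico u v).filter (fun a => ∀ p ∈ T, (p:ℤ) ∣ a - c p)).card : ℕ) : ℝ)
        = ((v:ℝ) - u) * (1 / ((∏ p ∈ T, p : ℕ):ℝ))) := by
    intro T hT
    rw [Finset.mem_powerset] at hT
    obtain ⟨z, hz⟩ := exists_crt_class T (fun p hp => hP p (hT hp)) c
    set D := ∏ p ∈ T, p with hD
    have hD0 : 0 < D := Finset.prod_pos fun p hp => (hP p (hT hp)).pos
    have hDz : (0:ℤ) < D := by exact_mod_cast hD0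
    have hf : (Finset.Ico u v).filter (fun a => ∀ p ∈ T, (p:ℤ) ∣ a - c p)
        = (Finset.Ico u v).filter (fun a => a ≡ z [ZMOD (D:ℤ)]) := by
      refine Finset.filter_congr fun a _ => ?_
      rw [← hz a, Int.modEq_comm, Int.modEq_iff_dvd]
    rw [hf]
    have hc := Int.Ico_filter_modEq_card u v (v := z) hDz
    set n := ((Finset.Ico u v).filter (fun a => a ≡ z [ZMOD (D:ℤ)])).card
    have hmax : 0 ≤ ⌈((v - z : ℤ):ℚ) / ((D:ℤ):ℚ)⌉ - ⌈((u - z : ℤ):ℚ) / ((D:ℤ):ℚ)⌉ := by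
      have : ((u - z : ℤ):ℚ) / ((D:ℤ):ℚ) ≤ ((v - z : ℤ):ℚ) / ((D:ℤ):ℚ) :=
        div_le_div_of_nonneg_right (by exact_mod_cast (by omega : u - z ≤ v - z)) (by positivity)
      have := Int.ceil_le_ceil this
      omega
    push_cast at hc hmax
    rw [max_eq_left hmax] at hc
    set x := ((v:ℚ) - z) / (D:ℚ)
    set y := ((u:ℚ) - z) / (D:ℚ)
    have hxy : ((v:ℝ) - u) * (1 / (D:ℝ)) = ((x - y : ℚ):ℝ) := by
      simp only [x, y]; push_cast; ring
    have hn : ((n:ℕ):ℝ) = ((((⌈x⌉ - ⌈y⌉ : ℤ)) : ℚ):ℝ) := by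
      rw [← hc]; push_cast; rfl
    rw [hxy, hn]
    constructor
    · rw [← Rat.cast_sub, ← Rat.cast_abs, ← Rat.cast_one (α := ℝ), Rat.cast_le, abs_le]
      push_cast
      have := Int.le_ceil x; have := Int.ceil_lt_add_one x
      have := Int.le_ceil y; have := Int.ceil_lt_add_one y
      constructor <;> linarith
    · rintro ⟨m, hm⟩
      congr 1
      have hxm : x = y + (m:ℚ) := by
        have hm' : (v:ℚ) - u = (D:ℚ) * m := by exact_mod_cast hm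
        have hD' : (D:ℚ) ≠ 0 := by positivity
        simp only [x, y]; field_simp; linarith
      rw [hxm, Int.ceil_add_intCast]; push_cast; ring
  have hprod : ((v:ℝ) - u) * ∏ p ∈ P, (1 - 1/(p:ℝ)) = ∑ T ∈ P.powerset,
      (-1:ℝ) ^ T.card * (((v:ℝ) - u) * (1 / ((∏ p ∈ T, p : ℕ):ℝ))) := by
    rw [← prod_one_sub_expand, Finset.mul_sum]
    exact Finset.sum_congr rfl fun T _ => by ring
  rw [e, hprod]
  refine ⟨?_, fun h => Finset.sum_congr rfl fun T hT' => by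
    rw [(hT T hT').2 (h T (Finset.mem_powerset.1 hT'))]⟩
  rw [← Finset.sum_sub_distrib]
  refine (Finset.abs_sum_le_sum_abs _ _).trans (le_trans (Finset.sum_le_sum fun T hT' => ?_)
    (le_of_eq (show ∑ _T ∈ P.powerset, (1:ℝ) = 2 ^ P.card by simp)))
  rw [← mul_sub, abs_mul, abs_pow, abs_neg, abs_one, one_pow, one_mul]
  exact (hT T hT').1

end Vale.Agent.P028
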