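import Vale.Agent.P028.Moment

namespace Vale.Agent.P028

open Finset MeasureTheory Filter Topology
open scoped Classical

/-- The Cauchy-Schwarz lower bound for the measure of a union. -/
lemma union_lower {α : Type*} [MeasurableSpace α] (μ : Measure α) {ι : Type*} (F : Finset ι)
    (A : ι → Set α) (hA : ∀ i ∈ F, MeasurableSet (A i)) (hf : ∀ i ∈ F, μ (A i) ≠ ⊤) :
    (∑ i ∈ F, μ.real (A i)) ^ 2
      ≤ μ.real (⋃ i ∈ F, A i) * ∑ i ∈ F, ∑ j ∈ F, μ.real (A i ∩ A j) := by
  set V := ⋃ i ∈ F, A i with hV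
  set m := ∑ i ∈ F, μ.real (A i) with hm
  set Q := ∑ i ∈ F, ∑ j ∈ F, μ.real (A i ∩ A j) with hQ
  have hVm : MeasurableSet V := Finset.measurableSet_biUnion _ hA
  have hVf : μ V ≠ ⊤ :=
    ((measure_biUnion_finset_le _ _).trans_lt (ENNReal.sum_lt_top.2 fun i hi => (hf i hi).lt_top)).ne
  have hi1 : ∀ i ∈ F, Integrable ((A i).indicator fun _ => (1:ℝ)) μ := fun i hi =>
    (integrableOn_const (hf i hi)).integrable_indicator (hA i hi)
  have hi2 : ∀ i ∈ F, ∀ j ∈ F, Integrable ((A i ∩ A j).indicator fun _ => (1:ℝ)) μ := fun i hi j hj =>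
    (integrableOn_const (measure_ne_top_of_subset Set.inter_subset_left (hf i hi))).integrable_indicator
      ((hA i hi).inter (hA j hj))
  have hiV : Integrable (V.indicator fun _ => (1:ℝ)) μ :=
    (integrableOn_const hVf).integrable_indicator hVm
  have key : ∀ s : ℝ, 2 * s * m - s ^ 2 * μ.real V ≤ Q := by
    intro s
    have hp : ∀ x, 2 * s * (∑ i ∈ F, (A i).indicator (fun _ => (1:ℝ)) x)
        - s ^ 2 * V.indicator (fun _ => (1:ℝ)) x
        ≤ ∑ i ∈ F, ∑ j ∈ F, (A i ∩ A j).indicator (fun _ => (1:ℝ)) x := by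
      intro x
      have e : ∑ i ∈ F, ∑ j ∈ F, (A i ∩ A j).indicator (fun _ => (1:ℝ)) x
          = (∑ i ∈ F, (A i).indicator (fun _ => (1:ℝ)) x) ^ 2 := by
        rw [sq, Finset.sum_mul_sum]
        refine Finset.sum_congr rfl fun i _ => Finset.sum_congr rfl fun j _ => ?_
        by_cases h1 : x ∈ A i <;> by_cases h2 : x ∈ A j <;> simp [h1, h2]
      rw [e]
      by_cases hx : x ∈ V
      · rw [Set.indicator_of_mem hx]
        nlinarith [sq_nonneg ((∑ i ∈ F, (A i).indicator (fun _ => (1:ℝ)) x) - s)]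
      · rw [Set.indicator_of_notMem hx, Finset.sum_eq_zero fun i hi =>
          Set.indicator_of_notMem (fun h => hx (Set.mem_biUnion hi h)) _]
        simp
    have h := integral_mono
      (((integrable_finsetSum F hi1).const_mul (2 * s)).sub (hiV.const_mul (s ^ 2)))
      (integrable_finsetSum F fun i hi => integrable_finsetSum F fun j hj => hi2 i hi j hj) hp
    rw [integral_sub' ((integrable_finsetSum F hi1).const_mul (2 * s)) (hiV.const_mul (s ^ 2)),
      integral_const_mul, integral_const_mul, integral_finsetSum F hi1,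
      integral_finsetSum F (fun i hi => integrable_finsetSum F fun j hj => hi2 i hi j hj)] at h
    have e1 : ∀ S : Set α, MeasurableSet S → ∫ x, S.indicator (fun _ => (1:ℝ)) x ∂μ = μ.real S :=
      fun S hS => by rw [integral_indicator_const _ hS, smul_eq_mul, mul_one]
    rw [Finset.sum_congr rfl (fun i hi => e1 _ (hA i hi)), e1 V hVm,
      Finset.sum_congr rfl (fun i hi => (integral_finsetSum F (hi2 i hi)).trans
        (Finset.sum_congr rfl fun j hj => e1 _ ((hA i hi).inter (hA j hj))))] at h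
    exact h
  rcases eq_or_lt_of_le (measureReal_nonneg (μ := μ) (s := V)) with h0 | h0
  · have hz : ∀ i ∈ F, μ.real (A i) = 0 := fun i hi =>
      le_antisymm (h0 ▸ measureReal_mono (Set.subset_biUnion_of_mem (u := A) hi) hVf) measureReal_nonneg
    have : m = 0 := Finset.sum_eq_zero hz
    rw [this, ← h0]; simp
  · have h := key (m / μ.real V)
    have e : 2 * (m / μ.real V) * m - (m / μ.real V) ^ 2 * μ.real V = m ^ 2 / μ.real V := by
      field_simp; ring
    rw [e, div_le_iff₀ h0] at h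
    linarith

/-- The dyadic cell number `j` at the level `k`. -/
def cell (k j : ℕ) : Set ℝ := Set.Ico ((j:ℝ) / 2 ^ k) (((j:ℝ) + 1) / 2 ^ k)

lemma cell_disjoint (k : ℕ) (s : Set ℕ) : s.PairwiseDisjoint (cell k) := by
  intro a _ b _ hab
  refine Set.disjoint_left.2 fun x ha hb => hab ?_
  simp only [cell, Set.mem_Ico] at ha hb
  have hp : (0:ℝ) < 2 ^ k := by positivity
  rw [div_le_iff₀ hp, lt_div_iff₀ hp] at ha hb
  have h1 : (a:ℝ) < b + 1 := by linarith
  have h2 : (b:ℝ) < a + 1 := by linarith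
  have h1' : a < b + 1 := by exact_mod_cast h1
  have h2' : b < a + 1 := by exact_mod_cast h2
  omega

lemma volume_real_cell (k j : ℕ) : volume.real (cell k j) = 1 / 2 ^ k := by
  rw [cell, Real.volume_real_Ico_of_le (div_le_div_of_nonneg_right (by linarith) (by positivity))]
  ring

/-- Lower bound for the selected set inside a union of cells. -/
lemma cells_lower (γ : ℝ) (k : ℕ) (I : Finset ℕ) (hI : ∀ j ∈ I, j < 2 ^ k) :
    ∃ Q : ℕ, ∀ (ψ : ℕ → ℝ) (q : ℕ), Q ≤ q → 0 ≤ ψ q → 2 * ψ q ≤ 1 →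
      lam q * ψ q * volume.real (⋃ j ∈ I, cell k j) / 2
        ≤ volume.real (SSet γ ψ q ∩ ⋃ j ∈ I, cell k j) := by
  have hf : ∀ j, volume (cell k j) ≠ ⊤ := fun j => by
    rw [cell, Real.volume_Ico]; exact ENNReal.ofReal_ne_top
  have h : ∀ j : ℕ, ∃ Q : ℕ, j ∈ I → ∀ (ψ : ℕ → ℝ) (q : ℕ), Q ≤ q → 0 ≤ ψ q → 2 * ψ q ≤ 1 →
      lam q * ψ q * (1 / 2 ^ k) / 2 ≤ volume.real (SSet γ ψ q ∩ cell k j) := by
    intro j
    by_cases hj : j ∈ I
    swap
    · exact ⟨0, fun h => absurd h hj⟩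
    have hj1 : (j:ℝ) + 1 ≤ 2 ^ k := by exact_mod_cast hI j hj
    obtain ⟨Q, hQ⟩ := cell_lower γ (α := (j:ℝ) / 2 ^ k) (β := ((j:ℝ) + 1) / 2 ^ k) (by positivity)
      (div_lt_div_of_pos_right (by linarith) (by positivity)) (by rw [div_le_one (by positivity)]; exact hj1)
    refine ⟨Q, fun _ ψ q hq h1 h2 => ?_⟩
    have := hQ ψ q hq h1 h2
    rw [show ((j:ℝ) + 1) / 2 ^ k - (j:ℝ) / 2 ^ k = 1 / 2 ^ k by ring] at this
    exact this
  choose Q hQ using h
  refine ⟨I.sup Q, fun ψ q hq h1 h2 => ?_⟩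
  have e1 : volume.real (⋃ j ∈ I, cell k j) = ∑ j ∈ I, (1:ℝ) / 2 ^ k := by
    rw [measureReal_biUnion_finset (cell_disjoint k _) (fun j _ => measurableSet_Ico) (fun j _ => hf j)]
    exact Finset.sum_congr rfl fun j _ => volume_real_cell k j
  have e2 : volume.real (SSet γ ψ q ∩ ⋃ j ∈ I, cell k j)
      = ∑ j ∈ I, volume.real (SSet γ ψ q ∩ cell k j) := by
    rw [Set.inter_iUnion₂]
    exact measureReal_biUnion_finset
      (fun a ha b hb hab => ((cell_disjoint k _) ha hb hab).mono Set.inter_subset_right Set.inter_subset_right)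
      (fun j _ => (measurableSet_SSet γ ψ q).inter measurableSet_Ico)
      (fun j _ => measure_ne_top_of_subset Set.inter_subset_right (hf j))
  rw [e1, e2, Finset.mul_sum, Finset.sum_div]
  exact Finset.sum_le_sum fun j hj => hQ j hj ψ q (le_trans (Finset.le_sup hj) hq) h1 h2

/-- A block of divergent series with total between one and two. -/
lemma exists_block (a : ℕ → ℝ) (h0 : ∀ n, 0 ≤ a n) (h1 : ∀ n, a n ≤ 1) (hs : ¬ Summable a) (N : ℕ) :
    ∃ M, 1 ≤ ∑ n ∈ Finset.Ico N M, a n ∧ ∑ n ∈ Finset.Ico N M, a n ≤ 2 := by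
  have ht := (not_summable_iff_tendsto_nat_atTop_of_nonneg h0).1 hs
  have hex : ∃ M, N ≤ M ∧ 1 ≤ ∑ n ∈ Finset.Ico N M, a n := by
    obtain ⟨M, hM1, hM2⟩ :=
      ((ht.eventually_ge_atTop (1 + ∑ n ∈ Finset.range N, a n)).and (eventually_ge_atTop N)).exists
    refine ⟨M, hM2, ?_⟩
    rw [Finset.sum_Ico_eq_sub _ hM2]
    linarith
  obtain ⟨hN, hge⟩ := Nat.find_spec hex
  refine ⟨Nat.find hex, hge, ?_⟩
  have hlt : N < Nat.find hex := by
    rcases lt_or_eq_of_le hN with h | h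
    · exact h
    · rw [← h, Finset.Ico_self, Finset.sum_empty] at hge; linarith
  obtain ⟨M', hM'⟩ : ∃ M', Nat.find hex = M' + 1 := ⟨Nat.find hex - 1, by omega⟩
  rw [hM', Finset.sum_Ico_succ_top (by omega)]
  have h2 : ∑ n ∈ Finset.Ico N M', a n < 1 := by
    by_contra hc
    exact Nat.find_min hex (show M' < Nat.find hex by omega) ⟨by omega, not_lt.1 hc⟩
  linarith [h1 M']

/-- The points lying in infinitely many selected sets. -/
noncomputable def Lim (γ : ℝ) (ψ : ℕ → ℝ) : Set ℝ :=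
  ⋂ N : ℕ, ⋃ q : ℕ, ⋃ (_ : N ≤ q ∧ 16 ≤ q ∧ Adm q), SSet γ ψ q

lemma measurableSet_Lim (γ : ℝ) (ψ : ℕ → ℝ) : MeasurableSet (Lim γ ψ) :=
  MeasurableSet.iInter fun _ => MeasurableSet.iUnion fun q => MeasurableSet.iUnion fun _ =>
    measurableSet_SSet γ ψ q

lemma Lim_lower : ∃ c : ℝ, 0 < c ∧ ∀ (γ : ℝ) (ψ : ℕ → ℝ), (∀ q, 16 ≤ q → Adm q → OK ψ q) →
    (∀ q, ¬ (16 ≤ q ∧ Adm q) → ψ q = 0) → ¬ Summable (fun q => lam q * ψ q) →
    ∀ (k : ℕ) (I : Finset ℕ), (∀ j ∈ I, j < 2 ^ k) →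
      c * volume.real (⋃ j ∈ I, cell k j) ^ 2 ≤ volume.real (Lim γ ψ ∩ ⋃ j ∈ I, cell k j) := by
  obtain ⟨C, hC, hsm⟩ := second_moment
  refine ⟨1 / (24 * C), by positivity, fun γ ψ hOK hz hs k I hI => ?_⟩
  set U := ⋃ j ∈ I, cell k j with hU
  set V := volume.real U with hV
  have hUm : MeasurableSet U := Finset.measurableSet_biUnion _ fun j _ => measurableSet_Ico
  have hUf : volume U ≠ ⊤ :=
    ((measure_biUnion_finset_le _ _).trans_lt (ENNReal.sum_lt_top.2 fun j _ => by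
      rw [cell, Real.volume_Ico]; exact ENNReal.ofReal_lt_top)).ne
  obtain ⟨Q0, hQ0⟩ := cells_lower γ k I hI
  set T := fun N : ℕ => (⋃ q : ℕ, ⋃ (_ : N ≤ q ∧ 16 ≤ q ∧ Adm q), SSet γ ψ q) ∩ U with hT
  have hTm : ∀ N, MeasurableSet (T N) := fun N => (MeasurableSet.iUnion fun q =>
    MeasurableSet.iUnion fun _ => measurableSet_SSet γ ψ q).inter hUm
  have hanti : Antitone T := by
    intro N M hNM x hx
    obtain ⟨hx1, hx2⟩ := hx
    simp only [Set.mem_iUnion] at hx1
    obtain ⟨q, ⟨h1, h2⟩, hxq⟩ := hx1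
    exact ⟨Set.mem_iUnion₂.2 ⟨q, ⟨hNM.trans h1, h2⟩, hxq⟩, hx2⟩
  have hlow : ∀ N, ENNReal.ofReal (1 / (24 * C) * V ^ 2) ≤ volume (T N) := by
    intro N
    set a := fun q => lam q * ψ q with ha
    have ha0 : ∀ q, 0 ≤ a q := fun q => by
      by_cases h : 16 ≤ q ∧ Adm q
      · exact mul_nonneg (lam_nonneg q) (hOK q h.1 h.2).2.2.1
      · simp [ha, hz q h]
    have ha1 : ∀ q, a q ≤ 1 := fun q => by
      by_cases h : 16 ≤ q ∧ Adm q
      · have h' := hOK q h.1 h.2
        have := psi_half h'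
        exact mul_le_one₀ (lam_le_one q) h'.2.2.1 (by linarith)
      · simp [ha, hz q h]
    obtain ⟨M, hM1, hM2⟩ := exists_block a ha0 ha1 hs (max N Q0)
    set F := (Finset.Ico (max N Q0) M).filter (fun q => 16 ≤ q ∧ Adm q) with hF
    have hFsum : ∑ q ∈ F, a q = ∑ q ∈ Finset.Ico (max N Q0) M, a q :=
      Finset.sum_filter_of_ne fun q _ hne => by
        by_contra h; exact hne (by simp [ha, hz q h])
    have hFOK : ∀ q ∈ F, OK ψ q := fun q hq => by
      obtain ⟨-, h1, h2⟩ := Finset.mem_filter.1 hq; exact hOK q h1 h2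
    set K := ∑ q ∈ F, lam q * ψ q with hK
    have hK1 : 1 ≤ K := le_of_le_of_eq hM1 hFsum.symm
    have hK2 : K ≤ 2 := le_of_eq_of_le hFsum hM2
    have hQb : ∑ q ∈ F, ∑ r ∈ F, volume.real ((SSet γ ψ q ∩ U) ∩ (SSet γ ψ r ∩ U)) ≤ 6 * C := by
      refine le_trans (Finset.sum_le_sum fun q _ => Finset.sum_le_sum fun r _ => ?_)
        ((hsm γ ψ F hFOK).trans ?_)
      · exact measureReal_mono (Set.inter_subset_inter Set.inter_subset_left Set.inter_subset_left)
          (measure_ne_top_of_subset Set.inter_subset_left (SSet_finite γ ψ q))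
      · have h6 : K + K ^ 2 ≤ 6 := by
          have := pow_le_pow_left₀ (by linarith) hK2 2
          linarith
        exact (mul_le_mul_of_nonneg_left h6 hC.le).trans (le_of_eq (mul_comm _ _))
    have hm : V / 2 ≤ ∑ q ∈ F, volume.real (SSet γ ψ q ∩ U) := by
      refine le_trans ?_ (Finset.sum_le_sum fun q hq => hQ0 ψ q
        (le_trans (le_max_right _ _) (Finset.mem_Ico.1 (Finset.mem_filter.1 hq).1).1)
        (hFOK q hq).2.2.1 (psi_half (hFOK q hq)))
      rw [← Finset.sum_div, ← Finset.sum_mul]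
      exact div_le_div_of_nonneg_right (le_mul_of_one_le_left measureReal_nonneg hK1) (by norm_num)
    have hcs := union_lower volume F (fun q => SSet γ ψ q ∩ U)
      (fun q _ => (measurableSet_SSet γ ψ q).inter hUm)
      (fun q _ => measure_ne_top_of_subset Set.inter_subset_right hUf)
    have hsub : (⋃ q ∈ F, SSet γ ψ q ∩ U) ⊆ T N := by
      refine Set.iUnion₂_subset fun q hq x hx => ⟨Set.mem_iUnion₂.2 ⟨q, ?_, hx.1⟩, hx.2⟩
      obtain ⟨h1, h2⟩ := Finset.mem_filter.1 hq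
      exact ⟨le_trans (le_max_left _ _) (Finset.mem_Ico.1 h1).1, h2⟩
    refine le_trans ?_ (measure_mono hsub)
    rw [← ofReal_measureReal (measure_ne_top_of_subset (hsub.trans Set.inter_subset_right) hUf)]
    apply ENNReal.ofReal_le_ofReal
    set X := volume.real (⋃ q ∈ F, SSet γ ψ q ∩ U)
    have h1 : (V / 2) ^ 2 ≤ X * (6 * C) :=
      le_trans (pow_le_pow_left₀ (div_nonneg measureReal_nonneg (by norm_num)) hm 2)
        (hcs.trans (mul_le_mul_of_nonneg_left hQb measureReal_nonneg))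
    rw [one_div_mul_eq_div, div_le_iff₀ (by positivity)]
    linarith [show (V / 2) ^ 2 * 4 = V ^ 2 by ring]
  have hlim := tendsto_measure_iInter_atTop (μ := volume) (s := T)
    (fun N => (hTm N).nullMeasurableSet) hanti
    ⟨0, measure_ne_top_of_subset Set.inter_subset_right hUf⟩
  have e : (⋂ N, T N) = Lim γ ψ ∩ U := by
    rw [Lim, Set.iInter_inter]
  rw [e] at hlim
  have hge := ge_of_tendsto' hlim hlow
  exact (ENNReal.ofReal_le_iff_le_toReal (measure_ne_top_of_subset Set.inter_subset_right hUf)).1 hge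

/-- Almost every point of the unit interval lies in the limsup set. -/
lemma Lim_full (γ : ℝ) (ψ : ℕ → ℝ) (hOK : ∀ q, 16 ≤ q → Adm q → OK ψ q)
    (hz : ∀ q, ¬ (16 ≤ q ∧ Adm q) → ψ q = 0) (hs : ¬ Summable (fun q => lam q * ψ q)) :
    volume (Set.Ico (0:ℝ) 1 \ Lim γ ψ) = 0 := by
  obtain ⟨c, hc, hlow⟩ := Lim_lower
  by_contra hne
  set A := Set.Ico (0:ℝ) 1 \ Lim γ ψ with hA
  have hAf : volume A ≠ ⊤ := measure_ne_top_of_subset Set.sdiff_subset
    (by rw [Real.volume_Ico]; exact ENNReal.ofReal_ne_top)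
  have hAm : MeasurableSet A := measurableSet_Ico.diff (measurableSet_Lim γ ψ)
  obtain ⟨K, hKA, hK, hKpos⟩ := hAm.exists_lt_isCompact_of_ne_top hAf (pos_iff_ne_zero.2 hne)
  have hKf : volume K ≠ ⊤ := hK.measure_lt_top.ne
  set κ := volume.real K with hκ
  have hκ0 : 0 < κ := ENNReal.toReal_pos hKpos.ne' hKf
  have hstep : ∀ k : ℕ, ENNReal.ofReal (κ + c * κ ^ 2) ≤ volume (Metric.cthickening (1 / 2 ^ k) K) := by
    intro k
    set I := (Finset.range (2 ^ k)).filter (fun j => (cell k j ∩ K).Nonempty) with hI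
    set U := ⋃ j ∈ I, cell k j with hU
    have hKU : K ⊆ U := by
      intro x hx
      obtain ⟨⟨hx0, hx1⟩, -⟩ := hKA hx
      have hp : (0:ℝ) < 2 ^ k := by positivity
      have hcell : x ∈ cell k ⌊x * 2 ^ k⌋₊ := by
        rw [cell, Set.mem_Ico, div_le_iff₀ hp, lt_div_iff₀ hp]
        exact ⟨Nat.floor_le (by positivity), Nat.lt_floor_add_one _⟩
      refine Set.mem_biUnion (x := ⌊x * 2 ^ k⌋₊) ?_ hcell
      refine Finset.mem_filter.2 ⟨Finset.mem_range.2 ?_, ⟨x, hcell, hx⟩⟩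
      rw [Nat.floor_lt (by positivity)]
      push_cast
      exact mul_lt_of_lt_one_left hp hx1
    have hUth : U ⊆ Metric.cthickening (1 / 2 ^ k) K := by
      refine Set.iUnion₂_subset fun j hj y hy => ?_
      obtain ⟨x, hx, hxK⟩ := (Finset.mem_filter.1 hj).2
      refine Metric.mem_cthickening_of_dist_le y x _ _ hxK ?_
      simp only [cell, Set.mem_Ico] at hx hy
      rw [Real.dist_eq, abs_le]
      have e : ((j:ℝ) + 1) / 2 ^ k = (j:ℝ) / 2 ^ k + 1 / 2 ^ k := add_div _ _ _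
      constructor <;> linarith
    have hUf : volume U ≠ ⊤ := ((measure_biUnion_finset_le _ _).trans_lt
      (ENNReal.sum_lt_top.2 fun j _ => by rw [cell, Real.volume_Ico]; exact ENNReal.ofReal_lt_top)).ne
    have h1 := hlow γ ψ hOK hz hs k I fun j hj => Finset.mem_range.1 (Finset.mem_filter.1 hj).1
    have hdisj : Disjoint (Lim γ ψ ∩ U) K :=
      Set.disjoint_left.2 fun x hx hxK => (hKA hxK).2 hx.1
    have h2 : volume.real (Lim γ ψ ∩ U) + κ ≤ volume.real U := by
      rw [hκ, ← measureReal_union hdisj hK.isClosed.measurableSet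
        (measure_ne_top_of_subset Set.inter_subset_right hUf) hKf]
      exact measureReal_mono (Set.union_subset Set.inter_subset_right hKU) hUf
    have h3 : κ ≤ volume.real U := measureReal_mono hKU hUf
    have h4 : κ + c * κ ^ 2 ≤ volume.real U := by
      have := mul_le_mul_of_nonneg_left (pow_le_pow_left₀ hκ0.le h3 2) hc.le
      linarith
    exact ((ENNReal.ofReal_le_ofReal h4).trans (le_of_eq (ofReal_measureReal hUf))).trans (measure_mono hUth)
  have hlim := (tendsto_measure_cthickening_of_isCompact (μ := volume) hK).comp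
    (show Tendsto (fun k : ℕ => (1:ℝ) / 2 ^ k) atTop (𝓝 0) from by
      have := tendsto_pow_atTop_nhds_zero_of_lt_one (by norm_num : (0:ℝ) ≤ 1/2) (by norm_num : (1:ℝ)/2 < 1)
      simpa [one_div, inv_pow] using this)
  have hge := ge_of_tendsto' hlim hstep
  have := (ENNReal.ofReal_le_iff_le_toReal hKf).1 hge
  have : c * κ ^ 2 ≤ 0 := by simp only [hκ, Measure.real] at *; linarith
  nlinarith [mul_pos hc (pow_pos hκ0 2)]

/-- Full measure for every shift under a bound of the form `C / q`. -/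
theorem full_measure_of_bounded (γ : ℝ) (ψ : ℕ → NNReal) (C : ℝ)
    (hC : ∀ q : ℕ, 0 < q → (ψ q : ℝ) ≤ C / q)
    (hdiv : ¬ Summable (fun q : ℕ => (q.totient : ℝ) * (ψ q : ℝ) / q)) :
    ∀ᵐ x : ℝ, {q : ℕ | 0 < q ∧ ∃ a : ℤ, |(q:ℝ) * x - a - γ| < (ψ q : ℝ)}.Infinite := by
  set D := |C| + 1 with hD
  have hD1 : 1 ≤ D := by rw [hD]; linarith [abs_nonneg C]
  set f := fun q : ℕ => if 16 ≤ q ∧ Adm q then (ψ q : ℝ) / D else 0 with hf
  have hbound : ∀ q : ℕ, 0 < q → (ψ q : ℝ) ≤ D / q := fun q hq =>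
    (hC q hq).trans (div_le_div_of_nonneg_right (by rw [hD]; linarith [le_abs_self C]) (Nat.cast_nonneg _))
  have hOK : ∀ q, 16 ≤ q → Adm q → OK f q := fun q h1 h2 => by
    refine ⟨h1, h2, ?_, ?_⟩ <;> simp only [hf, h1, h2, and_self, if_true]
    · positivity
    · rw [div_le_iff₀ (by linarith), one_div_mul_eq_div]; exact hbound q (by omega)
  have hz : ∀ q, ¬ (16 ≤ q ∧ Adm q) → f q = 0 := fun q h => by simp only [hf]; rw [if_neg h]
  have hs : ¬ Summable (fun q => lam q * f q) := by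
    intro hsum
    apply hdiv
    have hfin : Summable (fun q : ℕ => if q < 16 then (ψ q : ℝ) else 0) :=
      summable_of_ne_finset_zero (s := Finset.range 16) fun q hq => by
        rw [if_neg (by simpa using hq)]
    refine Summable.of_nonneg_of_le (fun q => by positivity) (fun q => ?_)
      (((hsum.mul_left D).add (summable_not_adm.mul_left D)).add hfin)
    have he : (q.totient : ℝ) * (ψ q : ℝ) / q = lam q * (ψ q : ℝ) := by unfold lam; ring
    rw [he]
    have hl := lam_le_one q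
    have hl0 := lam_nonneg q
    have hp : (0:ℝ) ≤ (ψ q : ℝ) := NNReal.coe_nonneg _
    have h1 : lam q * (ψ q : ℝ) ≤ (ψ q : ℝ) := mul_le_of_le_one_left hp hl
    have hn1 : 0 ≤ D * (if Adm q then (0:ℝ) else 1 / (q:ℝ)) :=
      mul_nonneg (by linarith) (by split_ifs <;> positivity)
    by_cases h16 : q < 16
    · rw [if_pos h16]
      have : 0 ≤ D * (lam q * f q) := by rw [hz q (fun h => by omega)]; simp
      linarith
    rw [if_neg h16]
    by_cases hA : Adm q
    · have e : f q = (ψ q : ℝ) / D := by simp only [hf]; rw [if_pos ⟨by omega, hA⟩]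
      rw [e, show D * (lam q * ((ψ q : ℝ) / D)) = lam q * (ψ q : ℝ) by field_simp]
      linarith
    · rw [hz q (fun h => hA h.2), if_neg hA, mul_one_div]
      have := hbound q (by omega)
      simp only [mul_zero]
      linarith
  set W := {x : ℝ | {q : ℕ | 0 < q ∧ ∃ a : ℤ, |(q:ℝ) * x - a - γ| < (ψ q : ℝ)}.Infinite}
  have hsub : Lim γ f ⊆ W := by
    intro x hx
    refine Set.infinite_of_forall_exists_gt fun N => ?_
    obtain ⟨q, ⟨hq, h16, hA⟩, hxq⟩ := Set.mem_iUnion₂.1 (Set.mem_iInter.1 hx (N + 1))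
    refine ⟨q, ⟨by omega, ?_⟩, by omega⟩
    obtain ⟨a, -, ha⟩ := Set.mem_iUnion₂.1 hxq
    rw [mem_J (by omega)] at ha
    refine ⟨a, ha.trans_le ?_⟩
    simp only [hf]; rw [if_pos ⟨h16, hA⟩]
    exact div_le_self (NNReal.coe_nonneg _) hD1
  have hinv : ∀ (x : ℝ) (k : ℤ), x ∈ W → x + k ∈ W := by
    intro x k hx
    refine hx.mono fun q hq => ⟨hq.1, ?_⟩
    obtain ⟨a, ha⟩ := hq.2
    refine ⟨a + q * k, ?_⟩
    push_cast
    rw [show (q:ℝ) * (x + k) - (a + q * k) - γ = (q:ℝ) * x - a - γ by ring]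
    exact ha
  have h0 := Lim_full γ f hOK hz hs
  rw [MeasureTheory.ae_iff]
  change volume Wᶜ = 0
  have hcover : Wᶜ ⊆ ⋃ k : ℤ, (fun x => x + (-(k:ℝ))) ⁻¹' (Set.Ico (0:ℝ) 1 \ Lim γ f) := by
    intro x hx
    refine Set.mem_iUnion.2 ⟨⌊x⌋, ⟨?_, ?_⟩, fun h => hx ?_⟩
    · linarith [Int.floor_le x]
    · linarith [Int.lt_floor_add_one x]
    · simpa using hinv _ ⌊x⌋ (hsub h)
  refine measure_mono_null hcover (measure_iUnion_null fun k => ?_)
  rw [measure_preimage_add_right]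
  exact h0

end Vale.Agent.P028
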