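import Vale.Agent.P028.Basic

namespace Vale.Agent.P028

open Finset

lemma card_multiples_le (N d : ℕ) (hd : 0 < d) :
    (((Finset.Icc 1 N).filter (fun n => d ∣ n)).card : ℝ) ≤ (N:ℝ) / d := by
  have h : (Finset.Icc 1 N).filter (fun n => d ∣ n) ⊆
      (Finset.Icc 1 (N / d)).image (fun k => d * k) := by
    intro n hn
    simp only [Finset.mem_filter, Finset.mem_Icc] at hn
    obtain ⟨⟨h1, h2⟩, k, rfl⟩ := hn
    refine Finset.mem_image.2 ⟨k, Finset.mem_Icc.2 ⟨?_, ?_⟩, rfl⟩
    · rcases Nat.eq_zero_or_pos k with hk | hk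
      · simp [hk] at h1
      · exact hk
    · rw [Nat.le_div_iff_mul_le hd]; linarith
  have h2 := (Finset.card_le_card h).trans Finset.card_image_le
  simp at h2
  exact le_trans (by exact_mod_cast h2) (Nat.cast_div_le)

lemma prod_dvd_iff_forall (P : Finset ℕ) (hP : ∀ p ∈ P, p.Prime) (n : ℕ) :
    (∏ p ∈ P, p) ∣ n ↔ ∀ p ∈ P, p ∣ n := by
  constructor
  · intro h p hp; exact (Finset.dvd_prod_of_mem (fun p => p) hp).trans h
  · intro h
    exact Finset.prod_primes_dvd n (fun p hp => (hP p hp).prime) h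

lemma sum_mult_le (P : Finset ℕ) (hP : ∀ p ∈ P, p.Prime) (a : ℕ → ℝ) (ha : ∀ p ∈ P, 0 ≤ a p)
    (N : ℕ) :
    ∑ n ∈ Finset.Icc 1 N, ∏ p ∈ P, (1 + if p ∣ n then a p else 0)
      ≤ (N:ℝ) * ∏ p ∈ P, (1 + a p / p) := by
  simp_rw [Finset.prod_one_add]
  rw [Finset.sum_comm, Finset.mul_sum]
  apply Finset.sum_le_sum
  intro T hT
  have hTP := Finset.mem_powerset.1 hT
  have e : ∀ n, (∏ p ∈ T, if p ∣ n then a p else 0)
      = if (∏ p ∈ T, p) ∣ n then ∏ p ∈ T, a p else 0 := by
    intro n
    by_cases h : ∀ p ∈ T, p ∣ n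
    · rw [if_pos ((prod_dvd_iff_forall T (fun p hp => hP p (hTP hp)) n).2 h)]
      exact Finset.prod_congr rfl fun p hp => if_pos (h p hp)
    · rw [if_neg (fun h' => h ((prod_dvd_iff_forall T (fun p hp => hP p (hTP hp)) n).1 h'))]
      push Not at h
      obtain ⟨p, hp, hpn⟩ := h
      exact Finset.prod_eq_zero hp (if_neg hpn)
  simp_rw [e]
  rw [← Finset.sum_filter, Finset.sum_const, nsmul_eq_mul, Finset.prod_div_distrib]
  have hpos : 0 < ∏ p ∈ T, p := Finset.prod_pos fun p hp => (hP p (hTP hp)).pos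
  have h := card_multiples_le N _ hpos
  push_cast at h
  have hn : 0 ≤ ∏ p ∈ T, a p := Finset.prod_nonneg fun p hp => ha p (hTP hp)
  calc (((Finset.Icc 1 N).filter (fun n => (∏ p ∈ T, p) ∣ n)).card : ℝ) * ∏ p ∈ T, a p
      ≤ ((N:ℝ) / ∏ p ∈ T, (p:ℝ)) * ∏ p ∈ T, a p := mul_le_mul_of_nonneg_right h hn
    _ = _ := by ring

/-- `S n W` measures the weight of the prime factors of `n` above `W`. -/
noncomputable def S (n W : ℕ) : ℝ :=
  ∑ p ∈ n.primeFactors.filter (fun p => W < p), (Real.log p) ^ 24 / (p:ℝ)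

lemma S_nonneg (n W : ℕ) : 0 ≤ S n W := by
  apply Finset.sum_nonneg; intro p _
  have : 0 ≤ Real.log p := Real.log_natCast_nonneg p
  positivity

lemma S_anti (n : ℕ) {W W' : ℕ} (h : W ≤ W') : S n W' ≤ S n W := by
  apply Finset.sum_le_sum_of_subset_of_nonneg
  · intro p hp
    simp only [Finset.mem_filter] at hp ⊢
    exact ⟨hp.1, by omega⟩
  · intro p _ _
    have : 0 ≤ Real.log p := Real.log_natCast_nonneg p
    positivity

lemma S_eq_zero (n W : ℕ) (hn : n ≤ W) : S n W = 0 := by
  apply Finset.sum_eq_zero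
  intro p hp
  simp only [Finset.mem_filter, Nat.mem_primeFactors] at hp
  have := Nat.le_of_dvd (Nat.pos_of_ne_zero hp.1.2.2) hp.1.2.1
  omega

lemma S_mul_le (a b W : ℕ) (ha : 0 < a) (hb : 0 < b) : S (a * b) W ≤ S a W + S b W := by
  unfold S
  rw [Nat.primeFactors_mul ha.ne' hb.ne', Finset.filter_union]
  rw [← Finset.sum_union_inter]
  have : 0 ≤ ∑ p ∈ a.primeFactors.filter (fun p => W < p) ∩ b.primeFactors.filter (fun p => W < p),
      (Real.log p) ^ 24 / (p:ℝ) := Finset.sum_nonneg fun p _ => by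
    have : 0 ≤ Real.log p := Real.log_natCast_nonneg p
    positivity
  linarith

noncomputable def c24 : ℝ := 2 ^ 24 * (Nat.factorial 24 : ℝ)
noncomputable def c23 : ℝ := 2 ^ 23 * (Nat.factorial 23 : ℝ)

lemma c24_pos : 0 < c24 := by unfold c24; positivity
lemma c23_pos : 0 < c23 := by unfold c23; positivity

lemma term_le {p W : ℕ} (hW : 1 ≤ W) (hp : W < p) :
    (Real.log p) ^ 24 / (p:ℝ) ≤ c24 / Real.sqrt W := by
  have hp1 : (1:ℝ) ≤ p := by exact_mod_cast (by omega : 1 ≤ p)
  have h := logpow_le_sqrt 24 hp1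
  have hs : 0 < Real.sqrt (p:ℝ) := Real.sqrt_pos.2 (by linarith)
  have hw : 0 < Real.sqrt (W:ℝ) := Real.sqrt_pos.2 (by exact_mod_cast hW)
  have hle : Real.sqrt (W:ℝ) ≤ Real.sqrt (p:ℝ) := Real.sqrt_le_sqrt (by exact_mod_cast hp.le)
  calc (Real.log p) ^ 24 / (p:ℝ) ≤ (c24 * Real.sqrt p) / (p:ℝ) :=
        div_le_div_of_nonneg_right h (by linarith)
    _ = c24 / Real.sqrt p := by
        rw [div_eq_div_iff (by positivity) hs.ne', mul_assoc, Real.mul_self_sqrt (by linarith)]
    _ ≤ c24 / Real.sqrt W := div_le_div_of_nonneg_left c24_pos.le hw hle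

lemma sum_inv_sqrt_cube_le (W N : ℕ) (hW : 1 ≤ W) :
    ∑ n ∈ Finset.Ioc W N, 1 / ((n:ℝ) * Real.sqrt n) ≤ 2 / Real.sqrt W := by
  rcases Nat.lt_or_ge N W with h | h
  · rw [Finset.Ioc_eq_empty (by omega), Finset.sum_empty]; positivity
  suffices H : ∀ M, W ≤ M → ∑ n ∈ Finset.Ioc W M, 1 / ((n:ℝ) * Real.sqrt n)
      ≤ 2 / Real.sqrt W - 2 / Real.sqrt M by
    have := H N h
    have h0 : (0:ℝ) ≤ 2 / Real.sqrt N := by positivity
    linarith
  intro M hM
  induction M, hM using Nat.le_induction with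
  | base => simp
  | succ M hM ih =>
    rw [Finset.sum_Ioc_succ_top hM]
    have ha : (1:ℝ) ≤ M := by exact_mod_cast (by omega : 1 ≤ M)
    set a := Real.sqrt (M:ℝ) with hadef
    set b := Real.sqrt ((M + 1 : ℕ):ℝ) with hbdef
    have ha0 : 0 < a := Real.sqrt_pos.2 (by linarith)
    have hab : a ≤ b := Real.sqrt_le_sqrt (by push_cast; linarith)
    have haa : a * a = M := Real.mul_self_sqrt (by linarith)
    have hbb : b * b = M + 1 := by
      rw [hbdef, Real.mul_self_sqrt (by positivity)]; push_cast; ring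
    have hb0 : 0 < b := by linarith
    have hcast : ((M + 1 : ℕ):ℝ) = b * b := by rw [hbb]; push_cast; ring
    have key : 1 / (((M + 1 : ℕ):ℝ) * b) ≤ 2 / a - 2 / b := by
      rw [hcast, div_sub_div _ _ ha0.ne' hb0.ne', div_le_div_iff₀ (by positivity) (by positivity)]
      have h1 : (b - a) * (b + a) = 1 := by linear_combination hbb - haa
      have h2 : 1 ≤ 2 * b * (b - a) := by nlinarith
      nlinarith [mul_le_mul_of_nonneg_left h2 (mul_nonneg ha0.le hb0.le),
        mul_le_mul_of_nonneg_right hab (mul_nonneg hb0.le (sub_nonneg.2 hab))]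
    linarith

/-- The exponential moment bound: few integers have a large value of `S`. -/
lemma card_S_gt_le (N W : ℕ) (hW : 1 ≤ W) :
    (((Finset.Icc 1 N).filter (fun n => 1/2 < S n W)).card : ℝ)
      ≤ (N:ℝ) * (Real.exp 4 * Real.exp (-(Real.sqrt W / (2 * c24)))) := by
  set s := Real.sqrt W / c24 with hs
  have hc := c24_pos
  have hs0 : 0 ≤ s := by positivity
  set P := (Finset.Ioc W N).filter Nat.Prime with hPdef
  set a : ℕ → ℝ := fun p => Real.exp (s * ((Real.log p) ^ 24 / (p:ℝ))) - 1 with hadef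
  have hy0 : ∀ p : ℕ, 0 ≤ s * ((Real.log p) ^ 24 / (p:ℝ)) := fun p => by
    have : 0 ≤ Real.log p := Real.log_natCast_nonneg p
    positivity
  have ha0 : ∀ p ∈ P, 0 ≤ a p := fun p _ => by
    have := Real.one_le_exp (hy0 p); simp only [hadef]; linarith
  have hmain := sum_mult_le P (fun p hp => (Finset.mem_filter.1 hp).2) a ha0 N
  have heq : ∀ n ∈ Finset.Icc 1 N, (∏ p ∈ P, (1 + if p ∣ n then a p else 0))
      = Real.exp (s * S n W) := by
    intro n hn
    simp only [Finset.mem_Icc] at hn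
    have : P.filter (fun p => p ∣ n) = n.primeFactors.filter (fun p => W < p) := by
      ext p
      simp only [hPdef, Finset.mem_filter, Finset.mem_Ioc, Nat.mem_primeFactors]
      constructor
      · rintro ⟨⟨⟨h1, h2⟩, h3⟩, h4⟩; exact ⟨⟨h3, h4, by omega⟩, h1⟩
      · rintro ⟨⟨h3, h4, h5⟩, h1⟩
        exact ⟨⟨⟨h1, (Nat.le_of_dvd (by omega) h4).trans hn.2⟩, h3⟩, h4⟩
    calc (∏ p ∈ P, (1 + if p ∣ n then a p else 0))
        = ∏ p ∈ P.filter (fun p => p ∣ n), Real.exp (s * ((Real.log p) ^ 24 / (p:ℝ))) := by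
          rw [Finset.prod_filter (s := P)]
          apply Finset.prod_congr rfl
          intro p _
          split <;> simp [hadef]
      _ = _ := by rw [← Real.exp_sum, this, S, Finset.mul_sum]
  rw [Finset.sum_congr rfl heq] at hmain
  have hprod : (∏ p ∈ P, (1 + a p / p)) ≤ Real.exp 4 := by
    calc (∏ p ∈ P, (1 + a p / p)) ≤ ∏ p ∈ P, Real.exp (a p / p) := by
          apply Finset.prod_le_prod
          · intro p hp; have := ha0 p hp; positivity
          · intro p _; have := Real.add_one_le_exp (a p / p); linarith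
      _ = Real.exp (∑ p ∈ P, a p / p) := (Real.exp_sum _ _).symm
      _ ≤ Real.exp 4 := by
          apply Real.exp_le_exp.2
          have hw : 0 < Real.sqrt (W:ℝ) := Real.sqrt_pos.2 (by exact_mod_cast hW)
          calc (∑ p ∈ P, a p / p) ≤ ∑ p ∈ P, (2 * s * c24) * (1 / ((p:ℝ) * Real.sqrt p)) := by
                apply Finset.sum_le_sum
                intro p hp
                simp only [hPdef, Finset.mem_filter, Finset.mem_Ioc] at hp
                have hy1 : s * ((Real.log p) ^ 24 / (p:ℝ)) ≤ 1 := by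
                  calc s * ((Real.log p) ^ 24 / (p:ℝ)) ≤ s * (c24 / Real.sqrt W) :=
                        mul_le_mul_of_nonneg_left (term_le hW hp.1.1) hs0
                    _ = 1 := by rw [hs]; field_simp
                have hab : a p ≤ 2 * (s * ((Real.log p) ^ 24 / (p:ℝ))) := by
                  have h := Real.abs_exp_sub_one_le (x := s * ((Real.log p) ^ 24 / (p:ℝ)))
                    (by rw [abs_of_nonneg (hy0 p)]; exact hy1)
                  rw [abs_of_nonneg (hy0 p)] at h
                  exact (le_abs_self _).trans h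
                have hp1 : (1:ℝ) ≤ p := by exact_mod_cast hp.2.one_le
                have h := logpow_le_sqrt 24 hp1
                have hsp : 0 < Real.sqrt (p:ℝ) := Real.sqrt_pos.2 (by linarith)
                calc a p / p ≤ 2 * (s * ((c24 * Real.sqrt p) / (p:ℝ))) / p := by
                      refine div_le_div_of_nonneg_right (hab.trans ?_) (by linarith)
                      exact mul_le_mul_of_nonneg_left (mul_le_mul_of_nonneg_left
                        (div_le_div_of_nonneg_right h (by linarith)) hs0) (by norm_num)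
                  _ = _ := by
                      field_simp
                      rw [Real.sq_sqrt (by linarith)]
            _ ≤ (2 * s * c24) * (2 / Real.sqrt W) := by
                rw [← Finset.mul_sum]
                refine mul_le_mul_of_nonneg_left ?_ (by positivity)
                refine le_trans ?_ (sum_inv_sqrt_cube_le W N hW)
                exact Finset.sum_le_sum_of_subset_of_nonneg (Finset.filter_subset _ _)
                  (fun _ _ _ => by positivity)
            _ = 4 := by rw [hs]; field_simp; norm_num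
  have hB : (((Finset.Icc 1 N).filter (fun n => 1/2 < S n W)).card : ℝ) * Real.exp (s / 2)
      ≤ ∑ n ∈ Finset.Icc 1 N, Real.exp (s * S n W) := by
    rw [← nsmul_eq_mul, ← Finset.sum_const]
    refine le_trans (Finset.sum_le_sum ?_)
      (Finset.sum_le_sum_of_subset_of_nonneg (Finset.filter_subset _ _)
        (fun _ _ _ => (Real.exp_pos _).le))
    intro n hn
    simp only [Finset.mem_filter] at hn
    apply Real.exp_le_exp.2
    nlinarith [hn.2]
  have hN : (0:ℝ) ≤ N := Nat.cast_nonneg _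
  have := hB.trans (hmain.trans (mul_le_mul_of_nonneg_left hprod hN))
  have he : Real.exp (-(Real.sqrt W / (2 * c24))) = (Real.exp (s / 2))⁻¹ := by
    rw [← Real.exp_neg]; congr 1; rw [hs]; field_simp
  rw [he, ← mul_assoc, ← div_eq_mul_inv, le_div_iff₀ (Real.exp_pos _)]
  exact this

end Vale.Agent.P028
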