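import Vale.Agent.P028.Sets
import Vale.Agent.P028.Abn

namespace Vale.Agent.P028

open Finset MeasureTheory
open scoped Classical

/-- The common scale of a pair. -/
noncomputable def WW (q r : ℕ) : ℕ := max (Ab q) (Ab r)

/-- The weighted radius of a pair, divided by the gcd. -/
noncomputable def tt (ψ : ℕ → ℝ) (q r : ℕ) : ℝ := ((r:ℝ) * ψ q + (q:ℝ) * ψ r) / (Nat.gcd q r : ℝ)

/-- The first cofactor. -/
def cu (q r : ℕ) : ℕ := q / Nat.gcd q r

/-- The second cofactor. -/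
def cv (q r : ℕ) : ℕ := r / Nat.gcd q r

/-- The measure of an overlap. -/
noncomputable def ov (γ : ℝ) (ψ : ℕ → ℝ) (q r : ℕ) : ℝ :=
  volume.real (SSet γ ψ q ∩ SSet γ ψ r)

/-- Pairs of selected numerators whose intervals can meet. -/
noncomputable def EPairs (γ : ℝ) (ψ : ℕ → ℝ) (q r : ℕ) : Finset (ℤ × ℤ) :=
  (Pairs γ q r ((r:ℝ) * ψ q + (q:ℝ) * ψ r)).filter (fun x => x.1 ∈ Eset γ q ∧ x.2 ∈ Eset γ r)

/-- The integers coming from the selected pairs. -/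
noncomputable def Hits (γ : ℝ) (ψ : ℕ → ℝ) (q r : ℕ) : Finset ℤ :=
  (EPairs γ ψ q r).image (fun x => x.1 * (cv q r : ℤ) - x.2 * (cu q r : ℤ))

structure PairFacts (q r : ℕ) : Prop where
  hq : 0 < q
  hr : 0 < r
  hg : 0 < Nat.gcd q r
  hu : q = Nat.gcd q r * cu q r
  hv : r = Nat.gcd q r * cv q r
  hcop : Nat.Coprime (cu q r) (cv q r)
  hu0 : 0 < cu q r
  huv : cu q r < cv q r

lemma pairFacts {q r : ℕ} (hq : 0 < q) (hqr : q < r) : PairFacts q r := by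
  have hg : 0 < Nat.gcd q r := Nat.gcd_pos_of_pos_left r hq
  have hu : q = Nat.gcd q r * cu q r := (Nat.mul_div_cancel' (Nat.gcd_dvd_left q r)).symm
  have hv : r = Nat.gcd q r * cv q r := (Nat.mul_div_cancel' (Nat.gcd_dvd_right q r)).symm
  have h : Nat.gcd q r * cu q r < Nat.gcd q r * cv q r := by omega
  exact ⟨hq, by omega, hg, hu, hv, Nat.coprime_div_gcd_div_gcd hg,
    Nat.pos_of_ne_zero fun h0 => by simp [h0] at hu; omega, Nat.lt_of_mul_lt_mul_left h⟩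

lemma tt_eq {q r : ℕ} (P : PairFacts q r) (ψ : ℕ → ℝ) :
    tt ψ q r = (cv q r : ℝ) * ψ q + (cu q r : ℝ) * ψ r := by
  have hg : (Nat.gcd q r : ℝ) ≠ 0 := by exact_mod_cast P.hg.ne'
  have e1 : (q:ℝ) = (Nat.gcd q r : ℝ) * (cu q r : ℝ) := by exact_mod_cast P.hu
  have e2 : (r:ℝ) = (Nat.gcd q r : ℝ) * (cv q r : ℝ) := by exact_mod_cast P.hv
  unfold tt
  rw [div_eq_iff hg]
  linear_combination ψ r * e1 + ψ q * e2

lemma hit_near {γ : ℝ} {ψ : ℕ → ℝ} {q r : ℕ} (P : PairFacts q r) {x : ℤ × ℤ}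
    (hx : x ∈ EPairs γ ψ q r) :
    |((x.1 * (cv q r : ℤ) - x.2 * (cu q r : ℤ) : ℤ):ℝ) + γ * ((cv q r - cu q r : ℕ):ℝ)|
      < tt ψ q r := by
  obtain ⟨hp, -⟩ := Finset.mem_filter.1 hx
  have h := ((mem_Pairs (a := x.1) (b := x.2) P.hq).1 hp).2.2
  have e1 : (q:ℝ) = (Nat.gcd q r : ℝ) * (cu q r : ℝ) := by exact_mod_cast P.hu
  have e2 : (r:ℝ) = (Nat.gcd q r : ℝ) * (cv q r : ℝ) := by exact_mod_cast P.hv
  have hg : (0:ℝ) < (Nat.gcd q r : ℝ) := by exact_mod_cast P.hg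
  rw [Nat.cast_sub P.huv.le]
  push_cast
  unfold tt
  rw [lt_div_iff₀ hg]
  have e : (x.1:ℝ) * r - (x.2:ℝ) * q + off γ q r =
      ((x.1:ℝ) * (cv q r : ℝ) - (x.2:ℝ) * (cu q r : ℝ) + γ * ((cv q r : ℝ) - (cu q r : ℝ)))
        * (Nat.gcd q r : ℝ) := by
    unfold off; linear_combination ((x.1:ℝ) + γ) * e2 + (-(x.2:ℝ) - γ) * e1
  rw [e, abs_mul, abs_of_pos hg] at h
  exact h

lemma tt_le_sq {q r : ℕ} (P : PairFacts q r) {ψ : ℕ → ℝ} (hψq : ψ q ≤ 1 / (q:ℝ))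
    (hψr : ψ r ≤ 1 / (r:ℝ)) : tt ψ q r ≤ 2 * (cv q r : ℝ) ^ 2 / r := by
  have e1 : (q:ℝ) = (Nat.gcd q r : ℝ) * (cu q r : ℝ) := by exact_mod_cast P.hu
  have e2 : (r:ℝ) = (Nat.gcd q r : ℝ) * (cv q r : ℝ) := by exact_mod_cast P.hv
  have hu : (1:ℝ) ≤ (cu q r : ℝ) := by exact_mod_cast P.hu0
  have huv : (cu q r : ℝ) ≤ (cv q r : ℝ) := by exact_mod_cast P.huv.le
  have hg : (0:ℝ) < (Nat.gcd q r : ℝ) := by exact_mod_cast P.hg
  rw [tt_eq P]
  set u := (cu q r : ℝ); set v := (cv q r : ℝ); set g := (Nat.gcd q r : ℝ)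
  have hv : 0 < v := by linarith
  have h1 : v * ψ q ≤ v / g := by
    refine (mul_le_mul_of_nonneg_left hψq hv.le).trans ?_
    rw [e1, mul_one_div]
    exact div_le_div_of_nonneg_left hv.le hg (le_mul_of_one_le_right hg.le hu)
  have h2 : u * ψ r ≤ v / g := by
    refine (mul_le_mul_of_nonneg_left hψr (by linarith)).trans ?_
    rw [e2, mul_one_div]
    calc u / (g * v) ≤ v / (g * v) := div_le_div_of_nonneg_right huv (by positivity)
      _ ≤ v / g := div_le_div_of_nonneg_left hv.le hg (le_mul_of_one_le_right hg.le (by linarith))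
  calc _ ≤ v / g + v / g := add_le_add h1 h2
    _ = 2 * v ^ 2 / r := by rw [e2]; field_simp; ring

/-- The key cancellation: fractions coming from selected pairs avoid the close fractions. -/
lemma kill {γ : ℝ} {ψ : ℕ → ℝ} {q r : ℕ} (P : PairFacts q r) (hA : Adm r) (h16 : 16 ≤ r)
    (hψq : ψ q ≤ 1 / (q:ℝ)) (hψr : ψ r ≤ 1 / (r:ℝ)) {k : ℤ} (hk : k ∈ Hits γ ψ q r) :
    frac k (cv q r - cu q r) ∉ KS γ (32 * r) := by
  obtain ⟨⟨a, b⟩, hx, rfl⟩ := Finset.mem_image.1 hk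
  intro hKS
  have hnear := hit_near P hx
  obtain ⟨ha, hb⟩ := (Finset.mem_filter.1 hx).2
  obtain ⟨-, hb1, hb2⟩ := mem_Eset.1 hb
  have huv := P.huv
  set u := cu q r with hu'
  set v := cv q r with hv'
  simp only at hnear hKS
  set k := a * (v:ℤ) - b * (u:ℤ) with hk'
  set n := v - u with hn'
  have hn : 0 < n := by omega
  obtain ⟨hB1, hBn, hco, hkA, hnB, hi⟩ := frac_spec k n hn
  set B := (frac k n).1
  set A := (frac k n).2
  set i := Int.gcd k n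
  have hident : (i:ℤ) * (A + b * B) = (b - a) * v := by
    have : (n:ℤ) = (v:ℤ) - u := by rw [hn', Nat.cast_sub huv.le]
    linear_combination hkA - b * hnB + b * this - hk'
  have hdiv : ∀ p : ℕ, p.Prime → p ∣ v → (p:ℤ) ∣ A + b * B := by
    intro p hp hpv
    have hpz : Prime (p:ℤ) := Nat.prime_iff_prime_int.1 hp
    have h1 : (p:ℤ) ∣ (i:ℤ) * (A + b * B) :=
      hident ▸ Dvd.dvd.mul_left (Int.natCast_dvd_natCast.2 hpv) _
    refine (hpz.dvd_or_dvd h1).resolve_left fun hpi => ?_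
    have h2 : (p:ℤ) ∣ (n:ℤ) := hnB ▸ Dvd.dvd.mul_right hpi _
    have h3 : p ∣ v - u := Int.natCast_dvd_natCast.1 h2
    have h4 : p ∣ u := by
      have := Nat.dvd_sub hpv h3
      rwa [Nat.sub_sub_self huv.le] at this
    exact hp.one_lt.ne' (Nat.eq_one_of_dvd_coprimes P.hcop h4 hpv)
  have hvr : v ∣ r := Dvd.intro_left _ P.hv.symm
  have hmem : ∀ p : ℕ, p.Prime → p ∣ v → p ∈ r.primeFactors := fun p hp hpv =>
    Nat.mem_primeFactors.2 ⟨hp, hpv.trans hvr, P.hr.ne'⟩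
  by_cases hlarge : ∃ p ∈ v.primeFactors, Zb r < (p:ℝ)
  · obtain ⟨p, hp, hpz⟩ := hlarge
    have hp1 := Nat.prime_of_mem_primeFactors hp
    have hp2 := Nat.dvd_of_mem_primeFactors hp
    exact hb2 p (hmem p hp1 hp2) hpz (B, A) hKS (hdiv p hp1 hp2)
  · push Not at hlarge
    have hv2 : 2 ≤ v := by have := P.hu0; omega
    have hlog := dvd_smooth_log_le P.hr hvr hA hlarge
    have hvr10 : (v:ℝ) ^ 10 ≤ r := by
      rw [← Real.log_le_log_iff (by positivity) (by exact_mod_cast P.hr), Real.log_pow]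
      push_cast
      linarith
    have hvr2 : (2:ℝ) ≤ v := by exact_mod_cast hv2
    have hBv : (B:ℝ) ≤ v := by exact_mod_cast hBn.trans (Nat.sub_le v u)
    have hstar : IsStar γ r (B, A) := by
      refine ⟨hB1, hco, ?_, ?_⟩
      · calc (B:ℝ) ^ 5 ≤ (v:ℝ) ^ 5 := pow_le_pow_left₀ (Nat.cast_nonneg _) hBv 5
          _ ≤ (v:ℝ) ^ 10 := pow_le_pow_right₀ (by linarith) (by norm_num)
          _ ≤ r := hvr10
      · have h1 : |(B:ℝ) * γ - A| ≤ tt ψ q r := by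
          refine le_trans ?_ hnear.le
          have e : (k:ℝ) + γ * (n:ℝ) = (i:ℝ) * ((B:ℝ) * γ - A) := by
            have e1 : (k:ℝ) = -((i:ℝ) * (A:ℝ)) := by exact_mod_cast hkA
            have e2 : (n:ℝ) = (i:ℝ) * (B:ℝ) := by exact_mod_cast hnB
            rw [e1, e2]; ring
          rw [e, abs_mul, Nat.abs_cast]
          exact le_mul_of_one_le_left (abs_nonneg _) (by exact_mod_cast hi)
        have hr0 : (0:ℝ) < r := by exact_mod_cast P.hr
        have h2 := h1.trans (tt_le_sq P hψq hψr)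
        refine (mul_le_mul_of_nonneg_right h2 (Real.sqrt_nonneg _)).trans ?_
        rw [div_mul_eq_mul_div, div_le_one hr0]
        have h3 : 2 * (v:ℝ) ^ 2 ≤ Real.sqrt r := by
          apply Real.le_sqrt_of_sq_le
          refine le_trans ?_ hvr10
          calc (2 * (v:ℝ) ^ 2) ^ 2 = 4 * (v:ℝ) ^ 4 := by ring
            _ ≤ (v:ℝ) ^ 6 * (v:ℝ) ^ 4 := mul_le_mul_of_nonneg_right
                (le_trans (by norm_num) (pow_le_pow_left₀ (by norm_num) hvr2 6)) (by positivity)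
            _ = _ := by ring
        calc _ ≤ Real.sqrt r * Real.sqrt r := mul_le_mul_of_nonneg_right h3 (Real.sqrt_nonneg _)
          _ = r := Real.mul_self_sqrt hr0.le
    have hs := star_eq h16 hstar
    obtain ⟨p, hp, hpv⟩ := Nat.exists_prime_and_dvd (show v ≠ 1 by omega)
    refine hb1 p (hmem p hp hpv) (base_kill hp ?_)
    rw [hs]
    exact hdiv p hp hpv

lemma EPairs_card_le {γ : ℝ} {ψ : ℕ → ℝ} {q r : ℕ} (P : PairFacts q r) :
    (EPairs γ ψ q r).card ≤ Nat.gcd q r * (Hits γ ψ q r).card := by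
  unfold Hits
  set g := Nat.gcd q r
  set u := cu q r with hu'
  set v := cv q r with hv'
  have hu0 : (0:ℤ) < (u:ℤ) := by exact_mod_cast P.hu0
  refine Finset.card_le_mul_card_image_of_maps_to (f := fun x : ℤ × ℤ => x.1 * (v:ℤ) - x.2 * (u:ℤ))
    (fun x hx => Finset.mem_image_of_mem _ hx) g
    (fun k _ => ?_)
  calc _ ≤ (Finset.Ico (0:ℤ) g).card := by
        refine Finset.card_le_card_of_injOn (fun x => x.1 / (u:ℤ)) ?_ ?_
        · intro x hx
          obtain ⟨h, -⟩ := Finset.mem_filter.1 hx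
          obtain ⟨h0, h1⟩ := (mem_Eset.1 (Finset.mem_filter.1 h).2.1).1
          refine Finset.mem_Ico.2 ⟨Int.ediv_nonneg h0 hu0.le, ?_⟩
          rw [Int.ediv_lt_iff_lt_mul hu0]
          refine lt_of_lt_of_eq h1 ?_
          exact_mod_cast P.hu
        · intro x hx y hy hxy
          simp only [Finset.coe_filter, Set.mem_ofPred_eq] at hx hy
          simp only at hxy
          have hd : (u:ℤ) ∣ (x.1 - y.1) * (v:ℤ) :=
            ⟨x.2 - y.2, by linear_combination hx.2 - hy.2⟩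
          have hd' : (u:ℤ) ∣ x.1 - y.1 :=
            (Int.isCoprime_iff_nat_coprime.2 (by simpa using P.hcop)).dvd_of_dvd_mul_right hd
          have e1 : x.1 = y.1 := by
            have hm : x.1 % (u:ℤ) = y.1 % (u:ℤ) := (Int.emod_eq_emod_iff_emod_sub_eq_zero).2
              (Int.emod_eq_zero_of_dvd hd')
            have h1 := Int.mul_ediv_add_emod x.1 (u:ℤ)
            have h2 := Int.mul_ediv_add_emod y.1 (u:ℤ)
            rw [hxy, hm] at h1
            linarith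
          have e2 : x.2 = y.2 := by
            have h := hx.2.trans hy.2.symm
            rw [e1] at h
            exact mul_right_cancel₀ hu0.ne' (by linarith)
          exact Prod.ext e1 e2
    _ = g := by simp

lemma ov_le_card {γ : ℝ} {ψ : ℕ → ℝ} {q r : ℕ} (hq : 0 < q) (hr : 0 < r) (hψq : 0 ≤ ψ q)
    (hψr : 0 ≤ ψ r) :
    ov γ ψ q r ≤ 2 * min (ψ q / q) (ψ r / r) * (EPairs γ ψ q r).card := by
  have hq' : (0:ℝ) < q := by exact_mod_cast hq
  have hr' : (0:ℝ) < r := by exact_mod_cast hr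
  have hsub : SSet γ ψ q ∩ SSet γ ψ r ⊆
      ⋃ x ∈ EPairs γ ψ q r, (J γ ψ q x.1 ∩ J γ ψ r x.2) := by
    intro y hy
    simp only [SSet, Set.mem_inter_iff, Set.mem_iUnion] at hy
    obtain ⟨⟨a, ha, hya⟩, b, hb, hyb⟩ := hy
    refine Set.mem_biUnion (x := (a, b)) ?_ ⟨hya, hyb⟩
    refine Finset.mem_filter.2 ⟨(mem_Pairs hq).2 ⟨(mem_Eset.1 ha).1.1, (mem_Eset.1 ha).1.2, ?_⟩, ha, hb⟩
    rw [mem_J hq] at hya
    rw [mem_J hr] at hyb
    have e : (a:ℝ) * r - (b:ℝ) * q + off γ q r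
        = (q:ℝ) * ((r:ℝ) * y - b - γ) - (r:ℝ) * ((q:ℝ) * y - a - γ) := by unfold off; ring
    rw [e]
    refine lt_of_le_of_lt (abs_sub _ _) ?_
    rw [abs_mul, abs_mul, abs_of_pos hq', abs_of_pos hr']
    have h1 := mul_lt_mul_of_pos_left hya hr'
    have h2 := mul_lt_mul_of_pos_left hyb hq'
    linarith
  refine le_trans (measureReal_mono hsub ?_) ?_
  · exact ((measure_biUnion_finset_le _ _).trans_lt (ENNReal.sum_lt_top.2 fun x _ =>
      (measure_mono Set.inter_subset_left).trans_lt (J_finite γ ψ q x.1).lt_top)).ne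
  refine le_trans (measureReal_biUnion_finset_le _ _) ?_
  refine le_trans (Finset.sum_le_card_nsmul _ _ (2 * min (ψ q / q) (ψ r / r)) fun x _ => ?_) ?_
  · rw [mul_min_of_nonneg _ _ (by norm_num : (0:ℝ) ≤ 2)]
    refine le_min ?_ ?_
    · refine (measureReal_mono Set.inter_subset_left (J_finite γ ψ q x.1)).trans (le_of_eq ?_)
      rw [volume_real_J hψq]; ring
    · refine (measureReal_mono Set.inter_subset_right (J_finite γ ψ r x.2)).trans (le_of_eq ?_)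
      rw [volume_real_J hψr]; ring
  · rw [nsmul_eq_mul]; exact le_of_eq (mul_comm _ _)

lemma ov_le_hits {γ : ℝ} {ψ : ℕ → ℝ} {q r : ℕ} (P : PairFacts q r) (hψq : 0 ≤ ψ q) (hψr : 0 ≤ ψ r) :
    ov γ ψ q r ≤ 2 * min (ψ q / (cu q r : ℝ)) (ψ r / (cv q r : ℝ)) * (Hits γ ψ q r).card := by
  refine (ov_le_card P.hq P.hr hψq hψr).trans ?_
  have hg : (0:ℝ) < (Nat.gcd q r : ℝ) := by exact_mod_cast P.hg
  have hc : ((EPairs γ ψ q r).card : ℝ) ≤ (Nat.gcd q r : ℝ) * (Hits γ ψ q r).card := by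
    exact_mod_cast EPairs_card_le P
  refine (mul_le_mul_of_nonneg_left hc (by positivity)).trans (le_of_eq ?_)
  have hu : (cu q r : ℝ) ≠ 0 := by exact_mod_cast P.hu0.ne'
  have hv : (cv q r : ℝ) ≠ 0 := by
    have := P.huv
    exact_mod_cast (by omega : cv q r ≠ 0)
  have e1 : (q:ℝ) = (Nat.gcd q r : ℝ) * (cu q r : ℝ) := by exact_mod_cast P.hu
  have e2 : (r:ℝ) = (Nat.gcd q r : ℝ) * (cv q r : ℝ) := by exact_mod_cast P.hv
  have f1 : ψ q / (cu q r : ℝ) = ψ q / q * (Nat.gcd q r : ℝ) := by rw [e1]; field_simp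
  have f2 : ψ r / (cv q r : ℝ) = ψ r / r * (Nat.gcd q r : ℝ) := by rw [e2]; field_simp
  rw [f1, f2, ← min_mul_of_nonneg _ _ hg.le]
  ring

lemma hits_card_le {γ : ℝ} {ψ : ℕ → ℝ} {q r : ℕ} (P : PairFacts q r) (hψq : 0 ≤ ψ q) (hψr : 0 ≤ ψ r) :
    ((Hits γ ψ q r).card : ℝ) ≤ 2 * tt ψ q r + 1 :=
  card_int_near _ (γ * ((cv q r - cu q r : ℕ):ℝ)) _ (by unfold tt; positivity) fun k hk => by
    obtain ⟨x, hx, rfl⟩ := Finset.mem_image.1 hk
    exact hit_near P hx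

lemma min_div_mul_le {q r : ℕ} (hq : 0 < q) (hr : 0 < r) {a b : ℝ} (ha : 0 ≤ a) (hb : 0 ≤ b) :
    min (a / q) (b / r) * ((r:ℝ) * a + (q:ℝ) * b) ≤ 2 * (a * b) := by
  have hq' : (0:ℝ) < q := by exact_mod_cast hq
  have hr' : (0:ℝ) < r := by exact_mod_cast hr
  have e1 : (b / r) * ((r:ℝ) * a) = a * b := by field_simp
  have e2 : (a / q) * ((q:ℝ) * b) = a * b := by field_simp
  have h1 := mul_le_mul_of_nonneg_right (min_le_right (a / q) (b / r)) (by positivity : 0 ≤ (r:ℝ) * a)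
  have h2 := mul_le_mul_of_nonneg_right (min_le_left (a / q) (b / r)) (by positivity : 0 ≤ (q:ℝ) * b)
  linarith

lemma ov_le_large {γ : ℝ} {ψ : ℕ → ℝ} {q r : ℕ} (P : PairFacts q r) (hψq : 0 ≤ ψ q) (hψr : 0 ≤ ψ r)
    (ht : 1 ≤ tt ψ q r) : ov γ ψ q r ≤ 12 * (ψ q * ψ r) := by
  refine (ov_le_card P.hq P.hr hψq hψr).trans ?_
  have hg : (0:ℝ) < (Nat.gcd q r : ℝ) := by exact_mod_cast P.hg
  have h1 : ((EPairs γ ψ q r).card : ℝ) ≤ (Nat.gcd q r : ℝ) * (3 * tt ψ q r) := by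
    have h : ((EPairs γ ψ q r).card : ℝ) ≤ (Nat.gcd q r : ℝ) * (Hits γ ψ q r).card := by
      exact_mod_cast EPairs_card_le P
    refine h.trans (mul_le_mul_of_nonneg_left ?_ hg.le)
    have := hits_card_le (γ := γ) P hψq hψr
    linarith
  refine (mul_le_mul_of_nonneg_left h1 (by positivity)).trans ?_
  have e : (Nat.gcd q r : ℝ) * tt ψ q r = (r:ℝ) * ψ q + (q:ℝ) * ψ r := by
    unfold tt; field_simp
  have := min_div_mul_le P.hq P.hr hψq hψr
  rw [← e] at this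
  linarith

lemma ov_le_small {γ : ℝ} {ψ : ℕ → ℝ} {q r : ℕ} (P : PairFacts q r) (hψq : 0 ≤ ψ q) (hψr : 0 ≤ ψ r)
    (ht : tt ψ q r < 1) :
    ov γ ψ q r ≤ 6 * min (ψ q / (cu q r : ℝ)) (ψ r / (cv q r : ℝ)) := by
  refine (ov_le_hits P hψq hψr).trans ?_
  have hm : 0 ≤ min (ψ q / (cu q r : ℝ)) (ψ r / (cv q r : ℝ)) := by positivity
  have h3 : ((Hits γ ψ q r).card : ℝ) ≤ 3 := by
    have := hits_card_le (γ := γ) P hψq hψr
    linarith
  have := mul_le_mul_of_nonneg_left h3 hm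
  linarith

/-- The quasi-independent pairs. -/
lemma ov_le_good {γ : ℝ} {ψ : ℕ → ℝ} {q r : ℕ} (P : PairFacts q r) (hψq : 0 ≤ ψ q) (hψr : 0 ≤ ψ r)
    (ht : Real.exp (5 * (WW q r : ℝ)) ≤ tt ψ q r) :
    ov γ ψ q r ≤ 12 * Real.exp 4 * ((lam q * ψ q) * (lam r * ψ r)) := by
  set W := WW q r
  have hW1 : 1 ≤ W := by
    have := Ab_ge q; have := W0_ge; have : Ab q ≤ W := le_max_left _ _; omega
  set g := (Nat.gcd q r : ℝ)
  have hg : 0 < g := by simp only [g]; exact_mod_cast P.hg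
  set Δ := (r:ℝ) * ψ q + (q:ℝ) * ψ r
  have hΔ : g * tt ψ q r = Δ := by unfold tt; field_simp [show (Nat.gcd q r : ℝ) ≠ 0 from hg.ne']; rfl
  have hΔ0 : 0 < Δ := by rw [← hΔ]; exact mul_pos hg (lt_of_lt_of_le (Real.exp_pos _) ht)
  set P1 := q.primeFactors.filter (fun p => p ≤ W)
  set P2 := r.primeFactors.filter (fun p => p ≤ W)
  have h := pairs_avoid_le q r P.hq P.hr γ Δ hΔ0 P1 P2
    (fun p hp => ⟨Nat.prime_of_mem_primeFactors (Finset.mem_filter.1 hp).1,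
      Nat.dvd_of_mem_primeFactors (Finset.mem_filter.1 hp).1⟩)
    (fun p hp => ⟨Nat.prime_of_mem_primeFactors (Finset.mem_filter.1 hp).1,
      Nat.dvd_of_mem_primeFactors (Finset.mem_filter.1 hp).1⟩) (base γ q) (base γ r)
  set π1 := ∏ p ∈ P1, (1 - 1/(p:ℝ))
  set π2 := ∏ p ∈ P2, (1 - 1/(p:ℝ))
  have hWr : (1:ℝ) ≤ W := by exact_mod_cast hW1
  have hp1 : 1 / (W:ℝ) ≤ π1 := one_div_le_small_prod q W hW1
  have hp2 : 1 / (W:ℝ) ≤ π2 := one_div_le_small_prod r W hW1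
  have hπ1 : 0 ≤ π1 := le_trans (by positivity) hp1
  have hπ2 : 0 ≤ π2 := le_trans (by positivity) hp2
  have herr : (2:ℝ) ^ P1.card * 2 ^ P2.card * g ≤ Δ * π1 * π2 := by
    have h4 : (2:ℝ) ^ P1.card * 2 ^ P2.card ≤ Real.exp (2 * (W:ℝ)) := by
      have a1 : (2:ℝ) ^ P1.card ≤ Real.exp (W:ℝ) := by
        refine (pow_le_pow_right₀ (by norm_num) (small_card_le q W)).trans ?_
        rw [← Real.exp_one_pow]
        exact pow_le_pow_left₀ (by norm_num) (by linarith [Real.add_one_le_exp (1:ℝ)]) _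
      have a2 : (2:ℝ) ^ P2.card ≤ Real.exp (W:ℝ) := by
        refine (pow_le_pow_right₀ (by norm_num) (small_card_le r W)).trans ?_
        rw [← Real.exp_one_pow]
        exact pow_le_pow_left₀ (by norm_num) (by linarith [Real.add_one_le_exp (1:ℝ)]) _
      refine (mul_le_mul a1 a2 (by positivity) (Real.exp_pos _).le).trans (le_of_eq ?_)
      rw [← Real.exp_add]; ring_nf
    have h5 : Real.exp (2 * (W:ℝ)) * (W:ℝ) ^ 2 ≤ tt ψ q r := by
      refine le_trans ?_ ht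
      have h6 : (W:ℝ) ^ 2 ≤ Real.exp (3 * (W:ℝ)) := by
        have := Real.add_one_le_exp (W:ℝ)
        rw [show 3 * (W:ℝ) = (W:ℝ) + (W:ℝ) + (W:ℝ) by ring, Real.exp_add, Real.exp_add]
        have h1 : (1:ℝ) ≤ Real.exp (W:ℝ) := Real.one_le_exp (by linarith)
        have h2 := mul_le_mul (by linarith : (W:ℝ) ≤ Real.exp (W:ℝ))
          (by linarith : (W:ℝ) ≤ Real.exp (W:ℝ)) (by linarith) (Real.exp_pos _).le
        nlinarith
      rw [show 5 * (W:ℝ) = 2 * (W:ℝ) + 3 * (W:ℝ) by ring, Real.exp_add]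
      exact mul_le_mul_of_nonneg_left h6 (Real.exp_pos _).le
    have h7 : Real.exp (2 * (W:ℝ)) ≤ tt ψ q r * (π1 * π2) := by
      have h8 := mul_le_mul hp1 hp2 (by positivity) hπ1
      refine le_trans ?_ (mul_le_mul h5 h8 (by positivity) (by unfold tt; positivity))
      rw [le_iff_lt_or_eq]; right; field_simp
    rw [← hΔ, show g * tt ψ q r * π1 * π2 = g * (tt ψ q r * (π1 * π2)) by ring, mul_comm g]
    exact mul_le_mul_of_nonneg_right (h4.trans h7) hg.le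
  have hN : ((EPairs γ ψ q r).card : ℝ) ≤ 3 * Δ * (π1 * π2) := by
    refine le_trans (Nat.cast_le.2 (Finset.card_le_card ?_)) (h.trans (by linarith))
    intro x hx
    obtain ⟨hx1, hx2, hx3⟩ := Finset.mem_filter.1 hx
    refine Finset.mem_filter.2 ⟨hx1, ?_, ?_⟩
    · exact fun p hp => (mem_Eset.1 hx2).2.1 p (Finset.mem_filter.1 hp).1
    · exact fun p hp => (mem_Eset.1 hx3).2.1 p (Finset.mem_filter.1 hp).1
  have hpp : π1 * π2 ≤ Real.exp 4 * (lam q * lam r) := by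
    refine (mul_le_mul (small_prod_le P.hq (le_max_left _ _)) (small_prod_le P.hr (le_max_right _ _))
      hπ2 (mul_nonneg (Real.exp_pos _).le (lam_nonneg _))).trans (le_of_eq ?_)
    rw [show (4:ℝ) = 2 + 2 by norm_num, Real.exp_add]; ring
  refine (ov_le_card P.hq P.hr hψq hψr).trans ?_
  have hm0 : 0 ≤ min (ψ q / q) (ψ r / r) := by positivity
  calc 2 * min (ψ q / q) (ψ r / r) * ((EPairs γ ψ q r).card : ℝ)
      ≤ 2 * min (ψ q / q) (ψ r / r) * (3 * Δ * (Real.exp 4 * (lam q * lam r))) :=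
        mul_le_mul_of_nonneg_left (hN.trans (mul_le_mul_of_nonneg_left hpp (by positivity)))
          (by positivity)
    _ = 6 * (Real.exp 4 * (lam q * lam r)) * (min (ψ q / q) (ψ r / r) * Δ) := by ring
    _ ≤ 6 * (Real.exp 4 * (lam q * lam r)) * (2 * (ψ q * ψ r)) :=
        mul_le_mul_of_nonneg_left (min_div_mul_le P.hq P.hr hψq hψr)
          (by have := lam_nonneg q; have := lam_nonneg r; positivity)
    _ = _ := by ring

end Vale.Agent.P028
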