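import Vale.Agent.P028.Basic

namespace Vale.Agent.P028

open Finset
open scoped Classical

lemma card_int_near (s : Finset ℤ) (c t : ℝ) (ht : 0 ≤ t) (h : ∀ k ∈ s, |(k:ℝ) + c| < t) :
    (s.card : ℝ) ≤ 2 * t + 1 := by
  rcases s.eq_empty_or_nonempty with h0 | h0
  · simp [h0]; linarith
  set m := s.min' h0 with hm
  have hsub : s ⊆ Finset.Icc m (m + ⌊2 * t⌋) := by
    intro k hk
    refine Finset.mem_Icc.2 ⟨s.min'_le k hk, ?_⟩
    have h1 := abs_lt.1 (h k hk)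
    have h2 := abs_lt.1 (h m (s.min'_mem h0))
    have : k - m ≤ ⌊2 * t⌋ := Int.le_floor.2 (by push_cast; linarith)
    omega
  have hc := Finset.card_le_card hsub
  rw [Int.card_Icc, show m + ⌊2 * t⌋ + 1 - m = ⌊2 * t⌋ + 1 by ring] at hc
  have hf0 : 0 ≤ ⌊2 * t⌋ := Int.floor_nonneg.2 (by linarith)
  have : (s.card : ℤ) ≤ ⌊2 * t⌋ + 1 := by omega
  calc (s.card:ℝ) ≤ ((⌊2 * t⌋ + 1 : ℤ) : ℝ) := by exact_mod_cast this
    _ ≤ _ := by push_cast; linarith [Int.floor_le (2 * t)]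

lemma card_progression (s : Finset ℤ) (b : ℕ) (hb : 0 < b) (L : ℝ) (hL : 0 ≤ L)
    (h : ∀ x ∈ s, ∀ y ∈ s, (b:ℤ) ∣ x - y ∧ (x:ℝ) - y ≤ L) : (s.card : ℝ) ≤ L / b + 1 := by
  rcases s.eq_empty_or_nonempty with h0 | h0
  · simp [h0]; positivity
  set m := s.min' h0 with hm
  have hsub : s ⊆ (Finset.Icc 0 ⌊L / b⌋).image (fun i => m + (b:ℤ) * i) := by
    intro x hx
    obtain ⟨hd, hle⟩ := h x hx m (s.min'_mem h0)
    obtain ⟨i, hi⟩ := hd
    refine Finset.mem_image.2 ⟨i, Finset.mem_Icc.2 ⟨?_, ?_⟩, by linarith⟩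
    · have := s.min'_le x hx
      by_contra hneg
      have : (b:ℤ) * i < 0 := mul_neg_of_pos_of_neg (by exact_mod_cast hb) (by omega)
      omega
    · rw [Int.le_floor, le_div_iff₀ (by exact_mod_cast hb)]
      have : ((x:ℝ) - m) = ((b:ℤ) * i : ℤ) := by rw [← hi]; push_cast; ring
      push_cast at this
      nlinarith
  have hc := (Finset.card_le_card hsub).trans Finset.card_image_le
  rw [Int.card_Icc] at hc
  have hf0 : 0 ≤ ⌊L / (b:ℝ)⌋ := Int.floor_nonneg.2 (by positivity)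
  have : (s.card : ℤ) ≤ ⌊L / (b:ℝ)⌋ + 1 := by omega
  calc (s.card:ℝ) ≤ ((⌊L / (b:ℝ)⌋ + 1 : ℤ) : ℝ) := by exact_mod_cast this
    _ ≤ _ := by push_cast; linarith [Int.floor_le (L / (b:ℝ))]

/-- Reduced fractions `A/B` with `B ≤ X` and `B |Bγ - A| < 1`. -/
noncomputable def KS (γ : ℝ) (X : ℕ) : Finset (ℕ × ℤ) :=
  (Finset.Icc 1 X).biUnion (fun B => ((Finset.Icc (⌊(B:ℝ) * γ⌋ - 1) (⌊(B:ℝ) * γ⌋ + 2)).image
    (fun A => (B, A))).filter
    (fun x => IsCoprime (x.1:ℤ) x.2 ∧ (x.1:ℝ) * |(x.1:ℝ) * γ - (x.2:ℝ)| < 1))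

lemma mem_KS {γ : ℝ} {X B : ℕ} {A : ℤ} :
    (B, A) ∈ KS γ X ↔ 1 ≤ B ∧ B ≤ X ∧ IsCoprime (B:ℤ) A ∧ (B:ℝ) * |(B:ℝ) * γ - A| < 1 := by
  simp only [KS, Finset.mem_biUnion, Finset.mem_filter, Finset.mem_image, Finset.mem_Icc]
  constructor
  · rintro ⟨B', ⟨h1, h2⟩, ⟨A', hA, he⟩, hc, hlt⟩
    simp only [Prod.mk.injEq] at he
    obtain ⟨rfl, rfl⟩ := he
    exact ⟨h1, h2, hc, hlt⟩
  · rintro ⟨h1, h2, hc, hlt⟩
    refine ⟨B, ⟨h1, h2⟩, ⟨A, ?_, rfl⟩, hc, hlt⟩
    have hB : (1:ℝ) ≤ B := by exact_mod_cast h1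
    have h3 : |(B:ℝ) * γ - A| < 1 :=
      lt_of_le_of_lt (le_mul_of_one_le_left (abs_nonneg _) hB) hlt
    have h4 := abs_lt.1 h3
    have h5 := Int.floor_le ((B:ℝ) * γ)
    have h6 := Int.lt_floor_add_one ((B:ℝ) * γ)
    constructor
    · have : ((⌊(B:ℝ) * γ⌋ - 1 : ℤ):ℝ) ≤ A := by push_cast; linarith
      exact_mod_cast this
    · have : (A:ℝ) < ((⌊(B:ℝ) * γ⌋ + 2 : ℤ):ℝ) := by push_cast; linarith
      exact le_of_lt (by exact_mod_cast this)

lemma card_KS_le (γ : ℝ) (X : ℕ) : (KS γ X).card ≤ 9 * (Nat.log 2 X + 1) := by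
  have hmaps : ∀ x ∈ KS γ X, Nat.log 2 x.1 ∈ Finset.range (Nat.log 2 X + 1) := by
    rintro ⟨B, A⟩ hx
    obtain ⟨-, h2, -, -⟩ := mem_KS.1 hx
    exact Finset.mem_range.2 (Nat.lt_succ_of_le (Nat.log_mono_right h2))
  refine (Finset.card_le_mul_card_image_of_maps_to hmaps 9 ?_).trans (le_of_eq (by simp))
  intro j _
  rcases ((KS γ X).filter (fun x => Nat.log 2 x.1 = j)).eq_empty_or_nonempty with h0 | ⟨⟨B1, A1⟩, hx1⟩
  · simp [h0]
  simp only [Finset.mem_filter] at hx1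
  obtain ⟨hm1, hl1⟩ := hx1
  obtain ⟨hB1, -, hc1, hlt1⟩ := mem_KS.1 hm1
  have hrange : ∀ x ∈ (KS γ X).filter (fun x => Nat.log 2 x.1 = j),
      2^j ≤ x.1 ∧ x.1 < 2^(j+1) := by
    intro x hx
    simp only [Finset.mem_filter] at hx
    obtain ⟨B, A⟩ := x
    have h1 := (mem_KS.1 hx.1).1
    rw [← hx.2]
    exact ⟨Nat.pow_log_le_self 2 (by simp only at h1 ⊢; omega), Nat.lt_pow_succ_log_self one_lt_two _⟩
  obtain ⟨r1, r1'⟩ := hrange (B1, A1) (by simp [hm1, hl1])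
  have hinj : ∀ x ∈ (KS γ X).filter (fun x => Nat.log 2 x.1 = j),
      ∀ y ∈ (KS γ X).filter (fun x => Nat.log 2 x.1 = j),
      x.2 * (B1:ℤ) - A1 * (x.1:ℤ) = y.2 * (B1:ℤ) - A1 * (y.1:ℤ) → x = y := by
    intro x hx y hy he
    obtain ⟨a1, a2⟩ := hrange x hx
    obtain ⟨b1, b2⟩ := hrange y hy
    have e : (B1:ℤ) * (x.2 - y.2) = A1 * ((x.1:ℤ) - y.1) := by linarith
    have hdiv : (B1:ℤ) ∣ ((x.1:ℤ) - y.1) := hc1.dvd_of_dvd_mul_left ⟨_, e.symm⟩
    have h2 : (2:ℕ)^(j+1) = 2 * 2^j := by rw [pow_succ]; ring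
    simp only at r1 r1'
    have hz : (x.1:ℤ) - y.1 = 0 := by
      by_contra hne
      have := Int.natAbs_le_of_dvd_ne_zero hdiv hne
      omega
    have hB : x.1 = y.1 := by omega
    rw [hz, mul_zero] at e
    have hA : x.2 = y.2 := by
      rcases mul_eq_zero.1 e with h | h
      · omega
      · omega
    exact Prod.ext hB hA
  calc ((KS γ X).filter (fun x => Nat.log 2 x.1 = j)).card
      ≤ (Finset.Icc (-4:ℤ) 4).card := by
        refine Finset.card_le_card_of_injOn (fun x => x.2 * (B1:ℤ) - A1 * (x.1:ℤ)) ?_ ?_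
        · intro x hx
          obtain ⟨B, A⟩ := x
          obtain ⟨a1, a2⟩ := hrange (B, A) hx
          simp only [Finset.coe_filter, Set.mem_ofPred_eq] at hx
          obtain ⟨hB, -, -, hlt⟩ := mem_KS.1 hx.1
          simp only [Finset.coe_Icc, Set.mem_Icc]
          have hBr : (1:ℝ) ≤ B := by exact_mod_cast hB
          have hB1r : (1:ℝ) ≤ B1 := by exact_mod_cast hB1
          simp only at a1 a2 r1 r1'
          have h2 : (2:ℕ)^(j+1) = 2 * 2^j := by rw [pow_succ]; ring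
          have c1 : (B1:ℝ) ≤ 2 * B := by exact_mod_cast (by omega : B1 ≤ 2 * B)
          have c2 : (B:ℝ) ≤ 2 * B1 := by exact_mod_cast (by omega : B ≤ 2 * B1)
          have e : ((A * (B1:ℤ) - A1 * (B:ℤ) : ℤ):ℝ)
              = (B1:ℝ) * ((A:ℝ) - B * γ) + B * ((B1:ℝ) * γ - A1) := by push_cast; ring
          have u1 : |(B1:ℝ) * ((A:ℝ) - B * γ)| ≤ 2 := by
            rw [abs_mul, abs_of_nonneg (by linarith : (0:ℝ) ≤ B1), abs_sub_comm]
            have := mul_le_mul_of_nonneg_right c1 (abs_nonneg ((B:ℝ) * γ - A))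
            nlinarith
          have u2 : |(B:ℝ) * ((B1:ℝ) * γ - A1)| ≤ 2 := by
            rw [abs_mul, abs_of_nonneg (by linarith : (0:ℝ) ≤ B)]
            have := mul_le_mul_of_nonneg_right c2 (abs_nonneg ((B1:ℝ) * γ - A1))
            nlinarith
          have hfin : |((A * (B1:ℤ) - A1 * (B:ℤ) : ℤ):ℝ)| ≤ 4 := by
            rw [e]; exact (abs_add_le _ _).trans (by linarith)
          obtain ⟨f1, f2⟩ := abs_le.1 hfin
          exact ⟨by exact_mod_cast f1, by exact_mod_cast f2⟩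
        · intro x hx y hy he
          exact hinj x (by simpa using hx) y (by simpa using hy) he
    _ = 9 := by simp

/-- The reduced fraction `-k/n`, as a pair (denominator, numerator). -/
def frac (k : ℤ) (n : ℕ) : ℕ × ℤ := (n / Int.gcd k n, -(k / (Int.gcd k n : ℤ)))

lemma frac_spec (k : ℤ) (n : ℕ) (hn : 0 < n) :
    1 ≤ (frac k n).1 ∧ (frac k n).1 ≤ n ∧ IsCoprime ((frac k n).1 : ℤ) (frac k n).2 ∧
    k = -((Int.gcd k n : ℤ) * (frac k n).2) ∧ (n:ℤ) = (Int.gcd k n : ℤ) * (frac k n).1 ∧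
    0 < Int.gcd k n := by
  set g := Int.gcd k n with hg
  have hgpos : 0 < g := Int.gcd_pos_iff.2 (Or.inr (by omega))
  have hdn : g ∣ n := by exact_mod_cast Int.gcd_dvd_right k (n:ℤ)
  have hdk : (g:ℤ) ∣ k := Int.gcd_dvd_left k (n:ℤ)
  simp only [frac, ← hg]
  refine ⟨Nat.div_pos (Nat.le_of_dvd hn hdn) hgpos, Nat.div_le_self _ _, ?_, ?_, ?_, hgpos⟩
  · rw [Int.natCast_div, IsCoprime.neg_right_iff, Int.isCoprime_iff_gcd_eq_one, Int.gcd_comm]
    exact Int.gcd_div_gcd_div_gcd (hg ▸ hgpos)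
  · rw [mul_neg, neg_neg, Int.mul_ediv_cancel' hdk]
  · exact_mod_cast (Nat.mul_div_cancel' hdn).symm

lemma frac_eq_of_mul_eq {k A : ℤ} {n B : ℕ} (hn : 0 < n) (hB : 0 < B)
    (hc : IsCoprime (B:ℤ) A) (h : k * B + A * n = 0) : frac k n = (B, A) := by
  obtain ⟨h1, -, hco, hk, hn', hg⟩ := frac_spec k n hn
  set B' := (frac k n).1
  set A' := (frac k n).2
  have e : (B:ℤ) * A' = A * B' := by
    have : (Int.gcd k n : ℤ) * (A * B' - B * A') = 0 := by
      linear_combination h - (B:ℤ) * hk - A * hn'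
    rcases mul_eq_zero.1 this with h0 | h0
    · omega
    · linarith
  have d1 : (B:ℤ) ∣ (B':ℤ) := hc.dvd_of_dvd_mul_left ⟨A', e.symm⟩
  have d2 : (B':ℤ) ∣ (B:ℤ) := hco.dvd_of_dvd_mul_right ⟨A, by linarith⟩
  have hBB : B' = B := Nat.dvd_antisymm (Int.natCast_dvd_natCast.1 d2) (Int.natCast_dvd_natCast.1 d1)
  have hAA : A' = A := by
    rw [hBB] at e
    have hB0 : (B:ℤ) ≠ 0 := by omega
    exact mul_left_cancel₀ hB0 (by linarith)
  exact Prod.ext hBB hAA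

/-- Dirichlet approximation as a member of `KS`. -/
lemma exists_approx (γ : ℝ) (N0 : ℕ) (hN : 0 < N0) :
    ∃ (b : ℕ) (a : ℤ), 1 ≤ b ∧ b ≤ N0 ∧ IsCoprime (b:ℤ) a ∧
      |(b:ℝ) * γ - a| ≤ 1 / ((N0:ℝ) + 1) := by
  obtain ⟨x, hx, hd⟩ := Real.exists_rat_abs_sub_le_and_den_le γ hN
  refine ⟨x.den, x.num, x.pos, hd, ?_, ?_⟩
  · rw [Int.isCoprime_iff_gcd_eq_one, Int.gcd_comm]
    exact_mod_cast x.reduced
  · have hpos : (0:ℝ) < x.den := by exact_mod_cast x.pos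
    have e : (x.den:ℝ) * γ - x.num = (x.den:ℝ) * (γ - x) := by
      rw [Rat.cast_def x]; field_simp
    rw [e, abs_mul, abs_of_pos hpos]
    calc (x.den:ℝ) * |γ - x| ≤ (x.den:ℝ) * (1 / (((N0:ℝ) + 1) * x.den)) :=
          mul_le_mul_of_nonneg_left hx hpos.le
      _ = _ := by field_simp

/-- Few approximate coincidences whose fraction lies outside `KS`. -/
lemma hit_count (γ : ℝ) (N : ℕ) (hN : 1 ≤ N) (t : ℝ) (ht : 0 < t) (X : ℕ) (hX : 8 * N ≤ X)
    (s : Finset (ℕ × ℤ))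
    (hs : ∀ x ∈ s, 1 ≤ x.1 ∧ x.1 ≤ N ∧ |(x.2:ℝ) + γ * x.1| < t ∧ frac x.2 x.1 ∉ KS γ X) :
    (s.card : ℝ) ≤ 24 * t * N := by
  have hNr : (1:ℝ) ≤ N := by exact_mod_cast hN
  rcases le_or_gt (1/4) t with ht4 | ht4
  · have h : ∀ n ∈ Finset.Icc 1 N, (((s.filter (fun x => x.1 = n)).card : ℕ) : ℝ) ≤ 2 * t + 1 := by
      intro n _
      have hc : (s.filter (fun x => x.1 = n)).card
          = ((s.filter (fun x => x.1 = n)).image (fun x => x.2)).card := by
        refine (Finset.card_image_of_injOn ?_).symm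
        intro x hx y hy he
        simp only [Finset.coe_filter, Set.mem_ofPred_eq] at hx hy
        exact Prod.ext (hx.2.trans hy.2.symm) he
      rw [hc]
      apply card_int_near _ (γ * n) t ht.le
      intro k hk
      simp only [Finset.mem_image, Finset.mem_filter] at hk
      obtain ⟨x, ⟨hx, rfl⟩, rfl⟩ := hk
      exact (hs x hx).2.2.1
    rw [Finset.card_eq_sum_card_fiberwise (t := Finset.Icc 1 N) (f := fun x => x.1)
      (fun x hx => Finset.mem_Icc.2 ⟨(hs x hx).1, (hs x hx).2.1⟩)]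
    push_cast
    refine (Finset.sum_le_sum h).trans ?_
    simp only [Finset.sum_const, Nat.card_Icc, Nat.add_sub_cancel, nsmul_eq_mul]
    nlinarith
  -- now `t < 1/4`
  have main : ∀ N0 : ℕ, 0 < N0 → N0 ≤ 8 * N → (N0:ℝ) * t ≤ 1 →
      ∃ (b : ℕ) (δ : ℝ), 1 ≤ b ∧ b ≤ N0 ∧ |δ| ≤ 1 / ((N0:ℝ) + 1) ∧
      ((s.card : ℝ) ≤ 2 * ((b:ℝ) * t + N * |δ|) * ((N:ℝ) / b + 1)) ∧
      (δ ≠ 0 → (s.card : ℝ) ≤ 2 * ((b:ℝ) * t + N * |δ|) * (2 * t / |δ| + 1)) ∧
      ((b:ℝ) * t + N * |δ| ≤ 1 → s = ∅) := by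
    intro N0 hN0 hN08 hN0t
    obtain ⟨b, a, hb, hbN, hco, hδ⟩ := exists_approx γ N0 hN0
    set δ := (b:ℝ) * γ - a with hδdef
    have hbr : (1:ℝ) ≤ b := by exact_mod_cast hb
    have hbN0 : (b:ℝ) ≤ N0 := by exact_mod_cast hbN
    have hmem : (b, a) ∈ KS γ X := by
      refine mem_KS.2 ⟨hb, (hbN.trans hN08).trans hX, hco, ?_⟩
      calc (b:ℝ) * |(b:ℝ) * γ - a| ≤ (N0:ℝ) * (1 / ((N0:ℝ) + 1)) :=
            mul_le_mul hbN0 hδ (abs_nonneg _) (by positivity)
        _ < 1 := by rw [mul_one_div, div_lt_one (by positivity)]; linarith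
    set Λ := (b:ℝ) * t + N * |δ| with hΛ
    let J : ℕ × ℤ → ℤ := fun x => x.2 * (b:ℤ) + a * (x.1:ℤ)
    have hJ : ∀ x ∈ s, J x ≠ 0 ∧ |((J x:ℤ):ℝ)| < Λ ∧ |((J x:ℤ):ℝ) + (x.1:ℝ) * δ| < (b:ℝ) * t := by
      intro x hx
      obtain ⟨h1, h2, h3, h4⟩ := hs x hx
      have e : ((J x:ℤ):ℝ) + (x.1:ℝ) * δ = ((x.2:ℝ) + γ * x.1) * b := by
        simp only [J, hδdef]; push_cast; ring
      have hb3 : |((J x:ℤ):ℝ) + (x.1:ℝ) * δ| < (b:ℝ) * t := by
        rw [e, abs_mul, abs_of_pos (by linarith : (0:ℝ) < b), mul_comm]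
        exact mul_lt_mul_of_pos_left h3 (by linarith)
      refine ⟨?_, ?_, hb3⟩
      · intro h0
        apply h4
        rw [frac_eq_of_mul_eq (by omega) (by omega) hco (show x.2 * (b:ℤ) + a * (x.1:ℤ) = 0 from h0)]
        exact hmem
      · have hn : |(x.1:ℝ) * δ| ≤ N * |δ| := by
          rw [abs_mul, abs_of_nonneg (Nat.cast_nonneg _)]
          exact mul_le_mul_of_nonneg_right (by exact_mod_cast h2) (abs_nonneg _)
        have := abs_sub (((J x:ℤ):ℝ) + (x.1:ℝ) * δ) ((x.1:ℝ) * δ)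
        simp only [add_sub_cancel_right] at this
        linarith
    have huniq : ∀ x ∈ s, ∀ y ∈ s, x.1 = y.1 → x = y := by
      intro x hx y hy he
      refine Prod.ext he ?_
      have h1 := abs_lt.1 (hs x hx).2.2.1
      have h2 := abs_lt.1 (hs y hy).2.2.1
      rw [he] at h1
      have c1 : ((x.2 - y.2 : ℤ):ℝ) < 1 := by push_cast; linarith
      have c2 : (-1:ℝ) < ((x.2 - y.2 : ℤ):ℝ) := by push_cast; linarith
      have : x.2 - y.2 < 1 := by exact_mod_cast c1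
      have : -1 < x.2 - y.2 := by exact_mod_cast c2
      omega
    -- one fibre of `J`
    have hfib : ∀ j : ℤ, ∀ L : ℝ, 0 ≤ L →
        (∀ x ∈ s, ∀ y ∈ s, J x = j → J y = j → (x.1:ℝ) - y.1 ≤ L) →
        (((s.filter (fun x => J x = j)).card : ℕ):ℝ) ≤ L / b + 1 := by
      intro j L hL hd
      have hc : (s.filter (fun x => J x = j)).card
          = ((s.filter (fun x => J x = j)).image (fun x => (x.1:ℤ))).card := by
        refine (Finset.card_image_of_injOn ?_).symm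
        intro x hx y hy he
        simp only [Finset.coe_filter, Set.mem_ofPred_eq] at hx hy
        exact huniq x hx.1 y hy.1 (by simpa using he)
      rw [hc]
      apply card_progression _ b hb L hL
      intro u hu w hw
      simp only [Finset.mem_image, Finset.mem_filter] at hu hw
      obtain ⟨x, ⟨hx, hxj⟩, rfl⟩ := hu
      obtain ⟨y, ⟨hy, hyj⟩, rfl⟩ := hw
      refine ⟨?_, by simpa using hd x hx y hy hxj hyj⟩
      apply hco.dvd_of_dvd_mul_left
      refine ⟨y.2 - x.2, ?_⟩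
      simp only [J] at hxj hyj
      linear_combination hxj - hyj
    have hJset : (((s.image J).card : ℕ):ℝ) ≤ 2 * Λ := by
      rcases s.eq_empty_or_nonempty with h0 | ⟨x0, hx0⟩
      · simp [h0]; positivity
      have hΛ0 : 0 ≤ Λ := by positivity
      have hsub : s.image J ⊆ (Finset.Icc (-⌊Λ⌋) ⌊Λ⌋).erase 0 := by
        intro j hj
        simp only [Finset.mem_image] at hj
        obtain ⟨x, hx, rfl⟩ := hj
        obtain ⟨h1, h2, -⟩ := hJ x hx
        obtain ⟨u1, u2⟩ := abs_lt.1 h2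
        have v1 : J x ≤ ⌊Λ⌋ := Int.le_floor.2 u2.le
        have v2 : -(J x) ≤ ⌊Λ⌋ := Int.le_floor.2 (by push_cast; linarith)
        simp only [Finset.mem_erase, Finset.mem_Icc]
        exact ⟨h1, by omega, v1⟩
      have hc := Finset.card_le_card hsub
      have hf0 : 0 ≤ ⌊Λ⌋ := Int.floor_nonneg.2 hΛ0
      rw [Finset.card_erase_of_mem (by simp [hf0]), Int.card_Icc] at hc
      have : ((s.image J).card : ℤ) ≤ 2 * ⌊Λ⌋ := by omega
      calc (((s.image J).card : ℕ):ℝ) ≤ ((2 * ⌊Λ⌋ : ℤ):ℝ) := by exact_mod_cast this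
        _ ≤ _ := by push_cast; linarith [Int.floor_le Λ]
    have htot : ∀ L : ℝ, 0 ≤ L →
        (∀ x ∈ s, ∀ y ∈ s, J x = J y → (x.1:ℝ) - y.1 ≤ L) →
        (s.card:ℝ) ≤ 2 * Λ * (L / b + 1) := by
      intro L hL hd
      rw [Finset.card_eq_sum_card_fiberwise (t := s.image J) (f := J)
        (fun x hx => Finset.mem_image_of_mem _ hx)]
      push_cast
      refine (Finset.sum_le_sum (fun j _ => hfib j L hL
        (fun x hx y hy a b => hd x hx y hy (a.trans b.symm)))).trans ?_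
      simp only [Finset.sum_const, nsmul_eq_mul]
      exact mul_le_mul_of_nonneg_right hJset (by positivity)
    refine ⟨b, δ, hb, hbN, hδ, ?_, ?_, ?_⟩
    · apply htot (N:ℝ) (by positivity)
      intro x hx y _ _
      have : (x.1:ℝ) ≤ N := by exact_mod_cast (hs x hx).2.1
      have : (0:ℝ) ≤ y.1 := Nat.cast_nonneg _
      linarith
    · intro hδ0
      have hp : 0 < |δ| := abs_pos.2 hδ0
      have h := htot (2 * (b:ℝ) * t / |δ|) (by positivity) ?_
      · have e : 2 * (b:ℝ) * t / |δ| / b = 2 * t / |δ| := by field_simp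
        rwa [e] at h
      intro x hx y hy he
      have a1 := (hJ x hx).2.2
      have a2 := (hJ y hy).2.2
      rw [he] at a1
      have : |((x.1:ℝ) - y.1) * δ| ≤ 2 * b * t := by
        have h := abs_sub ((((J y):ℤ):ℝ) + (x.1:ℝ) * δ) (((J y:ℤ):ℝ) + (y.1:ℝ) * δ)
        have e : (((J y):ℤ):ℝ) + (x.1:ℝ) * δ - ((((J y):ℤ):ℝ) + (y.1:ℝ) * δ)
            = ((x.1:ℝ) - y.1) * δ := by ring
        rw [e] at h; linarith
      rw [abs_mul] at this
      rw [le_div_iff₀ hp]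
      exact le_trans (mul_le_mul_of_nonneg_right (le_abs_self _) hp.le) this
    · intro hΛ1
      rw [Finset.eq_empty_iff_forall_notMem]
      intro x hx
      obtain ⟨h1, h2, -⟩ := hJ x hx
      have : (1:ℝ) ≤ |((J x:ℤ):ℝ)| := by
        rw [← Int.cast_abs]; exact_mod_cast Int.one_le_abs h1
      linarith
  rcases le_or_gt (1/8) (t * N) with htN | htN
  · have h4 : 4 ≤ 1 / t := by rw [le_div_iff₀ ht]; linarith
    set N0 := ⌊1 / t⌋₊ with hN0def
    have hN0le : (N0:ℝ) ≤ 1 / t := Nat.floor_le (by positivity)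
    have hN0lt : 1 / t < (N0:ℝ) + 1 := Nat.lt_floor_add_one _
    have hN0pos : 0 < N0 := Nat.floor_pos.2 (by linarith)
    have hN0t : (N0:ℝ) * t ≤ 1 := by rwa [le_div_iff₀ ht] at hN0le
    have hN08 : N0 ≤ 8 * N := by
      have : (N0:ℝ) ≤ ((8 * N : ℕ):ℝ) := by
        refine hN0le.trans ?_
        push_cast; rw [div_le_iff₀ ht]; linarith
      exact_mod_cast this
    obtain ⟨b, δ, hb, hbN, hδ, hA, hB, -⟩ := main N0 hN0pos hN08 hN0t
    have hbr : (1:ℝ) ≤ b := by exact_mod_cast hb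
    have hbt : (b:ℝ) * t ≤ 1 :=
      le_trans (mul_le_mul_of_nonneg_right (by exact_mod_cast hbN) ht.le) hN0t
    have hδt : |δ| ≤ t := by
      refine hδ.trans ?_
      rw [div_le_iff₀ (by positivity)]
      rw [div_lt_iff₀ ht] at hN0lt
      linarith
    have hbN' : (b:ℝ) * t * ((N:ℝ) / b + 1) ≤ t * N + 1 := by
      have : (b:ℝ) * t * ((N:ℝ) / b) = t * N := by field_simp
      nlinarith
    rcases eq_or_ne δ 0 with h0 | h0
    · rw [h0, abs_zero, mul_zero, add_zero] at hA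
      linarith
    · rcases le_total ((N:ℝ) / b + 1) (2 * t / |δ| + 1) with hle | hle
      · have h2 : (N:ℝ) * |δ| * ((N:ℝ) / b + 1) ≤ 2 * t * N + N * t := by
          refine (mul_le_mul_of_nonneg_left hle (by positivity)).trans ?_
          have : (N:ℝ) * |δ| * (2 * t / |δ|) = 2 * t * N := by
            have := abs_pos.2 h0; field_simp
          have : (N:ℝ) * |δ| ≤ N * t := mul_le_mul_of_nonneg_left hδt (by positivity)
          linarith
        linarith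
      · have hB' := hB h0
        have h2 : (N:ℝ) * |δ| * (2 * t / |δ| + 1) ≤ 2 * t * N + N * t := by
          have : (N:ℝ) * |δ| * (2 * t / |δ|) = 2 * t * N := by
            have := abs_pos.2 h0; field_simp
          have : (N:ℝ) * |δ| ≤ N * t := mul_le_mul_of_nonneg_left hδt (by positivity)
          linarith
        have h3 : (b:ℝ) * t * (2 * t / |δ| + 1) ≤ (b:ℝ) * t * ((N:ℝ) / b + 1) :=
          mul_le_mul_of_nonneg_left hle (by positivity)
        linarith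
  · obtain ⟨b, δ, hb, hbN, hδ, -, -, hC⟩ := main (4 * N) (by omega) (by omega)
      (by push_cast; linarith)
    have hb' : (b:ℝ) * t ≤ 4 * N * t :=
      mul_le_mul_of_nonneg_right (by exact_mod_cast hbN) ht.le
    have hd : (N:ℝ) * |δ| ≤ 1/4 := by
      refine (mul_le_mul_of_nonneg_left hδ (by positivity)).trans ?_
      rw [mul_one_div, div_le_iff₀ (by positivity)]
      push_cast; linarith
    rw [hC (by linarith)]
    simp; positivity

end Vale.Agent.P028
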