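import Vale.Agent.P028.ChargeSmall

namespace Vale.Agent.P028

open Finset MeasureTheory
open scoped Classical

/-- A value kept only when the condition holds. -/
noncomputable def ind (P : Prop) (x : ℝ) : ℝ := if P then x else 0

lemma psi_half {ψ : ℕ → ℝ} {q : ℕ} (h : OK ψ q) : 2 * ψ q ≤ 1 := by
  obtain ⟨h16, -, -, h⟩ := h
  have : 1 / (q:ℝ) ≤ 1 / 16 := one_div_le_one_div_of_le (by norm_num) (by exact_mod_cast h16)
  linarith

/-- The second moment bound. -/
lemma second_moment : ∃ C : ℝ, 0 < C ∧ ∀ (γ : ℝ) (ψ : ℕ → ℝ) (F : Finset ℕ), (∀ x ∈ F, OK ψ x) →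
    ∑ q ∈ F, ∑ r ∈ F, ov γ ψ q r
      ≤ C * ((∑ q ∈ F, lam q * ψ q) + (∑ q ∈ F, lam q * ψ q) ^ 2) := by
  obtain ⟨c1, hc1, h1⟩ := L1
  obtain ⟨c2, hc2, h2⟩ := S1
  obtain ⟨c3, hc3, h3⟩ := L2q
  obtain ⟨c4, hc4, h4⟩ := L2r
  obtain ⟨c5, hc5, h5⟩ := S2q
  obtain ⟨c6, hc6, h6⟩ := S2r
  obtain ⟨c7, hc7, h7⟩ := S3
  set c := c1 + c2 + c3 + c4 + c5 + c6 + c7
  have hc : 0 ≤ c := by positivity
  refine ⟨2 + 2 * (c * Real.exp 2) + 2 * (12 * Real.exp 4), by positivity, fun γ ψ F hF => ?_⟩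
  set K := ∑ q ∈ F, lam q * ψ q with hK
  have hψ : ∀ x ∈ F, 0 ≤ ψ x := fun x hx => (hF x hx).2.2.1
  have hpos : ∀ x ∈ F, 0 < x := fun x hx => by have := (hF x hx).1; omega
  have hov : ∀ q r, 0 ≤ ov γ ψ q r := fun q r => measureReal_nonneg
  have hcomm : ∀ q r, ov γ ψ q r = ov γ ψ r q := fun q r => by unfold ov; rw [Set.inter_comm]
  have hdiag : ∑ q ∈ F, ov γ ψ q q ≤ 2 * K := by
    rw [hK, Finset.mul_sum]
    refine Finset.sum_le_sum fun q hq => ?_
    unfold ov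
    rw [Set.inter_self]
    refine (volume_real_SSet_le (hpos q hq) (hψ q hq) (psi_half (hF q hq))).trans (le_of_eq ?_)
    ring
  set U := ∑ q ∈ F, ∑ r ∈ F, (if q < r then ov γ ψ q r else 0) with hU
  have hsplit : ∑ q ∈ F, ∑ r ∈ F, ov γ ψ q r = (∑ q ∈ F, ov γ ψ q q) + 2 * U := by
    have e : ∀ q ∈ F, ∑ r ∈ F, ov γ ψ q r = ov γ ψ q q + ((∑ r ∈ F, (if q < r then ov γ ψ q r else 0))
        + ∑ r ∈ F, (if r < q then ov γ ψ r q else 0)) := by
      intro q hq
      rw [← Finset.sum_add_distrib]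
      have e2 : ov γ ψ q q = ∑ r ∈ F, (if q = r then ov γ ψ q r else 0) := by
        rw [Finset.sum_ite_eq, if_pos hq]
      rw [e2, ← Finset.sum_add_distrib]
      refine Finset.sum_congr rfl fun r _ => ?_
      rcases lt_trichotomy q r with h | h | h
      · simp [h, h.ne, h.not_gt]
      · simp [h]
      · simp [h, h.ne', h.not_gt, hcomm q r]
    rw [Finset.sum_congr rfl e, Finset.sum_add_distrib, Finset.sum_add_distrib,
      Finset.sum_comm (f := fun q r => if r < q then ov γ ψ r q else 0)]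
    ring
  have hUle : U ≤ 12 * Real.exp 4 * K ^ 2 + c * Real.exp 2 * K := by
    have hpt : ∀ q ∈ F, ∀ r ∈ F, (if q < r then ov γ ψ q r else 0) ≤
        12 * Real.exp 4 * ((lam q * ψ q) * (lam r * ψ r))
        + ((ind (q < r ∧ Bad ψ q r ∧ (1 ≤ tt ψ q r ∧ Big q r)) (ov γ ψ q r)
        + ind (q < r ∧ Bad ψ q r ∧ (tt ψ q r < 1 ∧ Big q r ∧ (cv q r : ℝ) ≤ (cu q r : ℝ) * RR q r)) (ov γ ψ q r)
        + ind (q < r ∧ Bad ψ q r ∧ (1 ≤ tt ψ q r ∧ ¬ Big q r ∧ Ab q ≤ Ab r)) (ov γ ψ q r)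
        + ind (q < r ∧ Bad ψ q r ∧ (tt ψ q r < 1 ∧ ¬ Big q r ∧
            (cv q r : ℝ) ≤ (cu q r : ℝ) * RR q r ∧ Ab q ≤ Ab r)) (ov γ ψ q r))
        + (ind (q < r ∧ Bad ψ q r ∧ (1 ≤ tt ψ q r ∧ ¬ Big q r ∧ Ab r ≤ Ab q)) (ov γ ψ q r)
        + ind (q < r ∧ Bad ψ q r ∧ (tt ψ q r < 1 ∧ ¬ Big q r ∧ Ab r ≤ Ab q)) (ov γ ψ q r)
        + ind (q < r ∧ Bad ψ q r ∧ (tt ψ q r < 1 ∧ (cu q r : ℝ) * RR q r < (cv q r : ℝ))) (ov γ ψ q r))) := by
      intro q hq r hr
      have h0 : 0 ≤ 12 * Real.exp 4 * ((lam q * ψ q) * (lam r * ψ r)) := by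
        have := lam_nonneg q; have := lam_nonneg r; have := hψ q hq; have := hψ r hr
        positivity
      have hx := hov q r
      by_cases hqr : q < r
      swap
      · simp [ind, hqr, h0]
      rw [if_pos hqr]
      by_cases hb : Bad ψ q r
      swap
      · have := ov_le_good (γ := γ) (pairFacts (hpos q hq) hqr) (hψ q hq) (hψ r hr) (not_lt.1 hb)
        simp only [ind, hqr, hb, false_and, and_false, if_false]
        linarith
      simp only [ind, hqr, hb, true_and]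
      rcases le_or_gt 1 (tt ψ q r) with ht | ht
      · have hn : ¬ tt ψ q r < 1 := not_lt.2 ht
        by_cases hbig : Big q r
        · simp [ht, hn, hbig, h0]
        · rcases le_total (Ab q) (Ab r) with hA | hA <;>
            simp only [ht, hn, hbig, hA, true_and, false_and, not_false_eq_true, and_true, and_false, if_true, if_false] <;>
            split_ifs <;> linarith
      · have hn : ¬ 1 ≤ tt ψ q r := not_le.2 ht
        rcases le_or_gt (cv q r : ℝ) ((cu q r : ℝ) * RR q r) with hR | hR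
        · by_cases hbig : Big q r
          · simp only [ht, hn, hbig, hR, not_true, true_and, and_true, false_and, and_false, if_true, if_false]
            split_ifs <;> linarith
          · rcases le_total (Ab q) (Ab r) with hA | hA <;>
              simp only [ht, hn, hbig, hR, hA, true_and, false_and, not_false_eq_true, and_true, and_false, if_true, if_false] <;>
              split_ifs <;> linarith
        · simp only [ht, hn, hR, true_and, false_and, and_true, if_true, if_false]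
          split_ifs <;> linarith
    refine (Finset.sum_le_sum fun q hq => Finset.sum_le_sum fun r hr => hpt q hq r hr).trans ?_
    simp only [Finset.sum_add_distrib, ← Finset.mul_sum]
    rw [← hK, ← Finset.sum_mul, ← hK, ← pow_two]
    refine add_le_add le_rfl ?_
    have habove : ∀ (cl : ℕ → ℕ → Prop) (cc : ℝ),
        (∀ q ∈ F, ∑ r ∈ above ψ F q (cl q), ov γ ψ q r ≤ cc * ψ q / (Ab q : ℝ)) →
        ∑ q ∈ F, ∑ r ∈ F, ind (q < r ∧ Bad ψ q r ∧ cl q r) (ov γ ψ q r)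
          ≤ cc * ∑ q ∈ F, ψ q / (Ab q : ℝ) := by
      intro cl cc h
      rw [Finset.mul_sum]
      refine Finset.sum_le_sum fun q hq => ?_
      rw [← mul_div_assoc]
      refine le_trans (le_of_eq ?_) (h q hq)
      simp only [ind, above, Finset.sum_filter]
      exact Finset.sum_congr rfl fun r _ => by split_ifs <;> rfl
    have hbelow : ∀ (cl : ℕ → ℕ → Prop) (cc : ℝ),
        (∀ r ∈ F, ∑ q ∈ below ψ F r (fun q => cl q r), ov γ ψ q r ≤ cc * ψ r / (Ab r : ℝ)) →
        ∑ q ∈ F, ∑ r ∈ F, ind (q < r ∧ Bad ψ q r ∧ cl q r) (ov γ ψ q r)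
          ≤ cc * ∑ q ∈ F, ψ q / (Ab q : ℝ) := by
      intro cl cc h
      rw [Finset.sum_comm, Finset.mul_sum]
      refine Finset.sum_le_sum fun r hr => ?_
      rw [← mul_div_assoc]
      refine le_trans (le_of_eq ?_) (h r hr)
      simp only [ind, below, Finset.sum_filter]
      exact Finset.sum_congr rfl fun r _ => by split_ifs <;> rfl
    have hsum : ∑ q ∈ F, ψ q / (Ab q : ℝ) ≤ Real.exp 2 * K := by
      rw [hK, Finset.mul_sum]
      refine Finset.sum_le_sum fun q hq => ?_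
      have hl := mul_le_mul_of_nonneg_left (lam_lower (hpos q hq))
        (mul_nonneg (Real.exp_pos 2).le (hψ q hq))
      refine le_trans (le_of_eq ?_) (hl.trans (le_of_eq (by ring)))
      field_simp
    have a1 := habove _ c1 (h1 γ ψ F hF)
    have a2 := habove _ c2 (h2 γ ψ F hF)
    have a3 := habove _ c3 (h3 γ ψ F hF)
    have a5 := habove _ c5 (h5 γ ψ F hF)
    have a4 := hbelow (fun q r => 1 ≤ tt ψ q r ∧ ¬ Big q r ∧ Ab r ≤ Ab q) c4 (h4 γ ψ F hF)
    have a6 := hbelow (fun q r => tt ψ q r < 1 ∧ ¬ Big q r ∧ Ab r ≤ Ab q) c6 (h6 γ ψ F hF)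
    have a7 := hbelow (fun q r => tt ψ q r < 1 ∧ (cu q r : ℝ) * RR q r < (cv q r : ℝ)) c7 (h7 γ ψ F hF)
    have hf : c * ∑ q ∈ F, ψ q / (Ab q : ℝ) ≤ c * Real.exp 2 * K := by
      rw [mul_assoc]; exact mul_le_mul_of_nonneg_left hsum hc
    simp only [c] at hf ⊢
    linarith
  have hK0 : 0 ≤ K := Finset.sum_nonneg fun q hq => mul_nonneg (lam_nonneg q) (hψ q hq)
  have he : 0 ≤ c * Real.exp 2 := by positivity
  have := Real.exp_pos 4
  rw [hsplit]
  nlinarith [mul_nonneg he (sq_nonneg K), mul_nonneg this.le hK0, sq_nonneg K]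

end Vale.Agent.P028
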