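import Vale.Agent.P028.Tail

namespace Vale.Agent.P028

open Finset
open scoped Classical

/-- Logarithm of the part of `n` composed of the primes in `P`. -/
noncomputable def vlog (P : Finset ℕ) (n : ℕ) : ℝ :=
  ∑ p ∈ P, (n.factorization p : ℝ) * Real.log p

lemma vlog_nonneg (P : Finset ℕ) (n : ℕ) : 0 ≤ vlog P n :=
  Finset.sum_nonneg fun p _ => mul_nonneg (Nat.cast_nonneg _) (Real.log_natCast_nonneg p)

lemma filter_dvd_eq_image (N p : ℕ) (hp : 0 < p) :
    (Finset.Icc 1 N).filter (fun n => p ∣ n) = (Finset.Icc 1 (N / p)).image (fun m => p * m) := by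
  ext n
  simp only [Finset.mem_filter, Finset.mem_Icc, Finset.mem_image]
  constructor
  · rintro ⟨⟨h1, h2⟩, k, rfl⟩
    refine ⟨k, ⟨?_, ?_⟩, rfl⟩
    · rcases Nat.eq_zero_or_pos k with h | h
      · simp [h] at h1
      · exact h
    · rw [Nat.le_div_iff_mul_le hp]; linarith
  · rintro ⟨m, ⟨h1, h2⟩, rfl⟩
    rw [Nat.le_div_iff_mul_le hp] at h2
    exact ⟨⟨Nat.mul_pos hp h1, by linarith⟩, dvd_mul_right _ _⟩

lemma smooth_sum_le (P : Finset ℕ) : ∀ (s : ℝ), 0 ≤ s → (∀ p ∈ P, p.Prime) →
    (∀ p ∈ P, s * Real.log p ≤ 1/4) → ∀ N : ℕ,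
    ∑ n ∈ Finset.Icc 1 N, Real.exp (s * vlog P n)
      ≤ (N:ℝ) * Real.exp (6 * s * ∑ p ∈ P, Real.log p / p) := by
  induction P using Finset.induction_on with
  | empty => intro s _ _ _ N; simp [vlog]
  | insert p P hnot ih =>
    intro s hs hP hsl N
    have hp : p.Prime := hP p (Finset.mem_insert_self _ _)
    have ih' := ih s hs (fun q hq => hP q (Finset.mem_insert_of_mem hq))
      (fun q hq => hsl q (Finset.mem_insert_of_mem hq))
    set y := Real.exp (s * Real.log p) with hy
    set C := Real.exp (6 * s * ∑ q ∈ P, Real.log q / q) with hC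
    have hlp : 0 ≤ Real.log p := Real.log_natCast_nonneg p
    have hy1 : 1 ≤ y := Real.one_le_exp (by positivity)
    have hy2 : y ≤ 4/3 := by
      have h1 : y ≤ Real.exp (1/4) := Real.exp_le_exp.2 (hsl p (Finset.mem_insert_self _ _))
      have h2 : Real.exp (1/4 : ℝ) ≤ 1 / (1 - 1/4) := Real.exp_bound_div_one_sub_of_interval
        (by norm_num) (by norm_num)
      linarith [h2, (by norm_num : (1:ℝ) / (1 - 1/4) = 4/3)]
    have hyl : y - 1 ≤ 2 * (s * Real.log p) := by
      have h0 : 0 ≤ s * Real.log p := by positivity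
      have h1 := hsl p (Finset.mem_insert_self _ _)
      have h := Real.abs_exp_sub_one_le (x := s * Real.log p) (by rw [abs_of_nonneg h0]; linarith)
      rw [abs_of_nonneg h0] at h
      exact (le_abs_self _).trans h
    have hp2 : (2:ℝ) ≤ p := by exact_mod_cast hp.two_le
    have hpy : 0 < (p:ℝ) - y := by linarith
    set d := (y - 1) * C / ((p:ℝ) - y) with hd
    have hC0 : 0 < C := Real.exp_pos _
    have hd0 : 0 ≤ d := by
      apply div_nonneg (mul_nonneg (by linarith) hC0.le) hpy.le
    let f : ℕ → ℝ := fun n => Real.exp (s * vlog P n)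
    let f' : ℕ → ℝ := fun n => Real.exp (s * vlog (insert p P) n)
    have hins : ∀ n, f' n = Real.exp (s * ((n.factorization p:ℝ) * Real.log p)) * f n := by
      intro n
      simp only [f, f', vlog, Finset.sum_insert hnot, mul_add, Real.exp_add]
    have hmul : ∀ m, 1 ≤ m → f (p * m) = f m ∧ f' (p * m) = y * f' m := by
      intro m hm
      have hf : (p * m).factorization = p.factorization + m.factorization :=
        Nat.factorization_mul hp.ne_zero (by omega)
      have e1 : vlog P (p * m) = vlog P m := by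
        apply Finset.sum_congr rfl
        intro q hq
        have hqp : q ≠ p := fun h => hnot (h ▸ hq)
        rw [hf, Finsupp.add_apply, hp.factorization, Finsupp.single_eq_of_ne (by exact hqp)]
        simp
      refine ⟨by simp only [f, e1], ?_⟩
      have e0 : (p * m).factorization p = m.factorization p + 1 := by
        rw [hf, Finsupp.add_apply, hp.factorization, Finsupp.single_eq_same, add_comm]
      rw [hins, hins, e0]
      simp only [f, e1, hy]
      push_cast
      rw [← Real.exp_add, ← Real.exp_add, ← Real.exp_add]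
      congr 1; ring
    have hD : ∀ M : ℕ, ∑ n ∈ Finset.Icc 1 M, (f' n - f n) ≤ d * M := by
      intro M
      induction M using Nat.strong_induction_on with
      | _ M IH =>
        rcases Nat.eq_zero_or_pos M with hM | hM
        · simp [hM]
        have e : ∑ n ∈ Finset.Icc 1 M, (f' n - f n)
            = ∑ m ∈ Finset.Icc 1 (M / p), (y * f' m - f m) := by
          rw [← Finset.sum_filter_of_ne (s := Finset.Icc 1 M) (p := fun n => p ∣ n),
            filter_dvd_eq_image M p hp.pos, Finset.sum_image]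
          · apply Finset.sum_congr rfl
            intro m hm
            obtain ⟨a, b⟩ := hmul m (Finset.mem_Icc.1 hm).1
            rw [a, b]
          · intro a _ b _ h; exact Nat.eq_of_mul_eq_mul_left hp.pos h
          · intro n _ hne
            by_contra hdiv
            apply hne
            rw [hins, Nat.factorization_eq_zero_of_not_dvd hdiv]
            simp
        have e2 : ∑ m ∈ Finset.Icc 1 (M / p), (y * f' m - f m)
            = y * ∑ m ∈ Finset.Icc 1 (M / p), (f' m - f m)
              + (y - 1) * ∑ m ∈ Finset.Icc 1 (M / p), f m := by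
          rw [Finset.mul_sum, Finset.mul_sum, ← Finset.sum_add_distrib]
          exact Finset.sum_congr rfl fun m _ => by ring
        have h1 := IH (M / p) (Nat.div_lt_self hM hp.one_lt)
        have h2 : ∑ m ∈ Finset.Icc 1 (M / p), f m ≤ ((M / p : ℕ):ℝ) * C := ih' (M / p)
        have h3 : ((M / p : ℕ):ℝ) ≤ (M:ℝ) / p := Nat.cast_div_le
        rw [e, e2]
        calc _ ≤ y * (d * ((M / p : ℕ):ℝ)) + (y - 1) * (((M / p : ℕ):ℝ) * C) :=
              add_le_add (mul_le_mul_of_nonneg_left h1 (by linarith))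
                (mul_le_mul_of_nonneg_left h2 (by linarith))
          _ = (y * d + (y - 1) * C) * ((M / p : ℕ):ℝ) := by ring
          _ ≤ (y * d + (y - 1) * C) * ((M:ℝ) / p) :=
              mul_le_mul_of_nonneg_left h3 (by nlinarith)
          _ = d * M := by
              have : y * d + (y - 1) * C = p * d := by rw [hd]; field_simp; ring
              rw [this]; field_simp
    have hsum : ∑ n ∈ Finset.Icc 1 N, f' n ≤ (N:ℝ) * (C + d) := by
      have h1 := hD N
      rw [Finset.sum_sub_distrib] at h1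
      have h2 : ∑ n ∈ Finset.Icc 1 N, f n ≤ (N:ℝ) * C := ih' N
      linarith
    refine hsum.trans (mul_le_mul_of_nonneg_left ?_ (Nat.cast_nonneg _))
    rw [Finset.sum_insert hnot, mul_add, Real.exp_add, ← hC, mul_comm _ C]
    have hb : (y - 1) / ((p:ℝ) - y) ≤ 6 * s * (Real.log p / p) := by
      rw [div_le_iff₀ hpy]
      have h3 : (p:ℝ) / 3 ≤ (p:ℝ) - y := by linarith
      have h4 : 0 ≤ 6 * s * (Real.log p / p) := by positivity
      have h5 := mul_le_mul_of_nonneg_left h3 h4
      have h6 : 6 * s * (Real.log p / p) * ((p:ℝ) / 3) = 2 * (s * Real.log p) := by field_simp; ring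
      linarith
    have he := Real.add_one_le_exp (6 * s * (Real.log p / p))
    have : C + d = C * (1 + (y - 1) / ((p:ℝ) - y)) := by rw [hd]; ring
    rw [this]
    exact mul_le_mul_of_nonneg_left (by linarith) hC0.le

/-- The threshold separating small and large primes. -/
noncomputable def Zb (q : ℕ) : ℝ := (Real.log q) ^ 4

/-- The small prime factors of `q`. -/
noncomputable def smallPrimes (q : ℕ) : Finset ℕ :=
  q.primeFactors.filter (fun p : ℕ => (p:ℝ) ≤ Zb q)

/-- `q` is admissible: its smooth part is at most `q^(1/10)`. -/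
def Adm (q : ℕ) : Prop := 10 * vlog (smallPrimes q) q ≤ Real.log q

lemma dvd_smooth_log_le {v r : ℕ} (hr : 0 < r) (hv : v ∣ r) (hA : Adm r)
    (hs : ∀ p ∈ v.primeFactors, (p:ℝ) ≤ Zb r) : 10 * Real.log v ≤ Real.log r := by
  refine le_trans ?_ hA
  refine mul_le_mul_of_nonneg_left ?_ (by norm_num)
  have hv0 : v ≠ 0 := fun h => by subst h; simp at hv; omega
  rw [Real.log_nat_eq_sum_factorization, Finsupp.sum, Nat.support_factorization]
  have hsub : v.primeFactors ⊆ smallPrimes r := fun p hp =>
    Finset.mem_filter.2 ⟨Nat.primeFactors_mono hv hr.ne' hp, hs p hp⟩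
  refine le_trans (Finset.sum_le_sum ?_)
    (Finset.sum_le_sum_of_subset_of_nonneg hsub
      (fun p _ _ => mul_nonneg (Nat.cast_nonneg _) (Real.log_natCast_nonneg p)))
  intro p _
  refine mul_le_mul_of_nonneg_right ?_ (Real.log_natCast_nonneg p)
  exact_mod_cast (Nat.factorization_le_iff_dvd hv0 hr.ne').2 hv p

lemma card_not_adm_le : ∃ C : ℝ, 0 < C ∧ ∀ j : ℕ,
    (((Finset.Ico (2^j) (2^(j+1))).filter (fun n => ¬ Adm n)).card : ℝ)
      ≤ C * 2^j / ((j:ℝ) + 1) ^ 2 := by
  set c := Real.log 2 / 1280 with hc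
  have hc0 : 0 < c := by have := Real.log_pos (by norm_num : (1:ℝ) < 2); positivity
  obtain ⟨D, hD0, hD⟩ := poly_exp_decay 2 (θ := c / 2) (by positivity)
  refine ⟨2 * (Real.exp 1 * Real.exp (784 * 2 / c) * D), by positivity, fun j => ?_⟩
  set x := (j:ℝ) + 1 with hx
  have hx1 : 1 ≤ x := by have : (0:ℝ) ≤ j := Nat.cast_nonneg _; linarith
  set y := Real.sqrt (Real.sqrt x) with hy
  have hy1 : 1 ≤ y := by rw [hy]; exact Real.one_le_sqrt.2 (Real.one_le_sqrt.2 hx1)
  have hy2 : y ^ 2 = Real.sqrt x := Real.sq_sqrt (Real.sqrt_nonneg _)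
  have hy4 : y ^ 4 = x := by
    rw [show y ^ 4 = (y ^ 2) ^ 2 by ring, hy2, Real.sq_sqrt (by linarith)]
  set Z := (j + 1) ^ 4 with hZ
  set P := (Finset.Icc 1 Z).filter Nat.Prime with hP
  have hlogZ : Real.log (Z:ℝ) ≤ 16 * y := by
    have e : ((Z:ℕ):ℝ) = y ^ 16 := by
      rw [hZ]; push_cast; rw [← hx, ← hy4]; ring
    rw [e, Real.log_pow]; push_cast
    have := Real.log_le_sub_one_of_pos (by linarith : 0 < y)
    linarith
  set s := 1 / (64 * y) with hs
  have hs0 : 0 ≤ s := by positivity
  have hsl : ∀ p ∈ P, s * Real.log p ≤ 1/4 := by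
    intro p hp
    simp only [hP, Finset.mem_filter, Finset.mem_Icc] at hp
    have : Real.log (p:ℝ) ≤ Real.log (Z:ℝ) :=
      Real.log_le_log (by exact_mod_cast hp.2.pos) (by exact_mod_cast hp.1.2)
    calc s * Real.log p ≤ s * (16 * y) := mul_le_mul_of_nonneg_left (by linarith) hs0
      _ = 1/4 := by rw [hs]; field_simp; norm_num
  have hmain := smooth_sum_le P s hs0 (fun p hp => (Finset.mem_filter.1 hp).2) hsl (2^(j+1))
  have hexp : 6 * s * ∑ p ∈ P, Real.log p / p ≤ 28 * y := by
    have h := sum_log_div_le Z (Nat.one_le_pow _ _ (by omega)) 1 P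
      (fun p hp => Finset.mem_Icc.1 (Finset.mem_filter.1 hp).1)
    simp only [pow_one] at h
    have h2 : (1 + Real.log (Z:ℝ)) ^ (1 + 1) ≤ (17 * y) ^ 2 := by
      norm_num only
      exact pow_le_pow_left₀ (by have := Real.log_natCast_nonneg Z; linarith) (by linarith) 2
    calc 6 * s * ∑ p ∈ P, Real.log p / p ≤ 6 * s * (17 * y) ^ 2 :=
          mul_le_mul_of_nonneg_left (h.trans h2) (by positivity)
      _ = (6 * 289 / 64) * y := by rw [hs]; field_simp; ring
      _ ≤ 28 * y := by linarith
  set T := (j:ℝ) * Real.log 2 / 10 with hT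
  have hB : (((Finset.Ico (2^j) (2^(j+1))).filter (fun n => ¬ Adm n)).card : ℝ)
      * Real.exp (s * T) ≤ ∑ n ∈ Finset.Icc 1 (2^(j+1)), Real.exp (s * vlog P n) := by
    rw [← nsmul_eq_mul, ← Finset.sum_const]
    have hsub : (Finset.Ico (2^j) (2^(j+1))).filter (fun n => ¬ Adm n) ⊆
        Finset.Icc 1 (2^(j+1)) := by
      intro n hn
      simp only [Finset.mem_filter, Finset.mem_Ico] at hn
      have : 1 ≤ 2^j := Nat.one_le_two_pow
      simp only [Finset.mem_Icc]; omega
    refine le_trans (Finset.sum_le_sum ?_)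
      (Finset.sum_le_sum_of_subset_of_nonneg hsub (fun _ _ _ => (Real.exp_pos _).le))
    intro n hn
    simp only [Finset.mem_filter, Finset.mem_Ico] at hn
    obtain ⟨⟨hn1, hn2⟩, hnA⟩ := hn
    unfold Adm at hnA
    rw [not_le] at hnA
    have hn0 : 0 < n := lt_of_lt_of_le (by positivity) hn1
    have hlog1 : (j:ℝ) * Real.log 2 ≤ Real.log n := by
      rw [← Real.log_pow]; exact Real.log_le_log (by positivity) (by exact_mod_cast hn1)
    have hlog2 : Real.log (n:ℝ) ≤ x := by
      have h1 : Real.log (n:ℝ) ≤ Real.log ((2:ℝ)^(j+1)) :=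
        Real.log_le_log (by exact_mod_cast hn0) (by exact_mod_cast hn2.le)
      rw [Real.log_pow] at h1; push_cast at h1
      have h2 := Real.log_two_lt_d9
      rw [← hx] at h1
      nlinarith
    have hsubP : smallPrimes n ⊆ P := by
      intro p hp
      simp only [smallPrimes, Finset.mem_filter] at hp
      have hpp := Nat.prime_of_mem_primeFactors hp.1
      refine Finset.mem_filter.2 ⟨Finset.mem_Icc.2 ⟨hpp.one_le, ?_⟩, hpp⟩
      have : (p:ℝ) ≤ x ^ 4 :=
        hp.2.trans (pow_le_pow_left₀ (Real.log_natCast_nonneg n) hlog2 4)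
      rw [hx] at this
      exact_mod_cast this
    have hv : vlog (smallPrimes n) n ≤ vlog P n :=
      Finset.sum_le_sum_of_subset_of_nonneg hsubP
        (fun p _ _ => mul_nonneg (Nat.cast_nonneg _) (Real.log_natCast_nonneg p))
    apply Real.exp_le_exp.2
    apply mul_le_mul_of_nonneg_left ?_ hs0
    rw [hT]; linarith
  have h1 := hB.trans (hmain.trans
    (mul_le_mul_of_nonneg_left (Real.exp_le_exp.2 hexp) (Nat.cast_nonneg _)))
  rw [← le_div_iff₀ (Real.exp_pos _)] at h1
  refine h1.trans ?_
  have h3 : Real.exp (28 * y) / Real.exp (s * T)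
      ≤ Real.exp 1 * Real.exp (784 * 2 / c) *
        Real.exp (5 * y - c / 2 * Real.sqrt x) := by
    rw [← Real.exp_sub, ← Real.exp_add, ← Real.exp_add]
    apply Real.exp_le_exp.2
    have e : s * T = c / 2 * (y ^ 4 - 1) / y * 4 := by
      rw [hs, hT, hc, hy4, hx]; field_simp; ring
    rw [e, ← hy2]
    have h4 : 28 * y ≤ c / 2 * y ^ 2 / 4 + 784 * 2 / c := by
      have : c / 2 * y ^ 2 / 4 + 784 * 2 / c - 28 * y = (c * y / 2 - 56) ^ 2 / (2 * c) := by
        field_simp; ring
      have h5 : 0 ≤ (c * y / 2 - 56) ^ 2 / (2 * c) := by positivity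
      linarith
    have h6 : 4 * (c / 2 / y) ≤ 1 := by
      rw [← mul_div_assoc, div_le_one (by linarith)]
      have := Real.log_two_lt_d9
      rw [hc]; linarith
    have h7 : c / 2 * (y ^ 4 - 1) / y * 4 = 4 * (c / 2 * y ^ 3) - 4 * (c / 2 / y) := by field_simp
    rw [h7]
    nlinarith [mul_nonneg (mul_nonneg hc0.le (sq_nonneg y)) (by linarith : (0:ℝ) ≤ y - 1)]
  calc ((2^(j+1):ℕ):ℝ) * Real.exp (28 * y) / Real.exp (s * T)
      = ((2^(j+1):ℕ):ℝ) * (Real.exp (28 * y) / Real.exp (s * T)) := by ring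
    _ ≤ ((2^(j+1):ℕ):ℝ) * (Real.exp 1 * Real.exp (784 * 2 / c) *
        Real.exp (5 * y - c / 2 * Real.sqrt x)) :=
        mul_le_mul_of_nonneg_left h3 (Nat.cast_nonneg _)
    _ ≤ ((2^(j+1):ℕ):ℝ) * (Real.exp 1 * Real.exp (784 * 2 / c) * (D / x ^ 2)) := by
        refine mul_le_mul_of_nonneg_left (mul_le_mul_of_nonneg_left ?_ (by positivity)) (by positivity)
        rw [le_div_iff₀ (by positivity), mul_comm]
        exact hD x (by linarith)
    _ = _ := by push_cast; ring

/-- The reciprocals of the non-admissible integers are summable. -/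
lemma summable_not_adm : Summable (fun n : ℕ => if Adm n then (0:ℝ) else 1 / (n:ℝ)) := by
  obtain ⟨C, hC, hcard⟩ := card_not_adm_le
  have hnn : ∀ n : ℕ, 0 ≤ (if Adm n then (0:ℝ) else 1 / (n:ℝ)) := fun n => by
    split <;> positivity
  have hsq : Summable (fun j : ℕ => C / ((j:ℝ) + 1) ^ 2) := by
    have h := (summable_nat_add_iff (f := fun n : ℕ => 1 / (n:ℝ) ^ 2) 1).2
      (Real.summable_one_div_nat_pow.2 one_lt_two)
    refine (h.mul_left C).congr fun j => ?_
    push_cast; ring
  refine summable_of_sum_range_le hnn (c := ∑' j : ℕ, C / ((j:ℝ) + 1) ^ 2) (fun N => ?_)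
  rw [← Finset.sum_fiberwise_of_maps_to (s := Finset.range N) (t := Finset.range N)
    (g := fun n => Nat.log 2 n) (fun n hn => by
      simp only [Finset.mem_range] at hn ⊢; exact lt_of_le_of_lt (Nat.log_le_self 2 n) hn)]
  refine le_trans (Finset.sum_le_sum fun j _ => ?_) (hsq.sum_le_tsum _ (fun j _ => by positivity))
  calc ∑ n ∈ (Finset.range N).filter (fun n => Nat.log 2 n = j),
        (if Adm n then (0:ℝ) else 1 / (n:ℝ))
      ≤ ∑ n ∈ ((Finset.range N).filter (fun n => Nat.log 2 n = j)).filter (fun n => ¬ Adm n ∧ n ≠ 0),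
          1 / (2:ℝ)^j := by
        rw [Finset.sum_filter (s := (Finset.range N).filter (fun n => Nat.log 2 n = j))]
        apply Finset.sum_le_sum
        intro n hn
        simp only [Finset.mem_filter] at hn
        by_cases hA : Adm n
        · simp [hA]
        · rcases Nat.eq_zero_or_pos n with h0 | h0
          · simp [h0]
          · rw [if_neg hA, if_pos ⟨hA, by omega⟩]
            apply one_div_le_one_div_of_le (by positivity)
            rw [← hn.2]; exact_mod_cast Nat.pow_log_le_self 2 (by omega)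
    _ ≤ ∑ n ∈ (Finset.Ico (2^j) (2^(j+1))).filter (fun n => ¬ Adm n), 1 / (2:ℝ)^j := by
        refine Finset.sum_le_sum_of_subset_of_nonneg ?_ (fun _ _ _ => by positivity)
        intro n hn
        simp only [Finset.mem_filter, Finset.mem_Ico] at hn ⊢
        refine ⟨⟨?_, ?_⟩, hn.2.1⟩
        · rw [← hn.1.2]; exact Nat.pow_log_le_self 2 hn.2.2
        · rw [← hn.1.2]; exact Nat.lt_pow_succ_log_self one_lt_two n
    _ ≤ _ := by
        rw [Finset.sum_const, nsmul_eq_mul, mul_one_div, div_le_iff₀ (by positivity)]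
        refine (hcard j).trans (le_of_eq ?_)
        field_simp

end Vale.Agent.P028
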