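import Vale.Agent.P028.Count
import Vale.Agent.P028.Frac
import Vale.Agent.P028.Smooth

namespace Vale.Agent.P028

open Finset MeasureTheory
open scoped Classical

/-- A reduced fraction that is exceptionally close to `γ` at the scale `q`. -/
def IsStar (γ : ℝ) (q : ℕ) (x : ℕ × ℤ) : Prop :=
  1 ≤ x.1 ∧ IsCoprime (x.1:ℤ) x.2 ∧ (x.1:ℝ) ^ 5 ≤ q ∧ |(x.1:ℝ) * γ - x.2| * Real.sqrt q ≤ 1

/-- The exceptional fraction at the scale `q`, or `0/1`. -/
noncomputable def star (γ : ℝ) (q : ℕ) : ℕ × ℤ :=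
  if h : ∃ x, IsStar γ q x then h.choose else (1, 0)

lemma star_spec (γ : ℝ) (q : ℕ) :
    1 ≤ (star γ q).1 ∧ IsCoprime ((star γ q).1:ℤ) (star γ q).2 := by
  unfold star
  split_ifs with h
  · exact ⟨h.choose_spec.1, h.choose_spec.2.1⟩
  · exact ⟨le_rfl, by simpa using (isCoprime_one_left : IsCoprime (1:ℤ) 0)⟩

lemma star_eq {γ : ℝ} {q : ℕ} (hq : 16 ≤ q) {x : ℕ × ℤ} (hx : IsStar γ q x) : star γ q = x := by
  have hex : ∃ x, IsStar γ q x := ⟨x, hx⟩
  have hy : IsStar γ q (star γ q) := by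
    unfold star; rw [dif_pos hex]; exact hex.choose_spec
  set y := star γ q
  obtain ⟨hx1, hxc, hx5, hxd⟩ := hx
  obtain ⟨hy1, hyc, hy5, hyd⟩ := hy
  have hq' : (16:ℝ) ≤ q := by exact_mod_cast hq
  set s := Real.sqrt (q:ℝ)
  have hs : 0 < s := Real.sqrt_pos.2 (by linarith)
  have small : ∀ B : ℕ, (B:ℝ) ^ 5 ≤ q → 2 * (B:ℝ) < s := by
    intro B hB
    apply Real.lt_sqrt_of_sq_lt
    apply lt_of_pow_lt_pow_left₀ 5 (by linarith)
    calc ((2 * (B:ℝ)) ^ 2) ^ 5 = 1024 * ((B:ℝ) ^ 5) ^ 2 := by ring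
      _ ≤ 1024 * (q:ℝ) ^ 2 := by gcongr
      _ < (q:ℝ) ^ 3 * (q:ℝ) ^ 2 := mul_lt_mul_of_pos_right
          (lt_of_lt_of_le (by norm_num) (pow_le_pow_left₀ (by norm_num) hq' 3)) (by positivity)
      _ = _ := by ring
  have hbx := small x.1 hx5
  have hby := small y.1 hy5
  have key : |((x.1:ℤ) * y.2 - (y.1:ℤ) * x.2)| < 1 := by
    have h' : (|((x.1:ℤ) * y.2 - (y.1:ℤ) * x.2)| : ℝ) < 1 := by
      push_cast
      have e : (x.1:ℝ) * y.2 - (y.1:ℝ) * x.2
          = (y.1:ℝ) * ((x.1:ℝ) * γ - x.2) - (x.1:ℝ) * ((y.1:ℝ) * γ - y.2) := by ring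
      rw [e]
      refine lt_of_le_of_lt (abs_sub _ _) ?_
      rw [abs_mul, abs_mul, Nat.abs_cast, Nat.abs_cast]
      have h1 := mul_le_mul_of_nonneg_left hxd (Nat.cast_nonneg (α := ℝ) y.1)
      have h2 := mul_le_mul_of_nonneg_left hyd (Nat.cast_nonneg (α := ℝ) x.1)
      rw [← mul_lt_mul_iff_left₀ hs]
      linarith
    exact_mod_cast h'
  have heq : (x.1:ℤ) * y.2 = (y.1:ℤ) * x.2 := by
    have := Int.abs_lt_one_iff.1 key
    linarith
  have d1 : (x.1:ℤ) ∣ (y.1:ℤ) := hxc.dvd_of_dvd_mul_right ⟨y.2, by rw [← heq]⟩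
  have d2 : (y.1:ℤ) ∣ (x.1:ℤ) := hyc.dvd_of_dvd_mul_right ⟨x.2, by rw [heq]⟩
  have e1 : x.1 = y.1 := Nat.dvd_antisymm (Int.natCast_dvd_natCast.1 d1) (Int.natCast_dvd_natCast.1 d2)
  have e2 : x.2 = y.2 := by
    rw [e1] at heq
    exact (mul_left_cancel₀ (by exact_mod_cast (by omega : y.1 ≠ 0)) heq).symm
  exact (Prod.ext e1 e2).symm

lemma exists_base (γ : ℝ) (q p : ℕ) : ∃ c : ℤ, p.Prime → ¬ (p:ℤ) ∣ ((star γ q).1:ℤ) →
    (p:ℤ) ∣ (star γ q).2 + c * (star γ q).1 := by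
  by_cases h : p.Prime ∧ ¬ (p:ℤ) ∣ ((star γ q).1:ℤ)
  · have hp : Prime (p:ℤ) := Nat.prime_iff_prime_int.1 h.1
    obtain ⟨u, v, huv⟩ := (hp.coprime_iff_not_dvd.2 h.2)
    exact ⟨-(star γ q).2 * v, fun _ _ => ⟨(star γ q).2 * u, by linear_combination -(star γ q).2 * huv⟩⟩
  · exact ⟨0, fun h1 h2 => absurd ⟨h1, h2⟩ h⟩

/-- The residue class removed modulo `p` at the scale `q`. -/
noncomputable def base (γ : ℝ) (q p : ℕ) : ℤ := (exists_base γ q p).choose

lemma base_kill {γ : ℝ} {q p : ℕ} (hp : p.Prime) {b : ℤ}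
    (h : (p:ℤ) ∣ (star γ q).2 + b * (star γ q).1) : (p:ℤ) ∣ b - base γ q p := by
  have hpz : Prime (p:ℤ) := Nat.prime_iff_prime_int.1 hp
  have hB : ¬ (p:ℤ) ∣ ((star γ q).1:ℤ) := fun hd => by
    have h2 : (p:ℤ) ∣ (star γ q).2 := (Int.dvd_add_left (hd.mul_left b)).1 h
    exact hpz.not_isUnit ((star_spec γ q).2.isUnit_of_dvd' hd h2)
  have hc := (exists_base γ q p).choose_spec hp hB
  have h3 : (p:ℤ) ∣ (b - base γ q p) * (star γ q).1 := by
    have := Int.dvd_sub h hc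
    have e : (star γ q).2 + b * (star γ q).1 - ((star γ q).2 + base γ q p * (star γ q).1)
        = (b - base γ q p) * (star γ q).1 := by ring
    rw [← e]; exact this
  exact (hpz.dvd_or_dvd h3).resolve_right hB

/-- The admissible numerators for the denominator `q`. -/
def InE (γ : ℝ) (q : ℕ) (a : ℤ) : Prop :=
  Avoid q.primeFactors (base γ q) a ∧
    ∀ p ∈ q.primeFactors, Zb q < p → ∀ x ∈ KS γ (32 * q), ¬ (p:ℤ) ∣ x.2 + a * x.1

/-- The selected numerators in `[0, q)`. -/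
noncomputable def Eset (γ : ℝ) (q : ℕ) : Finset ℤ := (Finset.Ico 0 (q:ℤ)).filter (InE γ q)

lemma mem_Eset {γ : ℝ} {q : ℕ} {a : ℤ} : a ∈ Eset γ q ↔ (0 ≤ a ∧ a < q) ∧ InE γ q a := by
  simp [Eset]

lemma card_Eset_le {q : ℕ} (γ : ℝ) (hq : 0 < q) : ((Eset γ q).card : ℝ) ≤ q * lam q := by
  have hsub : Eset γ q ⊆ (Finset.Ico 0 (q:ℤ)).filter (Avoid q.primeFactors (base γ q)) := by
    intro a ha
    obtain ⟨h1, h2⟩ := mem_Eset.1 ha
    exact Finset.mem_filter.2 ⟨Finset.mem_Ico.2 h1, h2.1⟩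
  have hP : ∀ p ∈ q.primeFactors, p.Prime := fun p hp => Nat.prime_of_mem_primeFactors hp
  have h := (interval_avoid 0 (q:ℤ) (Nat.cast_nonneg q) q.primeFactors hP (base γ q)).2 (fun T hT => by
    rw [sub_zero, Int.natCast_dvd_natCast, prod_dvd_iff_forall T (fun p hp => hP p (hT hp))]
    exact fun p hp => Nat.dvd_of_mem_primeFactors (hT hp))
  refine le_trans (Nat.cast_le.2 (Finset.card_le_card hsub)) (le_of_eq ?_)
  rw [h, lam_eq_prod hq]
  push_cast; ring

lemma two_pow_card_le {q : ℕ} (hq : 0 < q) :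
    (2:ℝ) ^ q.primeFactors.card ≤ 4 * Real.sqrt q := by
  have h4 : 4 ^ q.primeFactors.card ≤ 16 * q := by
    have hc : (q.primeFactors.filter (fun p => p < 4)).card ≤ 2 := by
      refine le_trans (Finset.card_le_card (t := ({2, 3} : Finset ℕ)) fun p hp => ?_) (by simp)
      obtain ⟨h1, h2⟩ := Finset.mem_filter.1 hp
      have := (Nat.prime_of_mem_primeFactors h1).two_le
      simp only [Finset.mem_insert, Finset.mem_singleton]; omega
    calc 4 ^ q.primeFactors.card = ∏ _p ∈ q.primeFactors, 4 := (Finset.prod_const 4).symm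
      _ ≤ ∏ p ∈ q.primeFactors, p * (if p < 4 then 4 else 1) := by
          apply Finset.prod_le_prod' fun p hp => ?_
          have := (Nat.prime_of_mem_primeFactors hp).pos
          split_ifs with h <;> omega
      _ = (∏ p ∈ q.primeFactors, p) * 4 ^ (q.primeFactors.filter (fun p => p < 4)).card := by
          rw [Finset.prod_mul_distrib, ← Finset.prod_filter, Finset.prod_const]
      _ ≤ q * 4 ^ 2 := Nat.mul_le_mul (Nat.le_of_dvd hq (Nat.prod_primeFactors_dvd q))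
          (Nat.pow_le_pow_right (by norm_num) hc)
      _ = 16 * q := by ring
  rw [show (4:ℝ) = Real.sqrt 16 by rw [show (16:ℝ) = 4 ^ 2 by norm_num, Real.sqrt_sq (by norm_num)],
    ← Real.sqrt_mul (by norm_num)]
  apply Real.le_sqrt_of_sq_le
  rw [← pow_mul, mul_comm, pow_mul]
  norm_num
  exact_mod_cast h4

lemma class_count (u v : ℤ) (huv : u ≤ v) (p : ℕ) (hp : p.Prime) (B A : ℤ) (hc : IsCoprime B A) :
    (((Finset.Ico u v).filter (fun a => (p:ℤ) ∣ A + a * B)).card : ℝ) ≤ ((v:ℝ) - u) / p + 1 := by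
  have hpz : Prime (p:ℤ) := Nat.prime_iff_prime_int.1 hp
  have huv' : (0:ℝ) ≤ (v:ℝ) - u := by
    have : (u:ℝ) ≤ v := by exact_mod_cast huv
    linarith
  refine card_progression _ p hp.pos _ huv' ?_
  intro x hx y hy
  simp only [Finset.mem_filter, Finset.mem_Ico] at hx hy
  refine ⟨?_, ?_⟩
  · have hB : ¬ (p:ℤ) ∣ B := fun hd =>
      hpz.not_isUnit (hc.isUnit_of_dvd' hd ((Int.dvd_add_left (hd.mul_left x)).1 hx.2))
    have h := Int.dvd_sub hx.2 hy.2
    rw [show A + x * B - (A + y * B) = (x - y) * B by ring] at h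
    exact (hpz.dvd_or_dvd h).resolve_right hB
  · have h1 : (x:ℝ) < v := by exact_mod_cast hx.1.2
    have h2 : (u:ℝ) ≤ y := by exact_mod_cast hy.1.1
    linarith

lemma window_count_ge (γ : ℝ) {q : ℕ} (hq : 2 ≤ q) (u v : ℤ) (hu : 0 ≤ u) (huv : u ≤ v) (hv : v ≤ q) :
    ((v:ℝ) - u) * lam q - (4 * Real.sqrt q + (q.primeFactors.card : ℝ) * ((KS γ (32 * q)).card : ℝ)
      * (((v:ℝ) - u) / Zb q + 1))
      ≤ (((Eset γ q).filter (fun a => u ≤ a ∧ a < v)).card : ℝ) := by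
  have hP : ∀ p ∈ q.primeFactors, p.Prime := fun p hp => Nat.prime_of_mem_primeFactors hp
  have hZ : 0 < Zb q := pow_pos (Real.log_pos (by exact_mod_cast (by omega : 1 < q))) 4
  have hlen : (0:ℝ) ≤ (v:ℝ) - u := by
    have : (u:ℝ) ≤ v := by exact_mod_cast huv
    linarith
  set A := (Finset.Ico u v).filter (Avoid q.primeFactors (base γ q)) with hA
  set Bd := (q.primeFactors.filter (fun p : ℕ => Zb q < p) ×ˢ KS γ (32 * q)).biUnion
      (fun z => (Finset.Ico u v).filter (fun a => (z.1:ℤ) ∣ z.2.2 + a * z.2.1)) with hBd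
  have hsub : A ⊆ (Eset γ q).filter (fun a => u ≤ a ∧ a < v) ∪ Bd := by
    intro a ha
    obtain ⟨hI, hav⟩ := Finset.mem_filter.1 ha
    obtain ⟨h1, h2⟩ := Finset.mem_Ico.1 hI
    by_cases hb : InE γ q a
    · exact Finset.mem_union_left _ (Finset.mem_filter.2
        ⟨mem_Eset.2 ⟨⟨by omega, by omega⟩, hb⟩, h1, h2⟩)
    · unfold InE at hb
      push Not at hb
      obtain ⟨p, hp, hpz, x, hx, hd⟩ := hb hav
      exact Finset.mem_union_right _ (Finset.mem_biUnion.2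
        ⟨(p, x), Finset.mem_product.2 ⟨Finset.mem_filter.2 ⟨hp, hpz⟩, hx⟩,
          Finset.mem_filter.2 ⟨hI, hd⟩⟩)
  have h1 : ((v:ℝ) - u) * lam q - 4 * Real.sqrt q ≤ (A.card : ℝ) := by
    have h := (abs_le.1 (interval_avoid u v huv q.primeFactors hP (base γ q)).1).1
    rw [← lam_eq_prod (by omega)] at h
    have := two_pow_card_le (q := q) (by omega)
    linarith
  have h2 : (Bd.card : ℝ) ≤ (q.primeFactors.card : ℝ) * ((KS γ (32 * q)).card : ℝ)
      * (((v:ℝ) - u) / Zb q + 1) := by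
    refine le_trans (Nat.cast_le.2 Finset.card_biUnion_le) ?_
    push_cast
    refine le_trans (Finset.sum_le_card_nsmul _ _ (((v:ℝ) - u) / Zb q + 1) fun z hz => ?_) ?_
    · obtain ⟨hp, hx⟩ := Finset.mem_product.1 hz
      obtain ⟨hp1, hp2⟩ := Finset.mem_filter.1 hp
      refine (class_count u v huv z.1 (hP _ hp1) _ _ (mem_KS.1 hx).2.2.1).trans ?_
      have := div_le_div_of_nonneg_left hlen hZ hp2.le
      linarith
    · rw [nsmul_eq_mul, Finset.card_product]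
      push_cast
      gcongr
      exact Finset.filter_subset _ _
  have h3 : (A.card : ℝ) ≤ (((Eset γ q).filter (fun a => u ≤ a ∧ a < v)).card : ℝ) + Bd.card := by
    exact_mod_cast (Finset.card_le_card hsub).trans (Finset.card_union_le _ _)
  linarith

lemma card_KS_log (γ : ℝ) {q : ℕ} (hq : 1 ≤ q) :
    ((KS γ (32 * q)).card : ℝ) ≤ 60 * (1 + Real.log q) := by
  have h := card_KS_le γ (32 * q)
  have h1 : ((Nat.log 2 (32 * q) : ℕ):ℝ) * Real.log 2 ≤ Real.log ((32 * q : ℕ):ℝ) := by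
    rw [← Real.log_pow]
    apply Real.log_le_log (by positivity)
    exact_mod_cast Nat.pow_log_le_self 2 (by omega)
  rw [Nat.cast_mul, Real.log_mul (by norm_num) (by positivity),
    show ((32:ℕ):ℝ) = 2 ^ 5 by norm_num, Real.log_pow] at h1
  push_cast at h1
  have h2 := Real.log_two_gt_d9
  have hl : 0 ≤ Real.log q := Real.log_nonneg (by exact_mod_cast hq)
  have h3 : ((Nat.log 2 (32 * q) : ℕ):ℝ) ≤ 5 + 2 * Real.log q := by nlinarith
  have h4 : ((KS γ (32 * q)).card : ℝ) ≤ 9 * (((Nat.log 2 (32 * q) : ℕ):ℝ) + 1) := by exact_mod_cast h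
  linarith

lemma window_eventually {L : ℝ} (hL : 0 < L) : ∃ Q : ℕ, ∀ (γ : ℝ) (q : ℕ), Q ≤ q → ∀ u v : ℤ,
    0 ≤ u → v ≤ q → L * q ≤ (v:ℝ) - u →
    ((v:ℝ) - u) * lam q / 2 ≤ (((Eset γ q).filter (fun a => u ≤ a ∧ a < v)).card : ℝ) := by
  -- constants: the three error terms are at most a sixth of the main term each
  obtain ⟨c, hc⟩ : ∃ c : ℝ, c = (Nat.factorial 8 : ℝ) * Real.exp 1 := ⟨_, rfl⟩
  have hc0 : 0 < c := by rw [hc]; positivity
  obtain ⟨M, hM⟩ := exists_nat_ge (max (Real.exp 6480) (((1000 * c / L) ^ 2) ^ 2))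
  refine ⟨max M 3, fun γ q hq u v hu hv hlen => ?_⟩
  have hq3 : 3 ≤ q := le_trans (le_max_right _ _) hq
  have hqr : (3:ℝ) ≤ q := by exact_mod_cast hq3
  have hMq : (M:ℝ) ≤ q := by exact_mod_cast le_trans (le_max_left _ _) hq
  set len := (v:ℝ) - u
  have hlen0 : 0 < len := lt_of_lt_of_le (by positivity) hlen
  have huv : u ≤ v := by
    have : (u:ℝ) ≤ v := by simp only [len] at hlen0; linarith
    exact_mod_cast this
  refine le_trans ?_ (window_count_ge γ (by omega) u v hu huv hv)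
  set l := Real.log (q:ℝ) with hl
  have hl1 : 6480 ≤ l := by
    rw [hl, Real.le_log_iff_exp_le (by linarith)]
    linarith [le_max_left (Real.exp 6480) (((1000 * c / L) ^ 2) ^ 2)]
  set ω := (q.primeFactors.card : ℝ)
  have hω : ω ≤ 2 * l := by
    have h := card_primeFactors_le_log q (by omega)
    have := Real.log_two_gt_d9
    have : 0 ≤ ω := Nat.cast_nonneg _
    nlinarith
  have hlam : 1 / (3 * l) ≤ lam q := le_trans
    (one_div_le_one_div_of_le (by positivity) (by linarith)) (lam_ge_card (by omega))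
  have hK : ((KS γ (32 * q)).card : ℝ) ≤ 120 * l :=
    (card_KS_log γ (by omega)).trans (by rw [← hl]; linarith)
  have hωK : ω * ((KS γ (32 * q)).card : ℝ) ≤ 240 * l ^ 2 := by
    calc _ ≤ (2 * l) * (120 * l) := mul_le_mul hω hK (Nat.cast_nonneg _) (by linarith)
      _ = _ := by ring
  have hmain : len / (3 * l) ≤ len * lam q := by
    calc _ = len * (1 / (3 * l)) := by ring
      _ ≤ _ := mul_le_mul_of_nonneg_left hlam hlen0.le
  -- the `Zb` term
  have e1 : ω * ((KS γ (32 * q)).card : ℝ) * (len / Zb q) ≤ len * lam q / 6 := by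
    refine le_trans (mul_le_mul_of_nonneg_right hωK (div_nonneg hlen0.le (by unfold Zb; positivity))) ?_
    refine le_trans ?_ (div_le_div_of_nonneg_right hmain (by norm_num))
    unfold Zb
    rw [← hl, div_div, mul_div_assoc', div_le_div_iff₀ (by positivity) (by positivity)]
    have h := mul_le_mul_of_nonneg_left hl1 (by positivity : 0 ≤ len * l ^ 3)
    have hpos : 0 ≤ len * l ^ 3 := by positivity
    nlinarith
  -- the square root term
  have e2 : 4 * Real.sqrt q + ω * ((KS γ (32 * q)).card : ℝ) ≤ len * lam q / 6 := by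
    refine le_trans ?_ (div_le_div_of_nonneg_right hmain (by norm_num))
    set r := Real.sqrt (Real.sqrt (q:ℝ))
    have hr2 : r ^ 2 = Real.sqrt q := Real.sq_sqrt (Real.sqrt_nonneg _)
    have hr4 : r ^ 4 = q := by
      rw [show r ^ 4 = (r ^ 2) ^ 2 by ring, hr2, Real.sq_sqrt (by linarith)]
    have hr1 : 1 ≤ r := by
      rw [Real.one_le_sqrt, Real.one_le_sqrt]; linarith
    have hrM : 1000 * c / L ≤ r := by
      apply Real.le_sqrt_of_sq_le
      apply Real.le_sqrt_of_sq_le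
      linarith [le_max_right (Real.exp 6480) (((1000 * c / L) ^ 2) ^ 2)]
    have hlr : l ≤ 4 * r := by
      have h := Real.log_le_self (by linarith : 0 ≤ r)
      have e : l = 4 * Real.log r := by
        rw [hl, ← hr4, Real.log_pow]; norm_num
      linarith
    have hc1 : 300 ≤ c := by
      rw [hc]
      have := Real.add_one_le_exp (1:ℝ)
      norm_num [Nat.factorial]
      linarith
    rw [← hr2]
    have h240 : 240 * l ^ 2 ≤ 3840 * r ^ 2 := by nlinarith
    rw [div_div, le_div_iff₀ (by positivity)]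
    have hLr : 300000 ≤ L * r := by
      have := (div_le_iff₀ hL).1 hrM
      nlinarith
    have h5 : L * r ^ 4 ≤ len := by rw [hr4]; exact hlen
    have h6 : (4 * r ^ 2 + ω * ((KS γ (32 * q)).card : ℝ)) * (3 * l * 6) ≤ (3844 * r ^ 2) * (18 * (4 * r)) := by
      apply mul_le_mul (by linarith) (by linarith) (by positivity) (by positivity)
    have h7 : (3844 * r ^ 2) * (18 * (4 * r)) ≤ 100000 * 3 * r ^ 3 := by
      have : 0 ≤ r ^ 3 := by positivity
      linarith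
    nlinarith [mul_le_mul_of_nonneg_right hLr (by positivity : 0 ≤ r ^ 3)]
  have : ω * ((KS γ (32 * q)).card : ℝ) * (len / Zb q + 1)
      = ω * ((KS γ (32 * q)).card : ℝ) * (len / Zb q) + ω * ((KS γ (32 * q)).card : ℝ) := by ring
  have hnn : 0 ≤ len * lam q := mul_nonneg hlen0.le (lam_nonneg q)
  linarith

/-- The interval attached to the numerator `a`. -/
def J (γ : ℝ) (ψ : ℕ → ℝ) (q : ℕ) (a : ℤ) : Set ℝ :=
  Set.Ioo (((a:ℝ) + γ - ψ q) / q) (((a:ℝ) + γ + ψ q) / q)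

/-- The selected approximation set for the denominator `q`. -/
noncomputable def SSet (γ : ℝ) (ψ : ℕ → ℝ) (q : ℕ) : Set ℝ := ⋃ a ∈ Eset γ q, J γ ψ q a

lemma mem_J {γ : ℝ} {ψ : ℕ → ℝ} {q : ℕ} {a : ℤ} {x : ℝ} (hq : 0 < q) :
    x ∈ J γ ψ q a ↔ |(q:ℝ) * x - a - γ| < ψ q := by
  have hq' : (0:ℝ) < q := by exact_mod_cast hq
  rw [J, Set.mem_Ioo, div_lt_iff₀ hq', lt_div_iff₀ hq', abs_lt]
  constructor <;> rintro ⟨h1, h2⟩ <;> constructor <;> linarith

lemma measurableSet_SSet (γ : ℝ) (ψ : ℕ → ℝ) (q : ℕ) : MeasurableSet (SSet γ ψ q) :=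
  Finset.measurableSet_biUnion _ fun _ _ => measurableSet_Ioo

lemma J_disjoint {γ : ℝ} {ψ : ℕ → ℝ} {q : ℕ} (hq : 0 < q) (hψ : 2 * ψ q ≤ 1) (s : Set ℤ) :
    s.PairwiseDisjoint (J γ ψ q) := by
  intro a _ b _ hab
  refine Set.disjoint_left.2 fun x ha hb => hab ?_
  rw [mem_J hq, abs_lt] at ha hb
  have h : |((a - b : ℤ) : ℝ)| < 1 := by push_cast; rw [abs_lt]; constructor <;> linarith
  have h' : |a - b| < 1 := by exact_mod_cast h
  have := Int.abs_lt_one_iff.1 h'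
  omega

lemma volume_real_J {γ : ℝ} {ψ : ℕ → ℝ} {q : ℕ} (hψ : 0 ≤ ψ q) (a : ℤ) :
    volume.real (J γ ψ q a) = 2 * ψ q / q := by
  rw [J, Real.volume_real_Ioo_of_le (div_le_div_of_nonneg_right (by linarith) (Nat.cast_nonneg _))]
  ring

lemma J_finite (γ : ℝ) (ψ : ℕ → ℝ) (q : ℕ) (a : ℤ) : volume (J γ ψ q a) ≠ ⊤ := by
  rw [J, Real.volume_Ioo]; exact ENNReal.ofReal_ne_top

lemma SSet_finite (γ : ℝ) (ψ : ℕ → ℝ) (q : ℕ) : volume (SSet γ ψ q) ≠ ⊤ :=
  ((measure_biUnion_finset_le _ _).trans_lt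
    (ENNReal.sum_lt_top.2 fun a _ => (J_finite γ ψ q a).lt_top)).ne

lemma volume_real_SSet {γ : ℝ} {ψ : ℕ → ℝ} {q : ℕ} (hq : 0 < q) (hψ0 : 0 ≤ ψ q) (hψ : 2 * ψ q ≤ 1) :
    volume.real (SSet γ ψ q) = (Eset γ q).card * (2 * ψ q / q) := by
  rw [SSet, measureReal_biUnion_finset (J_disjoint hq hψ _) (fun _ _ => measurableSet_Ioo)
    (fun a _ => J_finite γ ψ q a), Finset.sum_congr rfl (fun a _ => volume_real_J hψ0 a),
    Finset.sum_const, nsmul_eq_mul]

lemma volume_real_SSet_le {γ : ℝ} {ψ : ℕ → ℝ} {q : ℕ} (hq : 0 < q) (hψ0 : 0 ≤ ψ q)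
    (hψ : 2 * ψ q ≤ 1) : volume.real (SSet γ ψ q) ≤ 2 * lam q * ψ q := by
  rw [volume_real_SSet hq hψ0 hψ]
  refine (mul_le_mul_of_nonneg_right (card_Eset_le γ hq) (by positivity)).trans (le_of_eq ?_)
  have : (q:ℝ) ≠ 0 := by positivity
  field_simp

/-- In every subinterval of the unit interval the selected set has the expected size. -/
lemma cell_lower (γ : ℝ) {α β : ℝ} (hα : 0 ≤ α) (hαβ : α < β) (hβ : β ≤ 1) :
    ∃ Q : ℕ, ∀ (ψ : ℕ → ℝ) (q : ℕ), Q ≤ q → 0 ≤ ψ q → 2 * ψ q ≤ 1 →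
      lam q * ψ q * (β - α) / 2 ≤ volume.real (SSet γ ψ q ∩ Set.Ico α β) := by
  obtain ⟨Q, hQ⟩ := window_eventually (L := (β - α) / 2) (by linarith)
  obtain ⟨M, hM⟩ := exists_nat_ge ((4 * |γ| + 8) / (β - α))
  refine ⟨max (max Q M) 1, fun ψ q hq hψ0 hψ => ?_⟩
  have hq1 : 1 ≤ q := le_trans (le_max_right _ _) hq
  have hqr : (1:ℝ) ≤ q := by exact_mod_cast hq1
  have hbig : 4 * |γ| + 8 ≤ (β - α) * q := by
    have h1 : (M:ℝ) ≤ q := by
      exact_mod_cast le_trans (le_trans (le_max_right _ _) (le_max_left _ _)) hq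
    have := (div_le_iff₀ (by linarith : (0:ℝ) < β - α)).1 hM
    nlinarith
  set u : ℤ := max 0 ⌈α * q - γ + 1⌉ with hu
  set v : ℤ := min (q:ℤ) ⌊β * q - γ - 1⌋ with hv
  have hlen : (β - α) / 2 * q ≤ (v:ℝ) - u := by
    have h1 : (u:ℝ) ≤ α * q + |γ| + 2 := by
      rw [hu]; push_cast
      have := Int.ceil_lt_add_one (α * q - γ + 1)
      have := neg_abs_le γ
      refine max_le ?_ ?_
      · have : 0 ≤ α * q := by positivity
        have := abs_nonneg γ
        linarith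
      · linarith
    have h2 : β * q - |γ| - 2 ≤ (v:ℝ) := by
      rw [hv]; push_cast
      have := Int.sub_one_lt_floor (β * q - γ - 1)
      have := le_abs_self γ
      refine le_min ?_ ?_
      · have : β * q ≤ q := mul_le_of_le_one_left (by linarith) hβ
        have := abs_nonneg γ
        linarith
      · linarith
    linarith
  have hcount := hQ γ q (le_trans (le_trans (le_max_left _ _) (le_max_left _ _)) hq) u v
    (le_max_left _ _) (min_le_left _ _) hlen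
  set G := (Eset γ q).filter (fun a => u ≤ a ∧ a < v)
  have hsub : (⋃ a ∈ G, J γ ψ q a) ⊆ SSet γ ψ q ∩ Set.Ico α β := by
    refine Set.iUnion₂_subset fun a ha x hx => ⟨?_, ?_⟩
    · exact Set.mem_biUnion (Finset.mem_filter.1 ha).1 hx
    · obtain ⟨h1, h2⟩ := (Finset.mem_filter.1 ha).2
      rw [mem_J hq1, abs_lt] at hx
      have e1 : α * q - γ + 1 ≤ (a:ℝ) := Int.ceil_le.1 (le_trans (le_max_right _ _) h1)
      have e2 : (a:ℝ) ≤ β * q - γ - 1 := Int.le_floor.1 (le_trans h2.le (min_le_right _ _))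
      constructor
      · by_contra hlt
        have := mul_lt_mul_of_pos_right (not_le.1 hlt) (by linarith : (0:ℝ) < q)
        linarith
      · by_contra hlt
        have := mul_le_mul_of_nonneg_right (not_lt.1 hlt) (by linarith : (0:ℝ) ≤ q)
        linarith
  refine le_trans ?_ (measureReal_mono hsub
    (measure_ne_top_of_subset Set.inter_subset_left (SSet_finite γ ψ q)))
  rw [measureReal_biUnion_finset (J_disjoint hq1 hψ _) (fun _ _ => measurableSet_Ioo)
    (fun a _ => J_finite γ ψ q a), Finset.sum_congr rfl (fun a _ => volume_real_J hψ0 a),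
    Finset.sum_const, nsmul_eq_mul]
  refine le_trans ?_ (mul_le_mul_of_nonneg_right hcount (by positivity))
  calc lam q * ψ q * (β - α) / 2 = lam q * ψ q / q * ((β - α) / 2 * q) := by
        field_simp
    _ ≤ lam q * ψ q / q * ((v:ℝ) - u) :=
        mul_le_mul_of_nonneg_left hlen (by have := lam_nonneg q; positivity)
    _ = _ := by ring

end Vale.Agent.P028
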